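import Claimed.Agent.R286.Exit.ClkPr
import Claimed.Agent.R286.Exit.ClkStat

/-!
# Row 286 (S0533), PE Section 7, file Fl/Chord : the chord comparison (PE Lemma 7.1) on the SK path numbers      (owner helper49, co-architect of helper196; prefix `flq_`)

Everything is PROVED from the exits of the clock API (`Exit/ClkPr`, `Exit/ClkStat`); terminal mass `a > 0` arbitrary, size `n > 0`.
* `flq_mvt`      mean value form of line 1 of PE (1): `f(b',h') - f(b,h) = ckDPr θ` for some `θ ∈ (0,1)`      (= the field `seg` of `CmPr.Ok`, Cmp/P04Obj)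
* `flq_chord`    **PE Lemma 7.1**: `f(b + α, h - c) ≤ f(b,h) + ¼ ∫ c²/α`
* `flq_anti`     the self corrected pressure is nonincreasing in both clocks
* `flq_low`      removing `ε' - ε ≥ 0` of matrix clock on the masses `u < s`: `0 ≤ f(b') - f(b) ≤ s (ε' - ε)/4`      (PE l.52-56: `0 ≤ p' ≤ s/4`)
-/

set_option autoImplicit false

namespace Claimed.Agent.R286

open MeasureTheory Filter Topology Set

variable {n : ℕ} {a : ℝ}

theorem flq_seg_zero (c0 c1 : ℝ → ℝ) : ckSeg 0 c0 c1 = c0 := by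
  funext u
  simp [ckSeg]

theorem flq_seg_one (c0 c1 : ℝ → ℝ) : ckSeg 1 c0 c1 = c1 := by
  funext u
  simp [ckSeg]

theorem flq_seg_clk {c0 c1 : ℝ → ℝ} (h0 : GhClk1 a c0) (h1 : GhClk1 a c1) {θ : ℝ} (hθ : θ ∈ Icc (0 : ℝ) 1) :
    GhClk1 a (ckSeg θ c0 c1) := by
  obtain ⟨m0, z0⟩ := h0
  obtain ⟨m1, z1⟩ := h1
  have t0 : 0 ≤ 1 - θ := by linarith [hθ.2]
  refine ⟨fun x hx y hy hxy => ?_, ?_⟩
  · simp only [ckSeg]
    exact add_le_add (mul_le_mul_of_nonneg_left (m0 hx hy hxy) t0) (mul_le_mul_of_nonneg_left (m1 hx hy hxy) hθ.1)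
  · simp only [ckSeg]
    exact add_nonneg (mul_nonneg t0 z0) (mul_nonneg hθ.1 z1)

theorem flq_seg_adm {b0 h0 b1 h1 : ℝ → ℝ} (A0 : CkAdm a b0 h0) (A1 : CkAdm a b1 h1) {θ : ℝ} (hθ : θ ∈ Icc (0 : ℝ) 1) :
    CkAdm a (ckSeg θ b0 b1) (ckSeg θ h0 h1) :=
  ⟨flq_seg_clk A0.1 A1.1 hθ, flq_seg_clk A0.2 A1.2 hθ⟩

theorem flq_posA_ok {u : ℝ} (hu : u ∈ Icc (0 : ℝ) a) : (ghPosA u).Ok a :=
  ⟨hu.1, hu.2, by simp [GhPos.lam, ghPosA], by simp [GhPos.lam, ghPosA]⟩

/-- mean value form of line 1 of PE (1).   TEX[PE:lem:found-pressure] -/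
theorem flq_mvt (hn : 0 < n) (ha : 0 < a) {b0 h0 b1 h1 : ℝ → ℝ} (A0 : CkAdm a b0 h0) (A1 : CkAdm a b1 h1) :
    ∃ θ ∈ Ioo (0 : ℝ) 1, skCPr n a b1 h1 - skCPr n a b0 h0 = ckDPr n a b0 h0 b1 h1 θ := by
  obtain ⟨hd, -⟩ := exit_clk_pr_deriv hn ha A0 A1
  set φ : ℝ → ℝ := fun s => skCPr n a (ckSeg s b0 b1) (ckSeg s h0 h1) with hφ
  have hc : ContinuousOn φ (Icc 0 1) := fun θ hθ => (hd θ hθ).continuousWithinAt
  have hd' : ∀ θ ∈ Ioo (0 : ℝ) 1, HasDerivAt φ (ckDPr n a b0 h0 b1 h1 θ) θ := fun θ hθ =>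
    (hd θ (Ioo_subset_Icc_self hθ)).hasDerivAt (Icc_mem_nhds hθ.1 hθ.2)
  obtain ⟨θ, hθ, he⟩ := exists_hasDerivAt_eq_slope φ _ one_pos hc hd'
  refine ⟨θ, hθ, ?_⟩
  rw [he]
  simp only [hφ, flq_seg_zero, flq_seg_one]
  ring

/-- the statistics at the masses of `[0,a]` -/
theorem flq_SB (hn : 0 < n) (ha : 0 < a) {b h : ℝ → ℝ} (A : CkAdm a b h) {u : ℝ} (hu : u ∈ Icc (0 : ℝ) a) :
    0 ≤ skCS n a b h (ghPosA u) ∧ skCS n a b h (ghPosA u) ^ 2 ≤ skCB n a b h (ghPosA u) ∧ skCB n a b h (ghPosA u) ≤ 1 := by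
  obtain ⟨h1, -, -, h4, h5⟩ := exit_clk_SB hn ha A (flq_posA_ok hu) (flq_posA_ok hu) le_rfl
  exact ⟨h1, h4, h5⟩

theorem flq_S_le_one (hn : 0 < n) (ha : 0 < a) {b h : ℝ → ℝ} (A : CkAdm a b h) {u : ℝ} (hu : u ∈ Icc (0 : ℝ) a) :
    skCS n a b h (ghPosA u) ≤ 1 := by
  obtain ⟨h1, h2, h3⟩ := flq_SB hn ha A hu
  nlinarith

/-- a bounded integrable statistic times an integrable function -/
theorem flq_int_mul {F g : ℝ → ℝ} (ha : 0 < a) (hF : IntervalIntegrable F volume 0 a) (hb : ∀ u ∈ Icc (0 : ℝ) a, |F u| ≤ 1)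
    (hg : IntervalIntegrable g volume 0 a) : IntervalIntegrable (fun u => F u * g u) volume 0 a := by
  rw [intervalIntegrable_iff_integrableOn_Ioc_of_le ha.le] at hF hg ⊢
  refine Integrable.bdd_mul (c := 1) hg hF.aestronglyMeasurable ?_
  rw [ae_restrict_iff' measurableSet_Ioc]
  exact Eventually.of_forall fun u hu => hb u (Ioc_subset_Icc_self hu)

theorem flq_clk_int (ha : 0 < a) {c : ℝ → ℝ} (hc : GhClk1 a c) : IntervalIntegrable c volume 0 a :=
  MonotoneOn.intervalIntegrable (by rw [uIcc_of_le ha.le]; exact hc.1)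

/-- the derivative of the pressure, with the integrals merged -/
theorem flq_dpr (hn : 0 < n) (ha : 0 < a) {b0 h0 b1 h1 : ℝ → ℝ} (A0 : CkAdm a b0 h0) (A1 : CkAdm a b1 h1) {θ : ℝ}
    (hθ : θ ∈ Icc (0 : ℝ) 1) :
    IntervalIntegrable (fun u => skCB n a (ckSeg θ b0 b1) (ckSeg θ h0 h1) (ghPosA u) * (b1 u - b0 u)) volume 0 a ∧
    IntervalIntegrable (fun u => skCS n a (ckSeg θ b0 b1) (ckSeg θ h0 h1) (ghPosA u) * (h1 u - h0 u)) volume 0 a := by
  have A := flq_seg_adm A0 A1 hθ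
  obtain ⟨iS, iB, -⟩ := exit_clk_intble hn ha A
  refine ⟨flq_int_mul ha iB (fun u hu => ?_) ((flq_clk_int ha A1.1).sub (flq_clk_int ha A0.1)),
    flq_int_mul ha iS (fun u hu => ?_) ((flq_clk_int ha A1.2).sub (flq_clk_int ha A0.2))⟩
  · obtain ⟨h1, h2, h3⟩ := flq_SB hn ha A hu
    rw [abs_le]
    constructor <;> nlinarith
  · obtain ⟨h1, -, -⟩ := flq_SB hn ha A hu
    rw [abs_of_nonneg h1]
    exact flq_S_le_one hn ha A hu

/-- **PE Lemma 7.1 (chord comparison)**: `f(b + α, h - c) ≤ f(b,h) + ¼ ∫ c²/α`   (`c²/α = 0` where `α = 0`).   TEX[PE:fl:chord] -/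
theorem flq_chord (hn : 0 < n) (ha : 0 < a) {b h b' h' al c : ℝ → ℝ} (A0 : CkAdm a b h) (A1 : CkAdm a b' h')
    (hac : ∀ u ∈ Icc (0 : ℝ) a, b' u = b u + al u ∧ h' u = h u - c u)
    (hal : ∀ u ∈ Icc (0 : ℝ) a, 0 ≤ al u ∧ (al u = 0 → c u = 0))
    (hint : IntervalIntegrable (fun u => c u ^ 2 / al u) volume 0 a) :
    skCPr n a b' h' ≤ skCPr n a b h + (1 / 4) * ∫ u in (0 : ℝ)..a, c u ^ 2 / al u := by
  obtain ⟨θ, hθ, he⟩ := flq_mvt hn ha A0 A1
  have hθ' := Ioo_subset_Icc_self hθ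
  have A := flq_seg_adm A0 A1 hθ'
  obtain ⟨i1, i2⟩ := flq_dpr hn ha A0 A1 hθ'
  have key : ckDPr n a b h b' h' θ ≤ (1 / 4) * ∫ u in (0 : ℝ)..a, c u ^ 2 / al u := by
    unfold ckDPr
    rw [← intervalIntegral.integral_const_mul, ← intervalIntegral.integral_const_mul, ← intervalIntegral.integral_const_mul,
      ← intervalIntegral.integral_sub (i1.const_mul _) (i2.const_mul _)]
    refine intervalIntegral.integral_mono_on ha.le ((i1.const_mul _).sub (i2.const_mul _)) (hint.const_mul _) fun u hu => ?_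
    obtain ⟨e1, e2⟩ := hac u hu
    obtain ⟨p1, p2⟩ := hal u hu
    obtain ⟨s0, s1, -⟩ := flq_SB hn ha A hu
    set S := skCS n a (ckSeg θ b b') (ckSeg θ h h') (ghPosA u)
    set B := skCB n a (ckSeg θ b b') (ckSeg θ h h') (ghPosA u)
    rw [e1, e2]
    have e3 : -(1 / 4) * (B * (b u + al u - b u)) - 1 / 2 * (S * (h u - c u - h u)) = -(1 / 4) * (B * al u) + 1 / 2 * (S * c u) := by ring
    rw [e3]
    rcases p1.eq_or_lt with h0 | h0
    · rw [← h0, p2 h0.symm]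
      simp
    · have h5 : B * al u ≥ S ^ 2 * al u := mul_le_mul_of_nonneg_right s1 p1
      have h6 : 0 ≤ (al u * S - c u) ^ 2 / al u := by positivity
      have h7 : (al u * S - c u) ^ 2 / al u = S ^ 2 * al u - 2 * (S * c u) + c u ^ 2 / al u := by
        field_simp
        ring
      rw [h7] at h6
      linarith
  linarith

/-- the self corrected pressure is nonincreasing in both clocks -/
theorem flq_anti (hn : 0 < n) (ha : 0 < a) {b h b' h' : ℝ → ℝ} (A0 : CkAdm a b h) (A1 : CkAdm a b' h')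
    (hb : ∀ u ∈ Icc (0 : ℝ) a, b' u ≤ b u) (hh : ∀ u ∈ Icc (0 : ℝ) a, h' u ≤ h u) :
    skCPr n a b h ≤ skCPr n a b' h' := by
  obtain ⟨θ, hθ, he⟩ := flq_mvt hn ha A0 A1
  have hθ' := Ioo_subset_Icc_self hθ
  have A := flq_seg_adm A0 A1 hθ'
  have key : 0 ≤ ckDPr n a b h b' h' θ := by
    unfold ckDPr
    have k1 : ∫ u in (0 : ℝ)..a, skCB n a (ckSeg θ b b') (ckSeg θ h h') (ghPosA u) * (b' u - b u) ≤ 0 := by
      rw [← neg_nonneg, ← intervalIntegral.integral_neg]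
      refine intervalIntegral.integral_nonneg ha.le fun u hu => ?_
      obtain ⟨s0, s1, -⟩ := flq_SB hn ha A hu
      exact neg_nonneg.2 (mul_nonpos_of_nonneg_of_nonpos ((sq_nonneg _).trans s1) (by linarith [hb u hu]))
    have k2 : ∫ u in (0 : ℝ)..a, skCS n a (ckSeg θ b b') (ckSeg θ h h') (ghPosA u) * (h' u - h u) ≤ 0 := by
      rw [← neg_nonneg, ← intervalIntegral.integral_neg]
      refine intervalIntegral.integral_nonneg ha.le fun u hu => ?_
      obtain ⟨s0, -, -⟩ := flq_SB hn ha A hu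
      exact neg_nonneg.2 (mul_nonpos_of_nonneg_of_nonpos s0 (by linarith [hh u hu]))
    linarith
  linarith

/-! ### the function `p(ε)` -/

/-- the matrix clock `T - ε 1_{u<s}` -/
noncomputable def flqB (s T ε : ℝ) (u : ℝ) : ℝ := if u < s then T - ε else T

/-- `p(ε) = f_n(T - ε 1_{u<s}, 0)`   (PE l.33) -/
noncomputable def flqP (n : ℕ) (s T ε : ℝ) : ℝ := skCPr n 1 (flqB s T ε) fun _ => 0

theorem flq_eqns_cite : True := by
  have := @flqB.eq_1
  have := @flqP.eq_1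
  trivial

theorem flq_B_clk {s T ε : ℝ} (h0 : 0 ≤ ε) (h1 : ε ≤ T) : GhClk1 a (flqB s T ε) := by
  refine ⟨fun x _ y _ hxy => ?_, ?_⟩
  · unfold flqB
    split_ifs with h2 h3 h3
    · exact le_rfl
    · linarith
    · exact absurd (lt_of_le_of_lt hxy h3) h2
    · exact le_rfl
  · unfold flqB
    split_ifs <;> linarith

theorem flq_zero_clk : GhClk1 a (fun _ => (0 : ℝ)) := ⟨fun _ _ _ _ _ => le_rfl, le_rfl⟩

theorem flq_B_adm {s T ε : ℝ} (h0 : 0 ≤ ε) (h1 : ε ≤ T) : CkAdm a (flqB s T ε) (fun _ => 0) :=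
  ⟨flq_B_clk h0 h1, flq_zero_clk⟩

/-- PE l.52-56: `0 ≤ p(ε') - p(ε) ≤ s (ε' - ε)/4` -/
theorem flq_P_mono (hn : 0 < n) {s T ε ε' : ℝ} (hs : 0 ≤ s) (hs1 : s ≤ 1) (h0 : 0 ≤ ε) (h1 : ε ≤ ε') (h2 : ε' ≤ T) :
    0 ≤ flqP n s T ε' - flqP n s T ε ∧ flqP n s T ε' - flqP n s T ε ≤ s * (ε' - ε) / 4 := by
  have A0 : CkAdm 1 (flqB s T ε) (fun _ => 0) := flq_B_adm h0 (h1.trans h2)
  have A1 : CkAdm 1 (flqB s T ε') (fun _ => 0) := flq_B_adm (h0.trans h1) h2
  constructor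
  · have := flq_anti hn one_pos A0 A1 (fun u _ => by
      unfold flqB
      split_ifs <;> linarith) (fun u _ => le_rfl)
    unfold flqP
    linarith
  · have hl := exit_clk_pr_lip hn one_pos A1 A0
    have hi : IntervalIntegrable (fun u => |flqB s T ε' u - flqB s T ε u|) volume 0 1 :=
      ((flq_clk_int one_pos A1.1).sub (flq_clk_int one_pos A0.1)).abs
    have e1 : ∫ u in (0 : ℝ)..1, |flqB s T ε' u - flqB s T ε u| ≤ s * (ε' - ε) := by
      have i1 : IntervalIntegrable (fun u => |flqB s T ε' u - flqB s T ε u|) volume 0 s :=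
        hi.mono_set (by rw [uIcc_of_le hs, uIcc_of_le zero_le_one]; exact Icc_subset_Icc le_rfl hs1)
      have i2 : IntervalIntegrable (fun u => |flqB s T ε' u - flqB s T ε u|) volume s 1 :=
        hi.mono_set (by rw [uIcc_of_le hs1, uIcc_of_le zero_le_one]; exact Icc_subset_Icc hs le_rfl)
      rw [← intervalIntegral.integral_add_adjacent_intervals i1 i2]
      have k1 : ∫ u in (0 : ℝ)..s, |flqB s T ε' u - flqB s T ε u| ≤ ∫ _u in (0 : ℝ)..s, (ε' - ε) := by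
        refine intervalIntegral.integral_mono_on hs i1 intervalIntegrable_const fun u _ => ?_
        unfold flqB
        split_ifs
        · rw [abs_le]; constructor <;> linarith
        · simp; linarith
      have k2 : ∫ u in s..1, |flqB s T ε' u - flqB s T ε u| = 0 := by
        rw [← intervalIntegral.integral_zero (a := s) (b := 1) (μ := volume) (E := ℝ)]
        refine intervalIntegral.integral_congr fun u hu => ?_
        rw [uIcc_of_le hs1] at hu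
        simp only [flqB, if_neg (not_lt.2 hu.1), sub_self, abs_zero]
      rw [intervalIntegral.integral_const, smul_eq_mul, sub_zero] at k1
      linarith
    have e2 : ∫ u in (0 : ℝ)..1, |(fun _ : ℝ => (0 : ℝ)) u - (fun _ : ℝ => (0 : ℝ)) u| = 0 := by simp
    rw [e2] at hl
    have := (le_abs_self _).trans hl
    unfold flqP
    linarith

end Claimed.Agent.R286
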