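import Mathlib

/-!
# Row 286 (S0533), PE Sec. 7 (package P13), file Num : THE ARITHMETIC OF THE LAPLACE WINDOW      (helper158; prefix `sk_fn_`)

MATHLIB ONLY, numbers only (abstract over `f_n`).
`sk_fn_iter`   : the iteration `ε ↦ ε + min(ε, T-ε)/4` (PE l.470-486) at fixed `n`.
`sk_fn_window` : (S0) endpoints, (S2) lower comparison (30), (S3) initial upper comparison, (S7) cost of a wall sweep   ⟹   PE Prop 7.5.
-/

set_option autoImplicit false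

namespace Claimed.Agent.R286

open Filter Topology

/-- the step of the iteration -/
noncomputable def skFnStep (T ε : ℝ) : ℝ := ε + min ε (T - ε) / 4

theorem sk_fn_eqns_cite : True := by
  have := @skFnStep.eq_1
  trivial

theorem sk_fn_step_lt {T ε : ℝ} (h0 : 0 < ε) (h1 : ε < T) : ε < skFnStep T ε ∧ skFnStep T ε < T := by
  unfold skFnStep
  have h2 : 0 < min ε (T - ε) := lt_min h0 (by linarith)
  have h3 : min ε (T - ε) ≤ T - ε := min_le_right _ _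
  constructor <;> linarith

/-- the potential `ε/(T-ε)` grows by the factor `5/4` -/
theorem sk_fn_step_pot {T ε : ℝ} (h0 : 0 < ε) (h1 : ε < T) :
    5 / 4 * (ε * (T - skFnStep T ε)) ≤ skFnStep T ε * (T - ε) := by
  unfold skFnStep
  rcases le_total ε (T - ε) with h | h
  · rw [min_eq_left h]
    nlinarith
  · rw [min_eq_right h]
    nlinarith

theorem sk_fn_iter_aux {T Δ ε0 : ℝ} {p : ℝ → ℝ} (hε0 : 0 < ε0) (hε0T : ε0 < T)
    (hstep : ∀ ε, ε0 ≤ ε → ε < T → p (skFnStep T ε) - p ε ≤ Δ) (N : ℕ) :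
    ∃ ε, ε0 ≤ ε ∧ ε < T ∧ p ε - p ε0 ≤ N * Δ ∧ (5 / 4 : ℝ) ^ N * (ε0 * (T - ε)) ≤ ε * (T - ε0) := by
  induction N with
  | zero => exact ⟨ε0, le_rfl, hε0T, by simp, by simp⟩
  | succ N ih =>
    obtain ⟨ε, h1, h2, h3, h4⟩ := ih
    have hε : 0 < ε := lt_of_lt_of_le hε0 h1
    obtain ⟨a1, a2⟩ := sk_fn_step_lt hε h2
    refine ⟨skFnStep T ε, h1.trans a1.le, a2, ?_, ?_⟩
    · have := hstep ε h1 h2
      push_cast
      linarith
    · have b := sk_fn_step_pot hε h2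
      set ε' := skFnStep T ε
      have hd : 0 < T - ε := by linarith
      have hd' : 0 < T - ε' := by linarith
      -- multiply h4 by (T-ε')·(5/4) and b by ...
      have e1 : (5 / 4 : ℝ) ^ (N + 1) * (ε0 * (T - ε')) * (ε * (T - ε)) ≤ ε' * (T - ε0) * (ε * (T - ε)) := by
        calc (5 / 4 : ℝ) ^ (N + 1) * (ε0 * (T - ε')) * (ε * (T - ε))
            = ((5 / 4 : ℝ) ^ N * (ε0 * (T - ε))) * (5 / 4 * (ε * (T - ε'))) := by ring
          _ ≤ (ε * (T - ε0)) * (ε' * (T - ε)) := by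
              refine mul_le_mul h4 b (by positivity) ?_
              have : 0 < T - ε0 := by linarith
              positivity
          _ = ε' * (T - ε0) * (ε * (T - ε)) := by ring
      exact le_of_mul_le_mul_right e1 (by positivity)

/-- **the iteration** (PE l.470-486) at fixed `n` -/
theorem sk_fn_iter {T s Δ ε0 ρ : ℝ} {p : ℝ → ℝ} (N : ℕ) (hε0 : 0 < ε0) (hε0T : ε0 < T) (hρ : 0 < ρ) (hs : 0 ≤ s)
    (hLip : ∀ ε, 0 ≤ ε → ε ≤ T → p T - p ε ≤ s * (T - ε) / 4)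
    (hstep : ∀ ε, ε0 ≤ ε → ε < T → p (skFnStep T ε) - p ε ≤ Δ)
    (hN : T ^ 2 / (ε0 * ρ) ≤ (5 / 4 : ℝ) ^ N) : p T - p ε0 ≤ N * Δ + s * ρ / 4 := by
  obtain ⟨ε, h1, h2, h3, h4⟩ := sk_fn_iter_aux hε0 hε0T hstep N
  have hε : 0 < ε := lt_of_lt_of_le hε0 h1
  have hT : 0 < T := hε.trans h2
  have h5 : T - ε ≤ ρ := by
    rw [div_le_iff₀ (by positivity)] at hN
    have h6 : T ^ 2 * (T - ε) ≤ T ^ 2 * ρ := by
      have hd : 0 < T - ε := by linarith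
      have e1 : T ^ 2 * (ε0 * (T - ε)) ≤ (5 / 4 : ℝ) ^ N * (ε0 * ρ) * (ε0 * (T - ε)) :=
        mul_le_mul_of_nonneg_right hN (by positivity)
      have e2 : (5 / 4 : ℝ) ^ N * (ε0 * ρ) * (ε0 * (T - ε)) ≤ (ε0 * ρ) * (ε * (T - ε0)) := by
        calc (5 / 4 : ℝ) ^ N * (ε0 * ρ) * (ε0 * (T - ε)) = (ε0 * ρ) * ((5 / 4 : ℝ) ^ N * (ε0 * (T - ε))) := by ring
          _ ≤ _ := mul_le_mul_of_nonneg_left h4 (by positivity)
      have e3 : ε * (T - ε0) ≤ T * T := by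
        refine mul_le_mul h2.le (by linarith) (by linarith) hT.le
      have e4 : (ε0 * ρ) * (ε * (T - ε0)) ≤ (ε0 * ρ) * (T * T) := mul_le_mul_of_nonneg_left e3 (by positivity)
      have e5 : ε0 * (T ^ 2 * (T - ε)) ≤ ε0 * (T ^ 2 * ρ) := by nlinarith
      exact le_of_mul_le_mul_left e5 hε0
    exact le_of_mul_le_mul_left h6 (by positivity)
  have h7 := hLip ε hε.le h2.le
  have h8 : s * (T - ε) / 4 ≤ s * ρ / 4 := by
    have := mul_le_mul_of_nonneg_left h5 hs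
    linarith
  linarith

/-- the number of steps is `O(n^a)` for every `a > 0` -/
theorem sk_fn_steps {T a : ℝ} (hT : 1 < T) (ha : 0 < a) :
    ∃ A : ℝ, 0 ≤ A ∧ ∀ n : ℕ, 1 ≤ n → ∃ N : ℕ, T ^ 2 * (n : ℝ) ^ (6 : ℝ) ≤ (5 / 4 : ℝ) ^ N ∧ (N : ℝ) ≤ A * (n : ℝ) ^ a := by
  have hl : 0 < Real.log (5 / 4) := Real.log_pos (by norm_num)
  have hlT : 0 < Real.log T := Real.log_pos hT
  refine ⟨(2 * Real.log T + 6 / a) / Real.log (5 / 4) + 1, by positivity, fun n hn => ?_⟩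
  have hn1 : (1 : ℝ) ≤ n := by exact_mod_cast hn
  have hn0 : (0 : ℝ) < n := by linarith
  set x : ℝ := Real.log (T ^ 2 * (n : ℝ) ^ (6 : ℝ)) / Real.log (5 / 4) with hx
  have hpos : 0 < T ^ 2 * (n : ℝ) ^ (6 : ℝ) := by positivity
  have hlog : Real.log (T ^ 2 * (n : ℝ) ^ (6 : ℝ)) = 2 * Real.log T + 6 * Real.log n := by
    rw [Real.log_mul (by positivity) (by positivity), Real.log_pow, Real.log_rpow hn0]
    push_cast
    ring
  have hna : 1 ≤ (n : ℝ) ^ a := Real.one_le_rpow hn1 ha.le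
  have hln : Real.log n ≤ (n : ℝ) ^ a / a := Real.log_le_rpow_div hn0.le ha
  have hln0 : 0 ≤ Real.log n := Real.log_nonneg hn1
  have hx0 : 0 ≤ x := by
    rw [hx, hlog]
    positivity
  refine ⟨⌈x⌉₊, ?_, ?_⟩
  · have h1 : x ≤ (⌈x⌉₊ : ℝ) := Nat.le_ceil x
    have h2 : Real.log (T ^ 2 * (n : ℝ) ^ (6 : ℝ)) ≤ (⌈x⌉₊ : ℝ) * Real.log (5 / 4) := by
      rw [hx, div_le_iff₀ hl] at h1
      exact h1
    rw [← Real.log_le_log_iff hpos (by positivity), Real.log_pow]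
    exact h2
  · have h1 : (⌈x⌉₊ : ℝ) < x + 1 := Nat.ceil_lt_add_one hx0
    have h2 : x ≤ (2 * Real.log T + 6 / a) / Real.log (5 / 4) * (n : ℝ) ^ a := by
      rw [hx, hlog, div_mul_eq_mul_div]
      refine div_le_div_of_nonneg_right ?_ hl.le
      have e1 : 2 * Real.log T ≤ 2 * Real.log T * (n : ℝ) ^ a := by nlinarith
      have e2 : 6 * Real.log n ≤ 6 / a * (n : ℝ) ^ a := by
        calc 6 * Real.log n ≤ 6 * ((n : ℝ) ^ a / a) := by linarith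
          _ = 6 / a * (n : ℝ) ^ a := by ring
      nlinarith
    nlinarith

/-- **PE Prop 7.5 in numbers.**   `p n ε` = `p(ε)` at size `n`, `K n` = `K_n(s_n)`, `s_n = n^(-1/6+5m)`.
Hypotheses: `hK`, `hmono` = (S0) (endpoints; `0 ≤ p' ≤ s/4`), `hlow` = (30), `hini` = initial upper comparison, `hwall` = Lemma 7.4 + ledger. -/
theorem sk_fn_window {T m : ℝ} (hT : 1 < T) (hm0 : 0 < m) (hm : m < 1 / 300) (p : ℕ → ℝ → ℝ) (K : ℕ → ℝ)
    (hK : ∀ᶠ n : ℕ in atTop, K n = (n : ℝ) * (n : ℝ) ^ (-(1 / 6 : ℝ) + 5 * m) * (p n T - p n 0))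
    (hmono : ∀ᶠ n : ℕ in atTop, ∀ ε ε' : ℝ, 0 ≤ ε → ε ≤ ε' → ε' ≤ T →
      0 ≤ p n ε' - p n ε ∧ p n ε' - p n ε ≤ (n : ℝ) ^ (-(1 / 6 : ℝ) + 5 * m) * (ε' - ε) / 4)
    (hlow : ∃ c : ℝ, 0 < c ∧ ∀ᶠ n : ℕ in atTop, c * (n : ℝ) ^ (-(5 / 6 : ℝ) + 15 * m) ≤ p n ((n : ℝ) ^ (-(1 / 3 : ℝ))) - p n 0)
    (hini : ∃ C : ℝ, ∀ᶠ n : ℕ in atTop, p n ((n : ℝ) ^ (-(1 / 3 : ℝ) + 40 * m)) - p n 0 ≤ C * (n : ℝ) ^ (-(5 / 6 : ℝ) + 95 * m))
    (hwall : ∃ C : ℝ, ∀ᶠ n : ℕ in atTop, ∀ ε : ℝ, (n : ℝ) ^ (-(1 / 3 : ℝ) + 40 * m) ≤ ε → ε < T →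
      p n (skFnStep T ε) - p n ε ≤ C * (n : ℝ) ^ (-(5 / 6 : ℝ) + 70 * m)) :
    ∃ c C : ℝ, 0 < c ∧ ∀ᶠ n : ℕ in atTop, c * (n : ℝ) ^ (20 * m) ≤ K n ∧ K n ≤ C * (n : ℝ) ^ (100 * m) := by
  obtain ⟨c, hc, hlow⟩ := hlow
  obtain ⟨C1, hini⟩ := hini
  obtain ⟨C2, hwall⟩ := hwall
  obtain ⟨A, hA, hsteps⟩ := sk_fn_steps hT (a := 25 * m) (by positivity)
  refine ⟨c, |C1| + A * |C2| + 1, hc, ?_⟩
  filter_upwards [hK, hmono, hlow, hini, hwall, eventually_ge_atTop 1] with n hK hmono hlow hini hwall hn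
  have hn1 : (1 : ℝ) ≤ n := by exact_mod_cast hn
  have hn0 : (0 : ℝ) < n := by linarith
  have hT0 : 0 < T := by linarith
  set s : ℝ := (n : ℝ) ^ (-(1 / 6 : ℝ) + 5 * m) with hs
  have hs0 : 0 < s := Real.rpow_pos_of_pos hn0 _
  have hns : (n : ℝ) * s = (n : ℝ) ^ ((5 / 6 : ℝ) + 5 * m) := by
    rw [hs]
    nth_rewrite 1 [← Real.rpow_one (n : ℝ)]
    rw [← Real.rpow_add hn0]
    congr 1
    ring
  have hle : ∀ a b : ℝ, a ≤ b → (n : ℝ) ^ a ≤ (n : ℝ) ^ b := fun a b h => Real.rpow_le_rpow_of_exponent_le hn1 h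
  have hle1 : ∀ a : ℝ, a ≤ 0 → (n : ℝ) ^ a ≤ 1 := fun a h => Real.rpow_le_one_of_one_le_of_nonpos hn1 h
  rw [hK, hns]
  constructor
  · -- lower bound
    have h1 : (n : ℝ) ^ (-(1 / 3 : ℝ)) ≤ T := (hle1 _ (by norm_num)).trans hT.le
    have h2 := (hmono _ T (Real.rpow_nonneg hn0.le _) h1 le_rfl).1
    have h3 : c * (n : ℝ) ^ (-(5 / 6 : ℝ) + 15 * m) ≤ p n T - p n 0 := by linarith
    calc c * (n : ℝ) ^ (20 * m) = (n : ℝ) ^ ((5 / 6 : ℝ) + 5 * m) * (c * (n : ℝ) ^ (-(5 / 6 : ℝ) + 15 * m)) := by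
          rw [mul_left_comm, ← Real.rpow_add hn0]
          congr 2
          ring
      _ ≤ _ := mul_le_mul_of_nonneg_left h3 (Real.rpow_nonneg hn0.le _)
  · -- upper bound
    set ε0 : ℝ := (n : ℝ) ^ (-(1 / 3 : ℝ) + 40 * m) with hε0
    have hε0p : 0 < ε0 := Real.rpow_pos_of_pos hn0 _
    have hε0T : ε0 < T := lt_of_le_of_lt (hle1 _ (by linarith)) hT
    obtain ⟨N, hN1, hN2⟩ := hsteps n hn
    set ρ : ℝ := (n : ℝ) ^ (-(5 : ℝ)) with hρ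
    have hρ0 : 0 < ρ := Real.rpow_pos_of_pos hn0 _
    have hN : T ^ 2 / (ε0 * ρ) ≤ (5 / 4 : ℝ) ^ N := by
      refine le_trans ?_ hN1
      rw [div_le_iff₀ (by positivity), mul_assoc]
      have : 1 ≤ (n : ℝ) ^ (6 : ℝ) * (ε0 * ρ) := by
        rw [hε0, hρ, ← Real.rpow_add hn0, ← Real.rpow_add hn0]
        exact Real.one_le_rpow hn1 (by linarith)
      nlinarith [sq_nonneg T]
    have hit := sk_fn_iter (T := T) (s := s) (Δ := C2 * (n : ℝ) ^ (-(5 / 6 : ℝ) + 70 * m)) (p := p n) N hε0p hε0T hρ0 hs0.le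
      (fun ε h0 h1 => (hmono ε T h0 h1 le_rfl).2) hwall hN
    set P : ℝ := (n : ℝ) ^ (-(5 / 6 : ℝ) + 95 * m) with hP
    have hP0 : 0 < P := Real.rpow_pos_of_pos hn0 _
    have t1 : (N : ℝ) * (C2 * (n : ℝ) ^ (-(5 / 6 : ℝ) + 70 * m)) ≤ A * |C2| * P := by
      have e0 : (0 : ℝ) ≤ (n : ℝ) ^ (-(5 / 6 : ℝ) + 70 * m) := Real.rpow_nonneg hn0.le _
      calc (N : ℝ) * (C2 * (n : ℝ) ^ (-(5 / 6 : ℝ) + 70 * m)) ≤ (N : ℝ) * (|C2| * (n : ℝ) ^ (-(5 / 6 : ℝ) + 70 * m)) := by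
            refine mul_le_mul_of_nonneg_left ?_ (Nat.cast_nonneg N)
            exact mul_le_mul_of_nonneg_right (le_abs_self _) e0
        _ ≤ (A * (n : ℝ) ^ (25 * m)) * (|C2| * (n : ℝ) ^ (-(5 / 6 : ℝ) + 70 * m)) :=
            mul_le_mul_of_nonneg_right hN2 (by positivity)
        _ = A * |C2| * ((n : ℝ) ^ (25 * m) * (n : ℝ) ^ (-(5 / 6 : ℝ) + 70 * m)) := by ring
        _ = A * |C2| * P := by
            rw [← Real.rpow_add hn0, hP]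
            congr 2
            ring
    have t2 : s * ρ / 4 ≤ P := by
      have : s * ρ ≤ P := by
        rw [hs, hρ, ← Real.rpow_add hn0, hP]
        exact hle _ _ (by linarith)
      have : 0 < s * ρ := by positivity
      linarith
    have t3 : C1 * P ≤ |C1| * P := mul_le_mul_of_nonneg_right (le_abs_self _) hP0.le
    have h4 : p n T - p n 0 ≤ (|C1| + A * |C2| + 1) * P := by
      have : p n T - p n 0 = (p n T - p n ε0) + (p n ε0 - p n 0) := by ring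
      rw [this]
      nlinarith
    calc (n : ℝ) ^ ((5 / 6 : ℝ) + 5 * m) * (p n T - p n 0) ≤ (n : ℝ) ^ ((5 / 6 : ℝ) + 5 * m) * ((|C1| + A * |C2| + 1) * P) :=
          mul_le_mul_of_nonneg_left h4 (Real.rpow_nonneg hn0.le _)
      _ = (|C1| + A * |C2| + 1) * (n : ℝ) ^ (100 * m) := by
          rw [mul_left_comm, hP, ← Real.rpow_add hn0]
          congr 2
          ring

end Claimed.Agent.R286
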