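import Claimed.Agent.R286.Fl.Scales
import Claimed.Agent.R286.Fl.Num

/-!
# Row 286 (S0533), PE Section 7, file Fl/Par : THE PARAMETERS OF THE SECTION, IN POWERS OF `n`      (owner helper254; head helper196; prefix `flp_`)
No open leaf in this file.
* `flp_ev_*`           powers of `n` absorb constants and logarithms (`∀ᶠ n in atTop`);   `flp_rp_*` calculus of `N ^ x`.
* `flp_tab1 .. flp_tab7`      the seven lines of the table (l.446-460);   `flp_H_a, flp_H_us, flp_H_L, flp_H_M, flp_H_rmin_bd`: `a, u_*, L, M(s), r_min` of the high call as powers (l.212-217).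
* `flp_L_ok, flp_U_ok, flp_H_ok, flp_ev_ok`      the three calls satisfy `CmCall.Ok 1 1`  (PE (3) + wall condition of (5)).
* `flp_ceil_*, flp_L_*, flp_U_*, flp_H_*`       all the ratios quoted in Sections 7.1-7.3.
* `flp_ev_small, flp_L_Al, flp_U_Al, flp_ev_L_Al, flp_ev_U_Al, flp_ev_EL, flp_ev_E0, flp_ev_S_DN, flp_ev_S_DH, flp_ev_DH_E0, flp_ev_errL, flp_errU`      eventual smallness for Sections 7.1, 7.2.
* `flp_wall_num`       first ⟹ second display of Lemma 7.4 (fixed numbers);   `flp_step_num`, `flp_step_num70`: comparison error + first display `≤ C n^(-5/6+67m) (log n)³ ≤ C n^(-5/6+70m)`.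
* `flp_step`, `flp_step70`, `flp_window`   the same on `flCL, flAL, flR0`;   `flp_window` = PE Prop 7.5 from S0, (30), the initial upper comparison and Lemma 7.4, through `sk_fn_window` (helper158).
-/

set_option autoImplicit false

namespace Claimed.Agent.R286

open MeasureTheory Filter Topology

/-! ### (B) powers of `n` -/

theorem flp_ev_pos : ∀ᶠ n : ℕ in atTop, (0 : ℝ) < (n : ℝ) ∧ (1 : ℝ) ≤ (n : ℝ) := by
  filter_upwards [eventually_ge_atTop 1] with n hn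
  have : (1 : ℝ) ≤ (n : ℝ) := by exact_mod_cast hn
  exact ⟨by linarith, this⟩

theorem flp_ev_const (C θ : ℝ) (hθ : 0 < θ) : ∀ᶠ n : ℕ in atTop, C ≤ (n : ℝ) ^ θ :=
  ((tendsto_rpow_atTop hθ).comp tendsto_natCast_atTop_atTop).eventually_ge_atTop C

theorem flp_ev_logpow (k : ℕ) (θ : ℝ) (hθ : 0 < θ) :
    ∀ᶠ n : ℕ in atTop, Real.log (n : ℝ) ^ k ≤ (n : ℝ) ^ θ := by
  have h := (isLittleO_log_rpow_rpow_atTop (k : ℝ) hθ).bound (show (0 : ℝ) < 1 by norm_num)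
  have h2 := tendsto_natCast_atTop_atTop (R := ℝ) |>.eventually h
  filter_upwards [h2, flp_ev_pos] with n hn hp
  rw [Real.rpow_natCast, one_mul, Real.norm_eq_abs, Real.norm_eq_abs] at hn
  calc Real.log (n : ℝ) ^ k ≤ |Real.log (n : ℝ) ^ k| := le_abs_self _
    _ ≤ |(n : ℝ) ^ θ| := hn
    _ = (n : ℝ) ^ θ := abs_of_nonneg (Real.rpow_nonneg hp.1.le _)

theorem flp_ev_afflog (a b θ : ℝ) (hθ : 0 < θ) :
    ∀ᶠ n : ℕ in atTop, a + b * Real.log (n : ℝ) ≤ (n : ℝ) ^ θ := by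
  have h1 := flp_ev_logpow 1 (θ / 2) (by positivity)
  have h2 := flp_ev_const (|a| + |b|) (θ / 2) (by positivity)
  filter_upwards [h1, h2, flp_ev_pos] with n h1 h2 hp
  rw [pow_one] at h1
  have h3 : (1 : ℝ) ≤ (n : ℝ) ^ (θ / 2) := Real.one_le_rpow hp.2 (by positivity)
  have h4 : (n : ℝ) ^ θ = (n : ℝ) ^ (θ / 2) * (n : ℝ) ^ (θ / 2) := by
    rw [← Real.rpow_add hp.1]; congr 1; ring
  have h5 : 0 ≤ Real.log (n : ℝ) := Real.log_nonneg hp.2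
  rw [h4]
  calc a + b * Real.log (n : ℝ) ≤ |a| * (n : ℝ) ^ (θ / 2) + |b| * (n : ℝ) ^ (θ / 2) := by
        refine add_le_add ?_ ?_
        · calc a ≤ |a| := le_abs_self a
            _ = |a| * 1 := (mul_one _).symm
            _ ≤ _ := mul_le_mul_of_nonneg_left h3 (abs_nonneg a)
        · calc b * Real.log (n : ℝ) ≤ |b| * Real.log (n : ℝ) := mul_le_mul_of_nonneg_right (le_abs_self b) h5
            _ ≤ _ := mul_le_mul_of_nonneg_left h1 (abs_nonneg b)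
    _ = (|a| + |b|) * (n : ℝ) ^ (θ / 2) := by ring
    _ ≤ _ := mul_le_mul_of_nonneg_right h2 (by linarith)

theorem flp_rpow_mono {n : ℕ} (hn : (1 : ℝ) ≤ (n : ℝ)) {a b : ℝ} (hab : a ≤ b) : (n : ℝ) ^ a ≤ (n : ℝ) ^ b :=
  Real.rpow_le_rpow_of_exponent_le hn hab

/-! ### (E) the scales of PE Section 7 and the power ledger -/

section ledger

variable {N : ℝ}

theorem flp_rp_mul (hN : 0 < N) (x y : ℝ) : N ^ x * N ^ y = N ^ (x + y) := (Real.rpow_add hN x y).symm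
theorem flp_rp_div (hN : 0 < N) (x y : ℝ) : N ^ x / N ^ y = N ^ (x - y) := (Real.rpow_sub hN x y).symm
theorem flp_rp_pow (hN : 0 < N) (x : ℝ) (k : ℕ) : (N ^ x) ^ k = N ^ (x * k) := by
  rw [← Real.rpow_natCast, ← Real.rpow_mul hN.le]
theorem flp_rp_inv (hN : 0 < N) (x : ℝ) : (N ^ x)⁻¹ = N ^ (-x) := (Real.rpow_neg hN.le x).symm
theorem flp_rp_self_mul (hN : 0 < N) (x : ℝ) : N * N ^ x = N ^ (1 + x) := by
  rw [Real.rpow_add hN, Real.rpow_one]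
theorem flp_rp_sqrt_mul (hN : 0 < N) (x : ℝ) : Real.sqrt N * N ^ x = N ^ (1 / 2 + x) := by
  rw [Real.rpow_add hN, Real.sqrt_eq_rpow]
theorem flp_rp_le (hN : 1 ≤ N) {x y : ℝ} (h : x ≤ y) : N ^ x ≤ N ^ y := Real.rpow_le_rpow_of_exponent_le hN h
theorem flp_rp_le_one (hN : 1 ≤ N) {x : ℝ} (h : x ≤ 0) : N ^ x ≤ 1 := Real.rpow_le_one_of_one_le_of_nonpos hN h

variable {n : ℕ} {m : ℝ}

theorem flp_S_pos (hn : 0 < (n : ℝ)) : 0 < flS n m := Real.rpow_pos_of_pos hn _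
theorem flp_DH_pos (hn : 0 < (n : ℝ)) : 0 < flDH n m := Real.rpow_pos_of_pos hn _
theorem flp_DN_pos (hn : 0 < (n : ℝ)) : 0 < flDN n m := Real.rpow_pos_of_pos hn _
theorem flp_E0_eq (_hn : 0 < (n : ℝ)) : flE0 n m = (n : ℝ) ^ (-(1 / 3 : ℝ) + 40 * m) := rfl
theorem flp_E0_mul (hn : 0 < (n : ℝ)) : flE0 n m = flDH n m * flDN n m := by
  unfold flE0 flDH flDN
  rw [flp_rp_mul hn]; congr 1; ring
theorem flp_E0_pos (hn : 0 < (n : ℝ)) : 0 < flE0 n m := Real.rpow_pos_of_pos hn _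
theorem flp_Tau_pos (hn : 0 < (n : ℝ)) : 0 < flTau n := Real.rpow_pos_of_pos hn _
theorem flp_EL_pos (hn : 0 < (n : ℝ)) : 0 < flEL n := Real.rpow_pos_of_pos hn _

/-! #### the seven lines of the table -/

/-- line 1: `ε s³ = n^(-5/6+15m)` at `ε = n^(-1/3)` -/
theorem flp_tab1 (hn : 0 < (n : ℝ)) : (n : ℝ) ^ (-(1 / 3 : ℝ)) * flS n m ^ 3 = (n : ℝ) ^ (-(5 / 6 : ℝ) + 15 * m) := by
  unfold flS
  rw [flp_rp_pow hn, flp_rp_mul hn]; congr 1; push_cast; ring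

/-- lines 2, 4, 5: `n^(20δ) E` -/
theorem flp_tab245 (hn : 0 < (n : ℝ)) (x : ℝ) :
    (n : ℝ) ^ (20 * (m / 10000)) * (n : ℝ) ^ (-(5 / 6 : ℝ) + x * m) = (n : ℝ) ^ (-(5 / 6 : ℝ) + (x + 1 / 500) * m) := by
  rw [flp_rp_mul hn]; congr 1; ring

/-- line 3: `s ε0 d_N² = n^(-5/6+95m)` -/
theorem flp_tab3 (hn : 0 < (n : ℝ)) : flS n m * flE0 n m * flDN n m ^ 2 = (n : ℝ) ^ (-(5 / 6 : ℝ) + 95 * m) := by
  rw [flp_E0_eq hn]
  unfold flS flDN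
  rw [flp_rp_pow hn, flp_rp_mul hn, flp_rp_mul hn]; congr 1; push_cast; ring

/-- line 6: `s d_H⁶ / ε0 = n^(-5/6+55m)` -/
theorem flp_tab6 (hn : 0 < (n : ℝ)) : flS n m * flDH n m ^ 6 / flE0 n m = (n : ℝ) ^ (-(5 / 6 : ℝ) + 55 * m) := by
  rw [flp_E0_eq hn]
  unfold flS flDH
  rw [flp_rp_pow hn, flp_rp_mul hn, flp_rp_div hn]; congr 1; push_cast; ring

/-! #### the scales of the high call -/

theorem flp_H_N : (flCallH n m).N = (n : ℝ) := rfl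
theorem flp_H_dl : (flCallH n m).dl = m / 10000 := rfl
theorem flp_H_d : (flCallH n m).d = flDH n m := rfl
theorem flp_H_E : (flCallH n m).E = (n : ℝ) ^ (-(5 / 6 : ℝ) + 25 * m) := rfl
theorem flp_H_u0 : (flCallH n m).u0 = flS n m := rfl
theorem flp_H_rmin : (flCallH n m).rmin = (flCallH n m).us / (2 * (flCallH n m).M (flS n m)) := rfl

/-- `E_H = n^(-2/3+10m) d_H` -/
theorem flp_H_E' (hn : 0 < (n : ℝ)) : (flCallH n m).E = (n : ℝ) ^ (-(2 / 3 : ℝ) + 10 * m) * flDH n m := by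
  rw [flp_H_E]; unfold flDH
  rw [flp_rp_mul hn]; congr 1; ring

/-- `a = n^(-1/6+10m)` -/
theorem flp_H_a (hn : 0 < (n : ℝ)) : (flCallH n m).a = (n : ℝ) ^ (-(1 / 6 : ℝ) + 10 * m) := by
  unfold CmCall.a
  rw [flp_H_N, flp_H_E, flp_H_d]; unfold flDH
  rw [flp_rp_sqrt_mul hn, flp_rp_div hn]; congr 1; ring

/-- `u_* = n^(-1/6-25m)` -/
theorem flp_H_us (hn : 0 < (n : ℝ)) : (flCallH n m).us = (n : ℝ) ^ (-(1 / 6 : ℝ) - 25 * m) := by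
  unfold CmCall.us
  rw [flp_H_N, flp_H_E, flp_rp_self_mul hn, one_div, flp_rp_inv hn]; congr 1; ring

/-- `L = u_*` -/
theorem flp_H_L (hn : 1 ≤ (n : ℝ)) (hm : 0 ≤ m) : (flCallH n m).L = (n : ℝ) ^ (-(1 / 6 : ℝ) - 25 * m) := by
  have hn0 : 0 < (n : ℝ) := by linarith
  unfold CmCall.L
  rw [flp_H_us hn0, flp_H_a hn0, flp_H_d]; unfold flDH
  rw [flp_rp_pow hn0, flp_rp_pow hn0, flp_rp_div hn0]
  refine min_eq_left (flp_rp_le hn ?_)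
  push_cast
  linarith

/-- `2 n^(30m+δ) ≤ M(s) ≤ 6 n^(30m+δ)` -/
theorem flp_H_M (hn : 1 ≤ (n : ℝ)) (hm : 0 ≤ m) :
    2 * (n : ℝ) ^ (30 * m + m / 10000) ≤ (flCallH n m).M (flS n m) ∧
      (flCallH n m).M (flS n m) ≤ 6 * (n : ℝ) ^ (30 * m + m / 10000) := by
  have hn0 : 0 < (n : ℝ) := by linarith
  unfold CmCall.M
  rw [flp_H_L hn hm, flp_H_us hn0, flp_H_N, flp_H_dl, flp_H_d, flp_H_E]
  set X : ℝ := (n : ℝ) ^ (30 * m) with hX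
  have hX1 : 1 ≤ X := Real.one_le_rpow hn (by linarith)
  have e1 : (flS n m + (n : ℝ) ^ (-(1 / 6 : ℝ) - 25 * m)) / (n : ℝ) ^ (-(1 / 6 : ℝ) - 25 * m) = X + 1 := by
    unfold flS
    rw [add_div, flp_rp_div hn0, flp_rp_div hn0, hX]
    have a1 : -(1 / 6 : ℝ) + 5 * m - (-(1 / 6 : ℝ) - 25 * m) = 30 * m := by ring
    rw [a1, sub_self, Real.rpow_zero]
  have e2 : flDH n m ^ 3 / (n : ℝ) ^ (-(5 / 6 : ℝ) + 25 * m) * flS n m ^ 2 = X := by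
    unfold flDH flS
    rw [flp_rp_pow hn0, flp_rp_pow hn0, flp_rp_div hn0, flp_rp_mul hn0, hX]; congr 1; push_cast; ring
  have hS : 0 < flS n m := flp_S_pos hn0
  have hu : 0 < (n : ℝ) ^ (-(1 / 6 : ℝ) - 25 * m) := Real.rpow_pos_of_pos hn0 _
  have hus : (n : ℝ) ^ (-(1 / 6 : ℝ) - 25 * m) ≤ flS n m := by
    unfold flS; exact flp_rp_le hn (by linarith)
  set G : ℝ := flDH n m ^ 3 / (n : ℝ) ^ (-(5 / 6 : ℝ) + 25 * m) with hG
  have hG0 : 0 < G := div_pos (pow_pos (flp_DH_pos hn0) 3) (Real.rpow_pos_of_pos hn0 _)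
  have e3 : X ≤ G * (flS n m + (n : ℝ) ^ (-(1 / 6 : ℝ) - 25 * m)) ^ 2 := by
    rw [← e2]
    refine mul_le_mul_of_nonneg_left ?_ hG0.le
    exact pow_le_pow_left₀ hS.le (by linarith) 2
  have e4 : G * (flS n m + (n : ℝ) ^ (-(1 / 6 : ℝ) - 25 * m)) ^ 2 ≤ 4 * X := by
    have : (flS n m + (n : ℝ) ^ (-(1 / 6 : ℝ) - 25 * m)) ^ 2 ≤ 4 * flS n m ^ 2 := by
      have := pow_le_pow_left₀ (by positivity) (show flS n m + (n : ℝ) ^ (-(1 / 6 : ℝ) - 25 * m) ≤ 2 * flS n m by linarith) 2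
      linarith [this, mul_pow 2 (flS n m) 2]
    calc G * (flS n m + (n : ℝ) ^ (-(1 / 6 : ℝ) - 25 * m)) ^ 2 ≤ G * (4 * flS n m ^ 2) :=
          mul_le_mul_of_nonneg_left this hG0.le
      _ = 4 * (G * flS n m ^ 2) := by ring
      _ = 4 * X := by rw [e2]
  rw [e1]
  have hD : 0 < (n : ℝ) ^ (m / 10000) := Real.rpow_pos_of_pos hn0 _
  have e5 : (n : ℝ) ^ (30 * m + m / 10000) = (n : ℝ) ^ (m / 10000) * X := by
    rw [hX, flp_rp_mul hn0]; congr 1; ring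
  rw [e5]
  constructor
  · calc 2 * ((n : ℝ) ^ (m / 10000) * X) = (n : ℝ) ^ (m / 10000) * (X + X) := by ring
      _ ≤ _ := mul_le_mul_of_nonneg_left (by linarith) hD.le
  · calc (n : ℝ) ^ (m / 10000) * (X + 1 + G * (flS n m + (n : ℝ) ^ (-(1 / 6 : ℝ) - 25 * m)) ^ 2)
        ≤ (n : ℝ) ^ (m / 10000) * (6 * X) := mul_le_mul_of_nonneg_left (by linarith) hD.le
      _ = _ := by ring

/-- `n^(-1/6-55m-δ)/12 ≤ r_min ≤ n^(-1/6-55m-δ)/4` -/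
theorem flp_H_rmin_bd (hn : 1 ≤ (n : ℝ)) (hm : 0 ≤ m) :
    (n : ℝ) ^ (-(1 / 6 : ℝ) - 55 * m - m / 10000) / 12 ≤ flRmin n m ∧
      flRmin n m ≤ (n : ℝ) ^ (-(1 / 6 : ℝ) - 55 * m - m / 10000) / 4 := by
  have hn0 : 0 < (n : ℝ) := by linarith
  have h := flp_H_M (n := n) hn hm
  have e : flRmin n m = (flCallH n m).us / (2 * (flCallH n m).M (flS n m)) := rfl
  rw [e, flp_H_us hn0]
  set Y : ℝ := (n : ℝ) ^ (30 * m + m / 10000) with hY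
  have hY0 : 0 < Y := Real.rpow_pos_of_pos hn0 _
  set Mv : ℝ := (flCallH n m).M (flS n m) with hMv
  have hM0 : 0 < Mv := by linarith [h.1]
  have e2 : (n : ℝ) ^ (-(1 / 6 : ℝ) - 55 * m - m / 10000) = (n : ℝ) ^ (-(1 / 6 : ℝ) - 25 * m) / Y := by
    rw [hY, flp_rp_div hn0]; congr 1; ring
  have hu : 0 < (n : ℝ) ^ (-(1 / 6 : ℝ) - 25 * m) := Real.rpow_pos_of_pos hn0 _
  rw [e2, div_div, div_div]
  constructor
  · exact div_le_div_of_nonneg_left hu.le (by positivity) (by linarith [h.2])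
  · exact div_le_div_of_nonneg_left hu.le (by positivity) (by linarith [h.1])

theorem flp_Rmin_pos (hn : 1 ≤ (n : ℝ)) (hm : 0 ≤ m) : 0 < flRmin n m := by
  have hn0 : 0 < (n : ℝ) := by linarith
  refine lt_of_lt_of_le ?_ (flp_H_rmin_bd hn hm).1
  have := Real.rpow_pos_of_pos hn0 (-(1 / 6 : ℝ) - 55 * m - m / 10000)
  positivity

/-- line 7: `d_H / (n s r_min) ≤ 12 n^(-5/6+65m+δ)` -/
theorem flp_tab7 (hn : 1 ≤ (n : ℝ)) (hm : 0 ≤ m) :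
    flDH n m / ((n : ℝ) * flS n m * flRmin n m) ≤ 12 * (n : ℝ) ^ (-(5 / 6 : ℝ) + 65 * m + m / 10000) := by
  have hn0 : 0 < (n : ℝ) := by linarith
  have h := (flp_H_rmin_bd (n := n) hn hm).1
  set Z : ℝ := (n : ℝ) ^ (-(1 / 6 : ℝ) - 55 * m - m / 10000) with hZ
  have hZ0 : 0 < Z := Real.rpow_pos_of_pos hn0 _
  have hS := flp_S_pos (m := m) hn0
  have hD := flp_DH_pos (m := m) hn0
  calc flDH n m / ((n : ℝ) * flS n m * flRmin n m) ≤ flDH n m / ((n : ℝ) * flS n m * (Z / 12)) := by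
        refine div_le_div_of_nonneg_left hD.le (by positivity) ?_
        exact mul_le_mul_of_nonneg_left h (by positivity)
    _ = 12 * (flDH n m / ((n : ℝ) * flS n m * Z)) := by field_simp
    _ = _ := by
        congr 1
        unfold flDH flS
        rw [hZ, flp_rp_self_mul hn0, flp_rp_mul hn0, flp_rp_div hn0]; congr 1; ring

end ledger

/-! ### (F) the three calls satisfy (3) and the wall condition of (5) -/

section calls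

theorem flp_call_pos (P : CmCall) (hN : 0 < P.N) (hE : 0 < P.E) (hd : 0 < P.d) :
    0 < P.us ∧ 0 < P.a ∧ 0 < P.L ∧ ∀ u : ℝ, 0 ≤ u → 0 < P.M u := by
  have h1 : 0 < P.us := by unfold CmCall.us; positivity
  have h2 : 0 < P.a := by
    unfold CmCall.a
    have := Real.sqrt_pos.2 hN
    positivity
  have h3 : 0 < P.L := by unfold CmCall.L; exact lt_min h1 (by positivity)
  refine ⟨h1, h2, h3, fun u hu => ?_⟩
  unfold CmCall.M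
  have h4 : 0 < P.N ^ P.dl := Real.rpow_pos_of_pos hN _
  have h5 : 0 < u + P.us := by linarith
  positivity

variable {n : ℕ} {m : ℝ}

theorem flp_S_le_one (hn : 1 ≤ (n : ℝ)) (hm : m ≤ 1 / 300) : flS n m ≤ 1 := flp_rp_le_one hn (by linarith)
theorem flp_DH_le_one (hn : 1 ≤ (n : ℝ)) (hm : m ≤ 1 / 300) : flDH n m ≤ 1 := flp_rp_le_one hn (by linarith)
theorem flp_DN_le_one (hn : 1 ≤ (n : ℝ)) (hm : m ≤ 1 / 300) : flDN n m ≤ 1 := flp_rp_le_one hn (by linarith)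

/-- the call of the lower comparison is admissible -/
theorem flp_L_ok (hn : 3 ≤ n) (hm : 0 < m) (hm' : m ≤ 1 / 300) : (flCallL n m).Ok 1 1 := by
  have hn1 : (1 : ℝ) ≤ (n : ℝ) := by exact_mod_cast (by omega : 1 ≤ n)
  have hn0 : 0 < (n : ℝ) := by linarith
  have hE : 0 < (flCallL n m).E := Real.rpow_pos_of_pos hn0 _
  have hp := flp_call_pos (flCallL n m) hn0 hE (flp_S_pos hn0)
  refine ⟨hn, hm, by show m ≤ 1 / 100; linarith, flp_S_pos hn0, flp_S_le_one hn1 hm', ?_, ?_, le_refl _, by show (0 : ℝ) ≤ 1 / 2; norm_num,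
    le_refl _, ?_, fun _ => rfl⟩
  · show 1 * (n : ℝ) ^ (-(2 / 3 : ℝ) + m) * flS n m ≤ (n : ℝ) ^ (-(5 / 6 : ℝ) + 7 * m)
    unfold flS
    rw [one_mul, flp_rp_mul hn0]
    exact flp_rp_le hn1 (by linarith)
  · show (n : ℝ) ^ (-(5 / 6 : ℝ) + 7 * m) ≤ (n : ℝ) ^ (-(1 / 2 : ℝ)) * flS n m ^ 2
    unfold flS
    rw [flp_rp_pow hn0, flp_rp_mul hn0]
    refine flp_rp_le hn1 ?_
    push_cast
    linarith
  · show (0 : ℝ) ≤ (flCallL n m).us / (flCallL n m).M 0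
    exact (div_pos hp.1 (hp.2.2.2 0 le_rfl)).le

/-- the call of the initial upper comparison is admissible -/
theorem flp_U_ok (hn : 3 ≤ n) (hm : 0 < m) (hm' : m ≤ 1 / 300) : (flCallU n m).Ok 1 1 := by
  have hn1 : (1 : ℝ) ≤ (n : ℝ) := by exact_mod_cast (by omega : 1 ≤ n)
  have hn0 : 0 < (n : ℝ) := by linarith
  have hE : 0 < (flCallU n m).E := Real.rpow_pos_of_pos hn0 _
  have hp := flp_call_pos (flCallU n m) hn0 hE (flp_DN_pos hn0)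
  refine ⟨hn, hm, by show m ≤ 1 / 100; linarith, flp_DN_pos hn0, flp_DN_le_one hn1 hm', ?_, ?_, le_refl _, by show (0 : ℝ) ≤ 1 / 2; norm_num,
    le_refl _, ?_, fun _ => rfl⟩
  · show 1 * (n : ℝ) ^ (-(2 / 3 : ℝ) + m) * flDN n m ≤ (n : ℝ) ^ (-(5 / 6 : ℝ) + 27 * m)
    unfold flDN
    rw [one_mul, flp_rp_mul hn0]
    exact flp_rp_le hn1 (by linarith)
  · show (n : ℝ) ^ (-(5 / 6 : ℝ) + 27 * m) ≤ (n : ℝ) ^ (-(1 / 2 : ℝ)) * flDN n m ^ 2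
    unfold flDN
    rw [flp_rp_pow hn0, flp_rp_mul hn0]
    refine flp_rp_le hn1 ?_
    push_cast
    linarith
  · show (0 : ℝ) ≤ (flCallU n m).us / (flCallU n m).M 0
    exact (div_pos hp.1 (hp.2.2.2 0 le_rfl)).le

/-- the call of the high comparison is admissible as soon as `s ≤ 1/2` -/
theorem flp_H_ok (hn : 3 ≤ n) (hm : 0 < m) (hm' : m ≤ 1 / 300) (hS : flS n m ≤ 1 / 2) : (flCallH n m).Ok 1 1 := by
  have hn1 : (1 : ℝ) ≤ (n : ℝ) := by exact_mod_cast (by omega : 1 ≤ n)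
  have hn0 : 0 < (n : ℝ) := by linarith
  have hE : 0 < (flCallH n m).E := Real.rpow_pos_of_pos hn0 _
  have hp := flp_call_pos (flCallH n m) hn0 hE (flp_DH_pos hn0)
  have hS0 := flp_S_pos (m := m) hn0
  refine ⟨hn, hm, by show m ≤ 1 / 100; linarith, flp_DH_pos hn0, flp_DH_le_one hn1 hm', ?_, ?_, hS0.le, hS,
    (flp_Rmin_pos hn1 hm.le).le, ?_, fun h => absurd h hS0.ne'⟩
  · show 1 * (n : ℝ) ^ (-(2 / 3 : ℝ) + m) * flDH n m ≤ (n : ℝ) ^ (-(5 / 6 : ℝ) + 25 * m)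
    unfold flDH
    rw [one_mul, flp_rp_mul hn0]
    exact flp_rp_le hn1 (by linarith)
  · show (n : ℝ) ^ (-(5 / 6 : ℝ) + 25 * m) ≤ (n : ℝ) ^ (-(1 / 2 : ℝ)) * flDH n m ^ 2
    unfold flDH
    rw [flp_rp_pow hn0, flp_rp_mul hn0]
    refine flp_rp_le hn1 ?_
    push_cast
    linarith
  · show (flCallH n m).us / (2 * (flCallH n m).M (flS n m)) ≤ (flCallH n m).us / (flCallH n m).M (flS n m)
    have hM := hp.2.2.2 (flS n m) hS0.le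
    exact div_le_div_of_nonneg_left hp.1.le hM (by linarith)

theorem flp_ev_S_le (hm' : m ≤ 1 / 300) (c : ℝ) (hc : 0 < c) : ∀ᶠ n : ℕ in atTop, flS n m ≤ c := by
  filter_upwards [flp_ev_const c⁻¹ ((1 / 6 : ℝ) - 5 * m) (by linarith), flp_ev_pos] with n h hp
  have e : flS n m = ((n : ℝ) ^ ((1 / 6 : ℝ) - 5 * m))⁻¹ := by
    unfold flS
    rw [flp_rp_inv hp.1]; congr 1; ring
  rw [e]
  have := inv_anti₀ (by positivity) h
  rwa [inv_inv] at this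

theorem flp_ev_ok (hm : 0 < m) (hm' : m ≤ 1 / 300) :
    ∀ᶠ n : ℕ in atTop, (flCallL n m).Ok 1 1 ∧ (flCallU n m).Ok 1 1 ∧ (flCallH n m).Ok 1 1 := by
  filter_upwards [eventually_ge_atTop 3, flp_ev_S_le hm' (1 / 2) (by norm_num)] with n hn hS
  exact ⟨flp_L_ok hn hm hm', flp_U_ok hn hm hm', flp_H_ok hn hm hm' hS⟩

/-! #### the ratios quoted in the proofs of Lemmas 7.2, 7.3 and in Sections 7.1, 7.2 -/

/-- ceiling ratios `E / (n^(-1/2) d²) = n^(-3m), n^(-23m), n^(-5m)` -/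
theorem flp_ceil_L (hn : 0 < (n : ℝ)) :
    (flCallL n m).E / ((n : ℝ) ^ (-(1 / 2 : ℝ)) * (flCallL n m).d ^ 2) = (n : ℝ) ^ (-(3 * m)) := by
  show (n : ℝ) ^ (-(5 / 6 : ℝ) + 7 * m) / ((n : ℝ) ^ (-(1 / 2 : ℝ)) * flS n m ^ 2) = _
  unfold flS
  rw [flp_rp_pow hn, flp_rp_mul hn, flp_rp_div hn]; congr 1; push_cast; ring
theorem flp_ceil_U (hn : 0 < (n : ℝ)) :
    (flCallU n m).E / ((n : ℝ) ^ (-(1 / 2 : ℝ)) * (flCallU n m).d ^ 2) = (n : ℝ) ^ (-(23 * m)) := by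
  show (n : ℝ) ^ (-(5 / 6 : ℝ) + 27 * m) / ((n : ℝ) ^ (-(1 / 2 : ℝ)) * flDN n m ^ 2) = _
  unfold flDN
  rw [flp_rp_pow hn, flp_rp_mul hn, flp_rp_div hn]; congr 1; push_cast; ring
theorem flp_ceil_H (hn : 0 < (n : ℝ)) :
    (flCallH n m).E / ((n : ℝ) ^ (-(1 / 2 : ℝ)) * (flCallH n m).d ^ 2) = (n : ℝ) ^ (-(5 * m)) := by
  show (n : ℝ) ^ (-(5 / 6 : ℝ) + 25 * m) / ((n : ℝ) ^ (-(1 / 2 : ℝ)) * flDH n m ^ 2) = _
  unfold flDH
  rw [flp_rp_pow hn, flp_rp_mul hn, flp_rp_div hn]; congr 1; push_cast; ring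

/-- `a = n^(-1/6+2m)` in the lower and in the initial upper comparison -/
theorem flp_L_a (hn : 0 < (n : ℝ)) : (flCallL n m).a = (n : ℝ) ^ (-(1 / 6 : ℝ) + 2 * m) := by
  show Real.sqrt (n : ℝ) * (n : ℝ) ^ (-(5 / 6 : ℝ) + 7 * m) / flS n m = _
  unfold flS
  rw [flp_rp_sqrt_mul hn, flp_rp_div hn]; congr 1; ring
theorem flp_U_a (hn : 0 < (n : ℝ)) : (flCallU n m).a = (n : ℝ) ^ (-(1 / 6 : ℝ) + 2 * m) := by
  show Real.sqrt (n : ℝ) * (n : ℝ) ^ (-(5 / 6 : ℝ) + 27 * m) / flDN n m = _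
  unfold flDN
  rw [flp_rp_sqrt_mul hn, flp_rp_div hn]; congr 1; ring

/-- `ε = n^(-1/3) = n^(-4m) a²` in the lower comparison -/
theorem flp_L_eps (hn : 0 < (n : ℝ)) : (n : ℝ) ^ (-(1 / 3 : ℝ)) = (n : ℝ) ^ (-(4 * m)) * (flCallL n m).a ^ 2 := by
  rw [flp_L_a hn, flp_rp_pow hn, flp_rp_mul hn]; congr 1; push_cast; ring
/-- `ε = n^(-1/3) = n^(-10m) s²` -/
theorem flp_L_eps' (hn : 0 < (n : ℝ)) : (n : ℝ) ^ (-(1 / 3 : ℝ)) = (n : ℝ) ^ (-(10 * m)) * flS n m ^ 2 := by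
  unfold flS
  rw [flp_rp_pow hn, flp_rp_mul hn]; congr 1; push_cast; ring
/-- `n^δ a = n^(-3m+δ) s` in the lower comparison -/
theorem flp_L_cut (hn : 0 < (n : ℝ)) :
    (n : ℝ) ^ (m / 10000) * (flCallL n m).a = (n : ℝ) ^ (-(3 * m) + m / 10000) * flS n m := by
  rw [flp_L_a hn]; unfold flS
  rw [flp_rp_mul hn, flp_rp_mul hn]; congr 1; ring
/-- `ε0 = n^(-10m) d_N²` -/
theorem flp_U_eps (hn : 0 < (n : ℝ)) : flE0 n m = (n : ℝ) ^ (-(10 * m)) * flDN n m ^ 2 := by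
  rw [flp_E0_eq hn]; unfold flDN
  rw [flp_rp_pow hn, flp_rp_mul hn]; congr 1; push_cast; ring
/-- `s = n^(-20m) d_N` -/
theorem flp_U_s (hn : 0 < (n : ℝ)) : flS n m = (n : ℝ) ^ (-(20 * m)) * flDN n m := by
  unfold flS flDN
  rw [flp_rp_mul hn]; congr 1; ring
/-- `s = n^(-5m) a` in the high comparison -/
theorem flp_H_s (hn : 0 < (n : ℝ)) : flS n m = (n : ℝ) ^ (-(5 * m)) * (flCallH n m).a := by
  rw [flp_H_a hn]; unfold flS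
  rw [flp_rp_mul hn]; congr 1; ring
/-- `s = n^(-10m) d_H` -/
theorem flp_H_s' (hn : 0 < (n : ℝ)) : flS n m = (n : ℝ) ^ (-(10 * m)) * flDH n m := by
  unfold flS flDH
  rw [flp_rp_mul hn]; congr 1; ring
/-- `d_H² = n^(-10m) ε0` -/
theorem flp_H_dsq (hn : 0 < (n : ℝ)) : flDH n m ^ 2 = (n : ℝ) ^ (-(10 * m)) * flE0 n m := by
  rw [flp_E0_eq hn]; unfold flDH
  rw [flp_rp_pow hn, flp_rp_mul hn]; congr 1; push_cast; ring
/-- `d_H = n^(5m) a` -/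
theorem flp_H_d_a (hn : 0 < (n : ℝ)) : flDH n m = (n : ℝ) ^ (5 * m) * (flCallH n m).a := by
  rw [flp_H_a hn]; unfold flDH
  rw [flp_rp_mul hn]; congr 1; ring
/-- `r_min ≤ n^(-70m-δ) d_H / 4` -/
theorem flp_H_rmin_d (hn : 1 ≤ (n : ℝ)) (hm : 0 ≤ m) :
    flRmin n m ≤ (n : ℝ) ^ (-(70 * m) - m / 10000) * flDH n m / 4 := by
  have hn0 : 0 < (n : ℝ) := by linarith
  refine (flp_H_rmin_bd hn hm).2.trans (le_of_eq ?_)
  unfold flDH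
  rw [flp_rp_mul hn0]; congr 2; ring
/-- the final-strength cutoff `A_{d²} = n^δ a = n^(-5m+δ) d_H` -/
theorem flp_H_Al (hn : 0 < (n : ℝ)) :
    (flCallH n m).Al (flDH n m ^ 2) = (n : ℝ) ^ (-(5 * m) + m / 10000) * flDH n m := by
  unfold CmCall.Al
  rw [flp_H_N, flp_H_dl, flp_H_E, Real.sqrt_sq (flp_DH_pos hn).le]
  unfold flDH
  rw [mul_assoc, flp_rp_sqrt_mul hn, flp_rp_mul hn, flp_rp_div hn, flp_rp_mul hn]; congr 1; ring
/-- `n E² = n^(-10m) d_H⁴` -/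
theorem flp_H_nE (hn : 0 < (n : ℝ)) : (n : ℝ) * (flCallH n m).E ^ 2 = (n : ℝ) ^ (-(10 * m)) * flDH n m ^ 4 := by
  rw [flp_H_E]; unfold flDH
  rw [flp_rp_pow hn, flp_rp_pow hn, flp_rp_self_mul hn, flp_rp_mul hn]; congr 1; push_cast; ring
/-- `n d_H⁶ = n^(90m)` -/
theorem flp_H_nd (hn : 0 < (n : ℝ)) : (n : ℝ) * flDH n m ^ 6 = (n : ℝ) ^ (90 * m) := by
  unfold flDH
  rw [flp_rp_pow hn, flp_rp_self_mul hn]; congr 1; push_cast; ring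

end calls

/-! ### the numerics of Lemma 7.4 -/

/-- from the first to the second display of Lemma 7.4: `a_L = Ca d³/ε`, `r0 = d² r_min/(2ε)`, `c_L ≤ ε/2`, `ε0 ≤ ε` -/
theorem flp_wall_num {s d ε0 ε rmin Ca nn Λ3 cL : ℝ} (hs : 0 < s) (hd : 0 < d) (hε0 : 0 < ε0) (hε : ε0 ≤ ε)
    (hr : 0 < rmin) (hrd : rmin ≤ d) (hnn : 0 < nn) (hcL0 : 0 ≤ cL) (hcL : cL ≤ ε / 2) :
    cL * s * ((Ca * d ^ 3 / ε) ^ 2 + (d ^ 2 * rmin / (2 * ε)) ^ 2)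
        + (Ca * d ^ 3 / ε) * Λ3 / (nn * (d ^ 2 * rmin / (2 * ε)) * s)
      ≤ (Ca ^ 2 / 2 + 1 / 8) * (s * d ^ 6 / ε0) + 2 * Ca * (d / (nn * s * rmin) * Λ3) := by
  have hεpos : 0 < ε := lt_of_lt_of_le hε0 hε
  have h1 : cL / ε ≤ 1 / 2 := by rw [div_le_iff₀ hεpos]; linarith
  have h1' : 0 ≤ cL / ε := div_nonneg hcL0 hεpos.le
  have h2 : s * d ^ 6 / ε ≤ s * d ^ 6 / ε0 := div_le_div_of_nonneg_left (by positivity) hε0 hε
  have h2' : 0 ≤ s * d ^ 6 / ε := by positivity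
  have A1 : cL * s * (Ca * d ^ 3 / ε) ^ 2 ≤ Ca ^ 2 / 2 * (s * d ^ 6 / ε0) := by
    have e1 : cL * s * (Ca * d ^ 3 / ε) ^ 2 = (cL / ε) * (Ca ^ 2 * (s * d ^ 6 / ε)) := by field_simp
    rw [e1]
    calc (cL / ε) * (Ca ^ 2 * (s * d ^ 6 / ε)) ≤ (1 / 2) * (Ca ^ 2 * (s * d ^ 6 / ε0)) :=
          mul_le_mul h1 (mul_le_mul_of_nonneg_left h2 (by positivity)) (by positivity) (by norm_num)
      _ = _ := by ring
  have A2 : cL * s * (d ^ 2 * rmin / (2 * ε)) ^ 2 ≤ 1 / 8 * (s * d ^ 6 / ε0) := by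
    have e1 : cL * s * (d ^ 2 * rmin / (2 * ε)) ^ 2 = (cL / ε) * (1 / 4 * (s * (d ^ 4 * rmin ^ 2) / ε)) := by field_simp; ring
    have h3 : d ^ 4 * rmin ^ 2 ≤ d ^ 6 := by
      have : rmin ^ 2 ≤ d ^ 2 := pow_le_pow_left₀ hr.le hrd 2
      calc d ^ 4 * rmin ^ 2 ≤ d ^ 4 * d ^ 2 := mul_le_mul_of_nonneg_left this (by positivity)
        _ = d ^ 6 := by ring
    have h4 : s * (d ^ 4 * rmin ^ 2) / ε ≤ s * d ^ 6 / ε0 := by
      refine le_trans ?_ h2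
      exact div_le_div_of_nonneg_right (mul_le_mul_of_nonneg_left h3 hs.le) hεpos.le
    rw [e1]
    calc (cL / ε) * (1 / 4 * (s * (d ^ 4 * rmin ^ 2) / ε)) ≤ (1 / 2) * (1 / 4 * (s * d ^ 6 / ε0)) :=
          mul_le_mul h1 (mul_le_mul_of_nonneg_left h4 (by norm_num)) (by positivity) (by norm_num)
      _ = _ := by ring
  have A3 : (Ca * d ^ 3 / ε) * Λ3 / (nn * (d ^ 2 * rmin / (2 * ε)) * s) = 2 * Ca * (d / (nn * s * rmin) * Λ3) := by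
    field_simp
  rw [A3, mul_add]
  linarith


/-! ### (H) the same with the slack `n^m` and `a_L = CS n^m d_H³/ε` (vocabulary of `Fl/Defs`) -/

theorem flp_one_le_log {n : ℕ} (hn3 : 3 ≤ n) : 1 ≤ Real.log (n : ℝ) := by
  have h3 : (3 : ℝ) ≤ (n : ℝ) := by exact_mod_cast hn3
  have : Real.exp 1 ≤ (n : ℝ) := by linarith [Real.exp_one_lt_d9]
  calc (1 : ℝ) = Real.log (Real.exp 1) := (Real.log_exp 1).symm
    _ ≤ _ := Real.log_le_log (Real.exp_pos 1) this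

theorem flp_Rmin_le_DH {n : ℕ} {m : ℝ} (hn : 1 ≤ (n : ℝ)) (hm : 0 ≤ m) : flRmin n m ≤ flDH n m := by
  have hn0 : 0 < (n : ℝ) := by linarith
  refine (flp_H_rmin_d hn hm).trans ?_
  have h1 : (n : ℝ) ^ (-(70 * m) - m / 10000) ≤ 1 := flp_rp_le_one hn (by linarith)
  have h2 := flp_DH_pos (m := m) hn0
  nlinarith

/-- comparison error + first display of Lemma 7.4, in powers of `n`:   `c_L = min ε (T-ε)/2`, `a_L = CS n^m d_H³/ε`, `r₀ = d_H² r_min/(2ε)` -/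
theorem flp_step_num (T m C CS : ℝ) (hm : 0 < m) (hC : 0 ≤ C) (hCS : 0 ≤ CS) (n : ℕ) (hn3 : 3 ≤ n)
    (ε : ℝ) (h1 : flE0 n m ≤ ε) (h2 : ε < T) :
    (n : ℝ) ^ m * (flCallH n m).E
      + C * (min ε (T - ε) / 2 * flS n m * ((CS * (n : ℝ) ^ m * flDH n m ^ 3 / ε) ^ 2 + (flDH n m ^ 2 * flRmin n m / (2 * ε)) ^ 2)
        + CS * (n : ℝ) ^ m * flDH n m ^ 3 / ε * Real.log (n : ℝ) ^ 3 / ((n : ℝ) * (flDH n m ^ 2 * flRmin n m / (2 * ε)) * flS n m)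
        + flTau n)
      ≤ (1 + C * (CS ^ 2 / 2 + 1 / 8 + 24 * CS + 1)) * (n : ℝ) ^ (-(5 / 6 : ℝ) + 67 * m) * Real.log (n : ℝ) ^ 3 := by
  have hn1 : (1 : ℝ) ≤ (n : ℝ) := by exact_mod_cast (by omega : 1 ≤ n)
  have hn0 : 0 < (n : ℝ) := by linarith
  have hl3 : 1 ≤ Real.log (n : ℝ) ^ 3 := one_le_pow₀ (flp_one_le_log hn3)
  set Λ : ℝ := Real.log (n : ℝ) ^ 3 with hΛ
  set Q : ℝ := (n : ℝ) ^ (-(5 / 6 : ℝ) + 67 * m) with hQ
  have hQ0 : 0 < Q := Real.rpow_pos_of_pos hn0 _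
  have hQΛ : Q ≤ Q * Λ := le_mul_of_one_le_right hQ0.le hl3
  have hε0 := flp_E0_pos (m := m) hn0
  have hε : 0 < ε := lt_of_lt_of_le hε0 h1
  have hmin0 : 0 ≤ min ε (T - ε) / 2 := by
    have : 0 ≤ min ε (T - ε) := le_min hε.le (by linarith)
    linarith
  have hmin1 : min ε (T - ε) / 2 ≤ ε / 2 := by
    have : min ε (T - ε) ≤ ε := min_le_left _ _
    linarith
  have key := flp_wall_num (s := flS n m) (d := flDH n m) (ε0 := flE0 n m) (ε := ε) (rmin := flRmin n m)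
    (Ca := CS * (n : ℝ) ^ m) (nn := (n : ℝ)) (Λ3 := Λ) (cL := min ε (T - ε) / 2)
    (flp_S_pos hn0) (flp_DH_pos hn0) hε0 h1 (flp_Rmin_pos hn1 hm.le) (flp_Rmin_le_DH hn1 hm.le) hn0 hmin0 hmin1
  have t1 : (n : ℝ) ^ m * (flCallH n m).E ≤ Q * Λ := by
    rw [flp_H_E, flp_rp_mul hn0]
    exact le_trans (flp_rp_le hn1 (by linarith)) hQΛ
  have hnm : 0 < (n : ℝ) ^ m := Real.rpow_pos_of_pos hn0 _
  have t2 : ((CS * (n : ℝ) ^ m) ^ 2 / 2 + 1 / 8) * (flS n m * flDH n m ^ 6 / flE0 n m) ≤ (CS ^ 2 / 2 + 1 / 8) * (Q * Λ) := by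
    rw [flp_tab6 hn0]
    have a1 : ((n : ℝ) ^ m) ^ 2 * (n : ℝ) ^ (-(5 / 6 : ℝ) + 55 * m) ≤ Q := by
      rw [flp_rp_pow hn0, flp_rp_mul hn0]
      refine flp_rp_le hn1 ?_
      push_cast
      linarith
    have a2 : (n : ℝ) ^ (-(5 / 6 : ℝ) + 55 * m) ≤ Q := flp_rp_le hn1 (by linarith)
    calc ((CS * (n : ℝ) ^ m) ^ 2 / 2 + 1 / 8) * (n : ℝ) ^ (-(5 / 6 : ℝ) + 55 * m)
        = CS ^ 2 / 2 * (((n : ℝ) ^ m) ^ 2 * (n : ℝ) ^ (-(5 / 6 : ℝ) + 55 * m)) + 1 / 8 * (n : ℝ) ^ (-(5 / 6 : ℝ) + 55 * m) := by ring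
      _ ≤ CS ^ 2 / 2 * Q + 1 / 8 * Q := by
          refine add_le_add (mul_le_mul_of_nonneg_left a1 (by positivity)) (mul_le_mul_of_nonneg_left a2 (by norm_num))
      _ = (CS ^ 2 / 2 + 1 / 8) * Q := by ring
      _ ≤ _ := mul_le_mul_of_nonneg_left hQΛ (by positivity)
  have t3 : 2 * (CS * (n : ℝ) ^ m) * (flDH n m / ((n : ℝ) * flS n m * flRmin n m) * Λ) ≤ 24 * CS * (Q * Λ) := by
    have a1 := flp_tab7 (n := n) hn1 hm.le
    have a2 : (n : ℝ) ^ m * (n : ℝ) ^ (-(5 / 6 : ℝ) + 65 * m + m / 10000) ≤ Q := by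
      rw [flp_rp_mul hn0]
      exact flp_rp_le hn1 (by linarith)
    have a3 : (n : ℝ) ^ m * (flDH n m / ((n : ℝ) * flS n m * flRmin n m)) ≤ 12 * Q := by
      calc (n : ℝ) ^ m * (flDH n m / ((n : ℝ) * flS n m * flRmin n m))
          ≤ (n : ℝ) ^ m * (12 * (n : ℝ) ^ (-(5 / 6 : ℝ) + 65 * m + m / 10000)) := mul_le_mul_of_nonneg_left a1 hnm.le
        _ = 12 * ((n : ℝ) ^ m * (n : ℝ) ^ (-(5 / 6 : ℝ) + 65 * m + m / 10000)) := by ring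
        _ ≤ _ := by linarith
    calc 2 * (CS * (n : ℝ) ^ m) * (flDH n m / ((n : ℝ) * flS n m * flRmin n m) * Λ)
        = 2 * CS * Λ * ((n : ℝ) ^ m * (flDH n m / ((n : ℝ) * flS n m * flRmin n m))) := by ring
      _ ≤ 2 * CS * Λ * (12 * Q) := mul_le_mul_of_nonneg_left a3 (by positivity)
      _ = _ := by ring
  have t4 : flTau n ≤ Q * Λ := le_trans (flp_rp_le hn1 (by linarith)) hQΛ
  have t5 : min ε (T - ε) / 2 * flS n m * ((CS * (n : ℝ) ^ m * flDH n m ^ 3 / ε) ^ 2 + (flDH n m ^ 2 * flRmin n m / (2 * ε)) ^ 2)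
        + CS * (n : ℝ) ^ m * flDH n m ^ 3 / ε * Λ / ((n : ℝ) * (flDH n m ^ 2 * flRmin n m / (2 * ε)) * flS n m)
        + flTau n ≤ (CS ^ 2 / 2 + 1 / 8 + 24 * CS + 1) * (Q * Λ) := by
    linarith
  calc _ ≤ Q * Λ + C * ((CS ^ 2 / 2 + 1 / 8 + 24 * CS + 1) * (Q * Λ)) := add_le_add t1 (mul_le_mul_of_nonneg_left t5 hC)
    _ = _ := by ring

/-- the same in the form of the hypothesis `hwall` of `sk_fn_window` (helper158, `Fl/Num`): `≤ C n^(-5/6+70m)` -/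
theorem flp_step_num70 (T m C CS : ℝ) (hm : 0 < m) (hC : 0 ≤ C) (hCS : 0 ≤ CS) :
    ∀ᶠ n : ℕ in atTop, ∀ ε : ℝ, flE0 n m ≤ ε → ε < T →
    (n : ℝ) ^ m * (flCallH n m).E
      + C * (min ε (T - ε) / 2 * flS n m * ((CS * (n : ℝ) ^ m * flDH n m ^ 3 / ε) ^ 2 + (flDH n m ^ 2 * flRmin n m / (2 * ε)) ^ 2)
        + CS * (n : ℝ) ^ m * flDH n m ^ 3 / ε * Real.log (n : ℝ) ^ 3 / ((n : ℝ) * (flDH n m ^ 2 * flRmin n m / (2 * ε)) * flS n m)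
        + flTau n)
      ≤ (1 + C * (CS ^ 2 / 2 + 1 / 8 + 24 * CS + 1)) * (n : ℝ) ^ (-(5 / 6 : ℝ) + 70 * m) := by
  filter_upwards [eventually_ge_atTop 3, flp_ev_logpow 3 (3 * m) (by positivity), flp_ev_pos] with n hn3 hlog hp ε h1 h2
  refine (flp_step_num T m C CS hm hC hCS n hn3 ε h1 h2).trans ?_
  rw [mul_assoc]
  refine mul_le_mul_of_nonneg_left ?_ (by positivity)
  calc (n : ℝ) ^ (-(5 / 6 : ℝ) + 67 * m) * Real.log (n : ℝ) ^ 3 ≤ (n : ℝ) ^ (-(5 / 6 : ℝ) + 67 * m) * (n : ℝ) ^ (3 * m) :=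
        mul_le_mul_of_nonneg_left hlog (Real.rpow_nonneg hp.1.le _)
    _ = _ := by rw [flp_rp_mul hp.1]; congr 1; ring

/-- **PE Prop 7.5**, hypotheses in the vocabulary of `Fl/Defs` (slack `n^m`, `a_L = CS n^m d_H³/ε`, first display of Lemma 7.4 + comparison error);
the iteration is `sk_fn_window` of helper158.      TEX[PE:fl:laplace-window] (arithmetic part) -/
theorem flp_window_sweep (T m : ℝ) (hT : 1 < T) (hm : 0 < m) (hm' : m < 1 / 300) (p : ℕ → ℝ → ℝ) (K : ℕ → ℝ)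
    (hK : ∀ᶠ n : ℕ in atTop, K n = (n : ℝ) * flS n m * (p n T - p n 0))
    (hmono : ∀ᶠ n : ℕ in atTop, ∀ ε ε' : ℝ, 0 ≤ ε → ε ≤ ε' → ε' ≤ T →
      0 ≤ p n ε' - p n ε ∧ p n ε' - p n ε ≤ flS n m * (ε' - ε) / 4)
    (hlow : ∃ c : ℝ, 0 < c ∧ ∀ᶠ n : ℕ in atTop, c * (n : ℝ) ^ (-(5 / 6 : ℝ) + 15 * m) ≤ p n (flEL n) - p n 0)
    (hup0 : ∃ C : ℝ, ∀ᶠ n : ℕ in atTop, p n (flE0 n m) - p n 0 ≤ C * (n : ℝ) ^ (-(5 / 6 : ℝ) + 95 * m))
    (hstep : ∃ C CS : ℝ, 0 ≤ C ∧ 0 ≤ CS ∧ ∀ᶠ n : ℕ in atTop, ∀ ε : ℝ, flE0 n m ≤ ε → ε < T →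
      p n (ε + min ε (T - ε) / 4) - p n ε ≤ (n : ℝ) ^ m * (flCallH n m).E
      + C * (min ε (T - ε) / 2 * flS n m * ((CS * (n : ℝ) ^ m * flDH n m ^ 3 / ε) ^ 2 + (flDH n m ^ 2 * flRmin n m / (2 * ε)) ^ 2)
        + CS * (n : ℝ) ^ m * flDH n m ^ 3 / ε * Real.log (n : ℝ) ^ 3 / ((n : ℝ) * (flDH n m ^ 2 * flRmin n m / (2 * ε)) * flS n m)
        + flTau n)) :
    ∃ c C : ℝ, 0 < c ∧ ∀ᶠ n : ℕ in atTop, c * (n : ℝ) ^ (20 * m) ≤ K n ∧ K n ≤ C * (n : ℝ) ^ (100 * m) := by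
  obtain ⟨C, CS, hC, hCS, hstep⟩ := hstep
  refine sk_fn_window hT hm hm' p K hK hmono hlow hup0 ⟨1 + C * (CS ^ 2 / 2 + 1 / 8 + 24 * CS + 1), ?_⟩
  filter_upwards [hstep, flp_step_num70 T m C CS hm hC hCS] with n h h' ε h1 h2
  exact (h ε h1 h2).trans (h' ε h1 h2)

/-! ### eventual smallness, for the lower and the initial upper comparison (Sections 7.1, 7.2) -/

section small

variable {m : ℝ}

/-- a negative power of `n` is eventually below any positive constant -/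
theorem flp_ev_small {x c : ℝ} (hx : 0 < x) (hc : 0 < c) : ∀ᶠ n : ℕ in atTop, (n : ℝ) ^ (-x) ≤ c := by
  filter_upwards [flp_ev_const c⁻¹ x hx, flp_ev_pos] with n h hp
  rw [← flp_rp_inv hp.1]
  have := inv_anti₀ (by positivity) h
  rwa [inv_inv] at this

/-- `A_{s²} = n^(-3m+δ) s` in the lower comparison -/
theorem flp_L_Al {n : ℕ} (hn : 0 < (n : ℝ)) :
    (flCallL n m).Al (flS n m ^ 2) = (n : ℝ) ^ (-(3 * m - m / 10000)) * flS n m := by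
  show (n : ℝ) ^ (m / 10000) * Real.sqrt (n : ℝ) * (n : ℝ) ^ (-(5 / 6 : ℝ) + 7 * m) / Real.sqrt (flS n m ^ 2) = _
  rw [Real.sqrt_sq (flp_S_pos hn).le]
  unfold flS
  rw [mul_assoc, flp_rp_sqrt_mul hn, flp_rp_mul hn, flp_rp_div hn, flp_rp_mul hn]; congr 1; ring

/-- `A_{d_N²} = n^(-23m+δ) d_N` in the initial upper comparison -/
theorem flp_U_Al {n : ℕ} (hn : 0 < (n : ℝ)) :
    (flCallU n m).Al (flDN n m ^ 2) = (n : ℝ) ^ (-(23 * m - m / 10000)) * flDN n m := by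
  show (n : ℝ) ^ (m / 10000) * Real.sqrt (n : ℝ) * (n : ℝ) ^ (-(5 / 6 : ℝ) + 27 * m) / Real.sqrt (flDN n m ^ 2) = _
  rw [Real.sqrt_sq (flp_DN_pos hn).le]
  unfold flDN
  rw [mul_assoc, flp_rp_sqrt_mul hn, flp_rp_mul hn, flp_rp_div hn, flp_rp_mul hn]; congr 1; ring

theorem flp_ev_L_Al (hm : 0 < m) {c : ℝ} (hc : 0 < c) : ∀ᶠ n : ℕ in atTop, (flCallL n m).Al (flS n m ^ 2) ≤ c * flS n m := by
  filter_upwards [flp_ev_small (x := 3 * m - m / 10000) (by linarith) hc, flp_ev_pos] with n h hp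
  rw [flp_L_Al hp.1]
  exact mul_le_mul_of_nonneg_right h (flp_S_pos hp.1).le

theorem flp_ev_U_Al (hm : 0 < m) {c : ℝ} (hc : 0 < c) : ∀ᶠ n : ℕ in atTop, (flCallU n m).Al (flDN n m ^ 2) ≤ c * flDN n m := by
  filter_upwards [flp_ev_small (x := 23 * m - m / 10000) (by linarith) hc, flp_ev_pos] with n h hp
  rw [flp_U_Al hp.1]
  exact mul_le_mul_of_nonneg_right h (flp_DN_pos hp.1).le

/-- `ε = n^(-1/3) ≤ c s²` eventually -/
theorem flp_ev_EL (hm : 0 < m) {c : ℝ} (hc : 0 < c) : ∀ᶠ n : ℕ in atTop, flEL n ≤ c * flS n m ^ 2 := by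
  filter_upwards [flp_ev_small (x := 10 * m) (by linarith) hc, flp_ev_pos] with n h hp
  have e : flEL n = (n : ℝ) ^ (-(10 * m)) * flS n m ^ 2 := flp_L_eps' hp.1
  rw [e]
  exact mul_le_mul_of_nonneg_right h (by have := flp_S_pos (m := m) hp.1; positivity)

/-- `ε₀ ≤ c d_N²` eventually -/
theorem flp_ev_E0 (hm : 0 < m) {c : ℝ} (hc : 0 < c) : ∀ᶠ n : ℕ in atTop, flE0 n m ≤ c * flDN n m ^ 2 := by
  filter_upwards [flp_ev_small (x := 10 * m) (by linarith) hc, flp_ev_pos] with n h hp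
  rw [flp_U_eps hp.1]
  exact mul_le_mul_of_nonneg_right h (by have := flp_DN_pos (m := m) hp.1; positivity)

/-- `s ≤ c d_N` eventually -/
theorem flp_ev_S_DN (hm : 0 < m) {c : ℝ} (hc : 0 < c) : ∀ᶠ n : ℕ in atTop, flS n m ≤ c * flDN n m := by
  filter_upwards [flp_ev_small (x := 20 * m) (by linarith) hc, flp_ev_pos] with n h hp
  rw [flp_U_s hp.1]
  exact mul_le_mul_of_nonneg_right h (flp_DN_pos hp.1).le

/-- `s ≤ c d_H` eventually -/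
theorem flp_ev_S_DH (hm : 0 < m) {c : ℝ} (hc : 0 < c) : ∀ᶠ n : ℕ in atTop, flS n m ≤ c * flDH n m := by
  filter_upwards [flp_ev_small (x := 10 * m) (by linarith) hc, flp_ev_pos] with n h hp
  rw [flp_H_s' hp.1]
  exact mul_le_mul_of_nonneg_right h (flp_DH_pos hp.1).le

/-- `d_H² ≤ c ε₀` eventually -/
theorem flp_ev_DH_E0 (hm : 0 < m) {c : ℝ} (hc : 0 < c) : ∀ᶠ n : ℕ in atTop, flDH n m ^ 2 ≤ c * flE0 n m := by
  filter_upwards [flp_ev_small (x := 10 * m) (by linarith) hc, flp_ev_pos] with n h hp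
  rw [flp_H_dsq hp.1]
  exact mul_le_mul_of_nonneg_right h (flp_E0_pos hp.1).le

/-- `ε s³ = n^(-5/6+15m)` on `flEL` -/
theorem flp_tab1' {n : ℕ} (hn : 0 < (n : ℝ)) : flEL n * flS n m ^ 3 = (n : ℝ) ^ (-(5 / 6 : ℝ) + 15 * m) := flp_tab1 hn

/-- the error of the lower comparison with the slack `n^m`: `n^m E_L ≤ c n^(-5/6+15m)` eventually -/
theorem flp_ev_errL (hm : 0 < m) {c : ℝ} (hc : 0 < c) :
    ∀ᶠ n : ℕ in atTop, (n : ℝ) ^ m * (flCallL n m).E ≤ c * (n : ℝ) ^ (-(5 / 6 : ℝ) + 15 * m) := by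
  filter_upwards [flp_ev_small (x := 7 * m) (by linarith) hc, flp_ev_pos] with n h hp
  have e : (n : ℝ) ^ m * (flCallL n m).E = (n : ℝ) ^ (-(7 * m)) * (n : ℝ) ^ (-(5 / 6 : ℝ) + 15 * m) := by
    show (n : ℝ) ^ m * (n : ℝ) ^ (-(5 / 6 : ℝ) + 7 * m) = _
    rw [flp_rp_mul hp.1, flp_rp_mul hp.1]; congr 1; ring
  rw [e]
  exact mul_le_mul_of_nonneg_right h (Real.rpow_nonneg hp.1.le _)

/-- the error of the initial upper comparison with the slack `n^m`: `n^m E_U ≤ n^(-5/6+95m)` -/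
theorem flp_errU {n : ℕ} (hn : 1 ≤ (n : ℝ)) (hm : 0 ≤ m) :
    (n : ℝ) ^ m * (flCallU n m).E ≤ (n : ℝ) ^ (-(5 / 6 : ℝ) + 95 * m) := by
  show (n : ℝ) ^ m * (n : ℝ) ^ (-(5 / 6 : ℝ) + 27 * m) ≤ _
  rw [flp_rp_mul (by linarith)]
  exact flp_rp_le hn (by linarith)

end small

/-! ### the same statements on `flCL`, `flAL`, `flR0` (`Fl/Scales`) -/

/-- comparison error + first display of Lemma 7.4 `≤ C' n^(-5/6+67m) (log n)³`, every `n ≥ 3` -/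
theorem flp_step (T m C CS : ℝ) (hm : 0 < m) (hC : 0 ≤ C) (hCS : 0 ≤ CS) (n : ℕ) (hn3 : 3 ≤ n)
    (ε : ℝ) (h1 : flE0 n m ≤ ε) (h2 : ε < T) :
    (n : ℝ) ^ m * (flCallH n m).E
      + C * (flCL T ε * flS n m * (flAL n m CS ε ^ 2 + flR0 n m ε ^ 2)
        + flAL n m CS ε * Real.log (n : ℝ) ^ 3 / ((n : ℝ) * flR0 n m ε * flS n m) + flTau n)
      ≤ (1 + C * (CS ^ 2 / 2 + 1 / 8 + 24 * CS + 1)) * (n : ℝ) ^ (-(5 / 6 : ℝ) + 67 * m) * Real.log (n : ℝ) ^ 3 :=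
  flp_step_num T m C CS hm hC hCS n hn3 ε h1 h2

/-- the same `≤ C' n^(-5/6+70m)`, eventually -/
theorem flp_step70 (T m C CS : ℝ) (hm : 0 < m) (hC : 0 ≤ C) (hCS : 0 ≤ CS) :
    ∀ᶠ n : ℕ in atTop, ∀ ε : ℝ, flE0 n m ≤ ε → ε < T →
    (n : ℝ) ^ m * (flCallH n m).E
      + C * (flCL T ε * flS n m * (flAL n m CS ε ^ 2 + flR0 n m ε ^ 2)
        + flAL n m CS ε * Real.log (n : ℝ) ^ 3 / ((n : ℝ) * flR0 n m ε * flS n m) + flTau n)
      ≤ (1 + C * (CS ^ 2 / 2 + 1 / 8 + 24 * CS + 1)) * (n : ℝ) ^ (-(5 / 6 : ℝ) + 70 * m) :=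
  flp_step_num70 T m C CS hm hC hCS

/-- **PE Prop 7.5** (arithmetic part) on the names of `Fl/Scales`.      TEX[PE:fl:laplace-window] -/
theorem flp_window (T m : ℝ) (hT : 1 < T) (hm : 0 < m) (hm' : m < 1 / 300) (p : ℕ → ℝ → ℝ) (K : ℕ → ℝ)
    (hK : ∀ᶠ n : ℕ in atTop, K n = (n : ℝ) * flS n m * (p n T - p n 0))
    (hmono : ∀ᶠ n : ℕ in atTop, ∀ ε ε' : ℝ, 0 ≤ ε → ε ≤ ε' → ε' ≤ T →
      0 ≤ p n ε' - p n ε ∧ p n ε' - p n ε ≤ flS n m * (ε' - ε) / 4)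
    (hlow : ∃ c : ℝ, 0 < c ∧ ∀ᶠ n : ℕ in atTop, c * (n : ℝ) ^ (-(5 / 6 : ℝ) + 15 * m) ≤ p n (flEL n) - p n 0)
    (hup0 : ∃ C : ℝ, ∀ᶠ n : ℕ in atTop, p n (flE0 n m) - p n 0 ≤ C * (n : ℝ) ^ (-(5 / 6 : ℝ) + 95 * m))
    (hstep : ∃ C CS : ℝ, 0 ≤ C ∧ 0 ≤ CS ∧ ∀ᶠ n : ℕ in atTop, ∀ ε : ℝ, flE0 n m ≤ ε → ε < T →
      p n (ε + flCL T ε / 2) - p n ε ≤ (n : ℝ) ^ m * (flCallH n m).E
      + C * (flCL T ε * flS n m * (flAL n m CS ε ^ 2 + flR0 n m ε ^ 2)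
        + flAL n m CS ε * Real.log (n : ℝ) ^ 3 / ((n : ℝ) * flR0 n m ε * flS n m) + flTau n)) :
    ∃ c C : ℝ, 0 < c ∧ ∀ᶠ n : ℕ in atTop, c * (n : ℝ) ^ (20 * m) ≤ K n ∧ K n ≤ C * (n : ℝ) ^ (100 * m) := by
  obtain ⟨C, CS, hC, hCS, hstep⟩ := hstep
  refine flp_window_sweep T m hT hm hm' p K hK hmono hlow hup0 ⟨C, CS, hC, hCS, ?_⟩
  filter_upwards [hstep] with n h ε h1 h2
  have e : ε + min ε (T - ε) / 4 = ε + flCL T ε / 2 := by unfold flCL; ring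
  rw [e]
  exact h ε h1 h2

end Claimed.Agent.R286
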