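import Claimed.Agent.R286.Fl.Defs
import Claimed.Agent.R286.Fl.Chord
import Claimed.Agent.R286.Fl.Par

/-!
# Row 286 (S0533), PE Sec. 7, file Fl/Cost : THE COST OF A WALL SWEEP (PE Lemma 7.4), on the SK path numbers      (helper126, co-architect of helper196; prefix `flk_`)

source: PE fluctuations.tex l.309-450.      TEX[PE:fl:wall-cost]
The FIRST assertion in numbers is `flw_cost` (helper158, `Fl/LemW.lean`).   Here: its INSTANCE on the wall paths of the SK model, and the SECOND assertion.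
Everything is PROVED from the clock API (`Exit/ClkPr`, `Exit/ClkStat`, `Exit/ClkSus`) through `flw_sk_ok`, `flw_cost`, `flq_chord`.

The class of high quantiles is ABSTRACT: a type `K`, a set `A`, and for `k ∈ A` the removed covariance `e k u`, the added field `g k u` (`u ∈ [s,1]`) and the penalty `pen k`.
* `flkB s T ε c θ e`, `flkH s τ c r0 θ g`      the wall clocks `T - (ε + θ c) 1_{u<s} - e 1_{u≥s}`, `θ c r₀ ψ 1_{u<s} + g 1_{u≥s}`;   AFFINE in `θ` (`flk_B_seg`, `flk_H_seg`)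
* `flkJ`                  the functional `J_θ`
* `flk_hasDeriv`          `∂_θ J_θ(k) = (c/4) ∫_0^s [B - 2 r₀ ψ S + r₀² ψ²]` at a frozen `k`      (l.405-416)
* `flk_value`, `flk_lip`  the value function exists and is Lipschitz      (l.402-404)
* `flk_sweep`             **first assertion** `J*_1 - J*_0 ≤ 2 c s (a² + r₀²) + 2·10⁶ a ℓ³/(n r₀ s) + 3 c τ`
* `flk_end`               the chord at `θ = 1` to `p(ε + c/2)`      (l.428-440)
* `flk_total`             **second assertion** `p(ε + c/2) - p(ε) ≤ err + [first assertion] + c s r₀²/4`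
* `flk_Pb`, `flk_Ph`, `flk_J`      the instance: the wall paths `flDW n m T ε θ` of `Fl/Defs.lean` (helper196) are `flkB`, `flkH`; `flJ` is `flkJ`
* `flk_step`              the second assertion at ONE size from `FlImpH n m T CS ε`, explicit constants
* `flk_wall`              **= `fl_wall` of `Fl/Contract.lean`, VERBATIM** (with the ledger `flp_step70` of helper254)
SORRY FREE (its only debts are the exits of the clock API and `exit_clk_B_le` through `flw_sk_ok`).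
-/

set_option autoImplicit false

namespace Claimed.Agent.R286

open MeasureTheory Set Filter Topology
open scoped NNReal

/-! ### the wall clocks -/

/-- the matrix clock `T - (ε + θ c) 1_{u<s} - e 1_{u≥s}` -/
noncomputable def flkB (s T ε c θ : ℝ) (e : ℝ → ℝ) (u : ℝ) : ℝ := if u < s then T - ε - θ * c else T - e u

/-- the field clock `θ c r₀ ψ 1_{u<s} + g 1_{u≥s}` -/
noncomputable def flkH (s τ c r0 θ : ℝ) (g : ℝ → ℝ) (u : ℝ) : ℝ := if u < s then θ * c * r0 * flwPsi s τ u else g u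

/-- the low penalty integral `∫_0^s r₀² ψ²` -/
noncomputable def flkI (s τ r0 : ℝ) : ℝ := ∫ u in (0 : ℝ)..s, r0 ^ 2 * flwPsi s τ u ^ 2

/-- the functional `J_θ` on an abstract class of high quantiles -/
noncomputable def flkJ {K : Type} (n : ℕ) (s τ T ε c r0 : ℝ) (e g : K → ℝ → ℝ) (pen : K → ℝ) (θ : ℝ) (k : K) : ℝ :=
  skCPr n 1 (flkB s T ε c θ (e k)) (flkH s τ c r0 θ (g k)) + pen k + θ * c / 4 * flkI s τ r0

theorem flk_eqns_cite : True := by
  have := @flkB.eq_1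
  have := @flkH.eq_1
  have := @flkI.eq_1
  have := @flkJ.eq_1
  trivial

theorem flk_B_seg (s T ε c θ : ℝ) (e : ℝ → ℝ) : flkB s T ε c θ e = ckSeg θ (flkB s T ε c 0 e) (flkB s T ε c 1 e) := by
  funext u
  by_cases hu : u < s
  · simp only [flkB, ckSeg, if_pos hu]
    ring
  · simp only [flkB, ckSeg, if_neg hu]
    ring

theorem flk_H_seg (s τ c r0 θ : ℝ) (g : ℝ → ℝ) : flkH s τ c r0 θ g = ckSeg θ (flkH s τ c r0 0 g) (flkH s τ c r0 1 g) := by
  funext u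
  by_cases hu : u < s
  · simp only [flkH, ckSeg, if_pos hu]
    ring
  · simp only [flkH, ckSeg, if_neg hu]
    ring

theorem flk_B_diff (s T ε c : ℝ) (e : ℝ → ℝ) (u : ℝ) : flkB s T ε c 1 e u - flkB s T ε c 0 e u = if u < s then -c else 0 := by
  by_cases hu : u < s
  · simp only [flkB, if_pos hu]
    ring
  · simp only [flkB, if_neg hu]
    ring

theorem flk_H_diff (s τ c r0 : ℝ) (g : ℝ → ℝ) (u : ℝ) :
    flkH s τ c r0 1 g u - flkH s τ c r0 0 g u = if u < s then c * r0 * flwPsi s τ u else 0 := by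
  by_cases hu : u < s
  · simp only [flkH, if_pos hu]
    ring
  · simp only [flkH, if_neg hu]
    ring

/-! ### integrals over the low group -/

theorem flk_int_low (f : ℝ → ℝ) {s : ℝ} (hs0 : 0 ≤ s) (hs1 : s ≤ 1) :
    ∫ u in (0 : ℝ)..1, (if u < s then f u else 0) = ∫ u in (0 : ℝ)..s, f u := by
  rw [intervalIntegral.integral_of_le zero_le_one, intervalIntegral.integral_of_le hs0]
  have e : (fun u => if u < s then f u else 0) = (Iio s).indicator f := by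
    funext u
    simp [indicator_apply]
  have e2 : Ioc (0 : ℝ) 1 ∩ Iio s = Ioo 0 s := by
    ext u
    simp only [mem_inter_iff, mem_Ioc, mem_Iio, mem_Ioo]
    constructor
    · rintro ⟨⟨h1, _⟩, h3⟩
      exact ⟨h1, h3⟩
    · rintro ⟨h1, h2⟩
      exact ⟨⟨h1, h2.le.trans hs1⟩, h2⟩
  rw [e, setIntegral_indicator measurableSet_Iio, e2, integral_Ioc_eq_integral_Ioo]

section path

variable {n : ℕ} {s τ : ℝ} {b h : ℝ → ℝ}

theorem flk_mem {u : ℝ} (hs1 : s ≤ 1) (hu : u ∈ Ioc 0 s) : u ∈ Icc (0 : ℝ) 1 := ⟨hu.1.le, hu.2.trans hs1⟩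

theorem flk_B_int (hn : 0 < n) (hbh : CkAdm 1 b h) (hs0 : 0 ≤ s) (hs1 : s ≤ 1) :
    IntervalIntegrable (fun u => skCB n 1 b h (ghPosA u)) volume 0 s :=
  (flw_sk_ok hn hbh hs1).B_int le_rfl hs0 le_rfl

theorem flk_psiS_int (hn : 0 < n) (hbh : CkAdm 1 b h) (hs0 : 0 < s) (hs1 : s ≤ 1) (hτ : 0 < τ) :
    IntervalIntegrable (fun u => flwPsi s τ u * skCS n 1 b h (ghPosA u)) volume 0 s := by
  have hO := flw_sk_ok hn hbh hs1
  refine flw_int_of_mono (M := 1) hs0.le (fun x hx y hy hxy => ?_) fun u hu => ?_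
  · exact mul_le_mul (flw_psi_mono hs0 hτ hx.2.le hy.2.le hxy) (hO.S_mono hx hy hxy) (hO.S_nonneg x hx)
      (flw_psi_mem hs0 hτ hy.1.le hy.2.le).1
  · obtain ⟨p0, p1⟩ := flw_psi_mem hs0 hτ hu.1.le hu.2.le
    have s0 : 0 ≤ skCS n 1 b h (ghPosA u) := hO.S_nonneg u hu
    have s1 := flq_S_le_one hn one_pos hbh (u := u) ⟨hu.1.le, hu.2.le.trans hs1⟩
    rw [abs_of_nonneg (mul_nonneg p0 s0)]
    exact mul_le_one₀ p1 s0 s1

theorem flk_psi2_int (r0 : ℝ) (hs0 : 0 < s) (hτ : 0 < τ) :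
    IntervalIntegrable (fun u => r0 ^ 2 * flwPsi s τ u ^ 2) volume 0 s := by
  refine flw_int_of_mono (M := r0 ^ 2) hs0.le (fun x hx y hy hxy => ?_) fun u hu => ?_
  · exact mul_le_mul_of_nonneg_left
      (pow_le_pow_left₀ (flw_psi_mem hs0 hτ hx.1.le hx.2.le).1 (flw_psi_mono hs0 hτ hx.2.le hy.2.le hxy) 2) (sq_nonneg _)
  · obtain ⟨p0, p1⟩ := flw_psi_mem hs0 hτ hu.1.le hu.2.le
    rw [abs_of_nonneg (by positivity)]
    have : flwPsi s τ u ^ 2 ≤ 1 := pow_le_one₀ p0 p1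
    nlinarith [sq_nonneg r0]

theorem flk_I_nonneg (r0 : ℝ) (hs0 : 0 < s) : 0 ≤ flkI s τ r0 :=
  intervalIntegral.integral_nonneg hs0.le fun _ _ => by positivity

theorem flk_I_le (r0 : ℝ) (hs0 : 0 < s) (hτ : 0 < τ) : flkI s τ r0 ≤ s * r0 ^ 2 := by
  have h1 : flkI s τ r0 ≤ ∫ _u in (0 : ℝ)..s, r0 ^ 2 := by
    refine intervalIntegral.integral_mono_on hs0.le (flk_psi2_int r0 hs0 hτ) intervalIntegrable_const fun u hu => ?_
    obtain ⟨p0, p1⟩ := flw_psi_mem hs0 hτ hu.1 hu.2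
    have : flwPsi s τ u ^ 2 ≤ 1 := pow_le_one₀ p0 p1
    nlinarith [sq_nonneg r0]
  rw [intervalIntegral.integral_const, smul_eq_mul, sub_zero] at h1
  exact h1

/-- the three integrals merged -/
theorem flk_merge (hn : 0 < n) (hbh : CkAdm 1 b h) (hs0 : 0 < s) (hs1 : s ≤ 1) (hτ : 0 < τ) (c r0 : ℝ) :
    c / 4 * (∫ u in (0 : ℝ)..s, skCB n 1 b h (ghPosA u)) - c * r0 / 2 * (∫ u in (0 : ℝ)..s, flwPsi s τ u * skCS n 1 b h (ghPosA u))
        + c / 4 * flkI s τ r0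
      = c / 4 * ∫ u in (0 : ℝ)..s, (skCB n 1 b h (ghPosA u) - 2 * r0 * flwPsi s τ u * skCS n 1 b h (ghPosA u) + r0 ^ 2 * flwPsi s τ u ^ 2) := by
  have iB := flk_B_int hn hbh hs0.le hs1
  have iS := flk_psiS_int hn hbh hs0 hs1 hτ
  have iP := flk_psi2_int r0 hs0 hτ
  have e : (fun u => skCB n 1 b h (ghPosA u) - 2 * r0 * flwPsi s τ u * skCS n 1 b h (ghPosA u) + r0 ^ 2 * flwPsi s τ u ^ 2)
      = fun u => skCB n 1 b h (ghPosA u) - (2 * r0) * (flwPsi s τ u * skCS n 1 b h (ghPosA u)) + r0 ^ 2 * flwPsi s τ u ^ 2 := by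
    funext u
    ring
  rw [e, intervalIntegral.integral_add (iB.sub (iS.const_mul _)) iP, intervalIntegral.integral_sub iB (iS.const_mul _),
    intervalIntegral.integral_const_mul]
  unfold flkI
  ring

/-- the integrand of the derivative is bounded by `2` -/
theorem flk_merge_abs (hn : 0 < n) (hbh : CkAdm 1 b h) (hs0 : 0 < s) (hs1 : s ≤ 1) (hτ : 0 < τ) {r0 : ℝ} (hr0 : 0 ≤ r0) (hr1 : r0 ≤ 1) :
    |∫ u in (0 : ℝ)..s, (skCB n 1 b h (ghPosA u) - 2 * r0 * flwPsi s τ u * skCS n 1 b h (ghPosA u) + r0 ^ 2 * flwPsi s τ u ^ 2)| ≤ 2 * s := by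
  have key := intervalIntegral.norm_integral_le_of_norm_le_const (a := (0 : ℝ)) (b := s) (C := 2)
    (f := fun u => skCB n 1 b h (ghPosA u) - 2 * r0 * flwPsi s τ u * skCS n 1 b h (ghPosA u) + r0 ^ 2 * flwPsi s τ u ^ 2) (fun u hu => ?_)
  · rw [Real.norm_eq_abs, sub_zero, abs_of_pos hs0] at key
    exact key
  · rw [uIoc_of_le hs0.le] at hu
    obtain ⟨p0, p1⟩ := flw_psi_mem hs0 hτ hu.1.le hu.2
    obtain ⟨s0, s2, b1⟩ := flq_SB hn one_pos hbh (flk_mem hs1 hu)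
    have s1 := flq_S_le_one hn one_pos hbh (flk_mem hs1 hu)
    have b0 : 0 ≤ skCB n 1 b h (ghPosA u) := (sq_nonneg _).trans s2
    set S := skCS n 1 b h (ghPosA u)
    set B := skCB n 1 b h (ghPosA u)
    set ψ := flwPsi s τ u
    have q1 : 0 ≤ r0 * ψ := mul_nonneg hr0 p0
    have q2 : r0 * ψ ≤ 1 := mul_le_one₀ hr1 p0 p1
    have q3 : 0 ≤ r0 * ψ * S := mul_nonneg q1 s0
    have q4 : r0 * ψ * S ≤ 1 := mul_le_one₀ q2 s0 s1
    have q5 : (r0 * ψ) ^ 2 ≤ 1 := pow_le_one₀ q1 q2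
    have q6 : 0 ≤ (r0 * ψ) ^ 2 := sq_nonneg _
    rw [Real.norm_eq_abs, abs_le]
    constructor <;> nlinarith

end path

/-! ### the derivative of the frozen functional -/

section sweep

variable {n : ℕ} {s τ T ε c r0 : ℝ}

/-- line 1 of PE (1) along the wall segment -/
theorem flk_dpr (n : ℕ) (τ T ε c r0 θ : ℝ) (hs0 : 0 ≤ s) (hs1 : s ≤ 1) (e g : ℝ → ℝ) :
    ckDPr n 1 (flkB s T ε c 0 e) (flkH s τ c r0 0 g) (flkB s T ε c 1 e) (flkH s τ c r0 1 g) θ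
      = c / 4 * (∫ u in (0 : ℝ)..s, skCB n 1 (flkB s T ε c θ e) (flkH s τ c r0 θ g) (ghPosA u))
        - c * r0 / 2 * ∫ u in (0 : ℝ)..s, flwPsi s τ u * skCS n 1 (flkB s T ε c θ e) (flkH s τ c r0 θ g) (ghPosA u) := by
  unfold ckDPr
  rw [← flk_B_seg, ← flk_H_seg]
  simp only [flk_B_diff, flk_H_diff, mul_ite, mul_zero]
  rw [flk_int_low _ hs0 hs1, flk_int_low _ hs0 hs1, intervalIntegral.integral_mul_const]
  have e2 : (fun u => skCS n 1 (flkB s T ε c θ e) (flkH s τ c r0 θ g) (ghPosA u) * (c * r0 * flwPsi s τ u))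
      = fun u => (c * r0) * (flwPsi s τ u * skCS n 1 (flkB s T ε c θ e) (flkH s τ c r0 θ g) (ghPosA u)) := by
    funext u
    ring
  rw [e2, intervalIntegral.integral_const_mul]
  ring

theorem flk_adm_seg {e g : ℝ → ℝ} (A0 : CkAdm 1 (flkB s T ε c 0 e) (flkH s τ c r0 0 g))
    (A1 : CkAdm 1 (flkB s T ε c 1 e) (flkH s τ c r0 1 g)) {θ : ℝ} (hθ : θ ∈ Icc (0 : ℝ) 1) :
    CkAdm 1 (flkB s T ε c θ e) (flkH s τ c r0 θ g) := by
  rw [flk_B_seg, flk_H_seg]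
  exact flq_seg_adm A0 A1 hθ

/-- **the derivative of the frozen functional** (PE l.405-416) -/
theorem flk_hasDeriv (hn : 0 < n) (hs0 : 0 < s) (hs1 : s ≤ 1) (hτ : 0 < τ) {e g : ℝ → ℝ}
    (A0 : CkAdm 1 (flkB s T ε c 0 e) (flkH s τ c r0 0 g)) (A1 : CkAdm 1 (flkB s T ε c 1 e) (flkH s τ c r0 1 g)) (p : ℝ)
    {θ : ℝ} (hθ : θ ∈ Icc (0 : ℝ) 1) :
    HasDerivWithinAt (fun θ' => skCPr n 1 (flkB s T ε c θ' e) (flkH s τ c r0 θ' g) + p + θ' * c / 4 * flkI s τ r0)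
      (c / 4 * ∫ u in (0 : ℝ)..s, (skCB n 1 (flkB s T ε c θ e) (flkH s τ c r0 θ g) (ghPosA u)
        - 2 * r0 * flwPsi s τ u * skCS n 1 (flkB s T ε c θ e) (flkH s τ c r0 θ g) (ghPosA u) + r0 ^ 2 * flwPsi s τ u ^ 2))
      (Icc 0 1) θ := by
  obtain ⟨hd, -⟩ := exit_clk_pr_deriv hn one_pos A0 A1
  have h1 := hd θ hθ
  have e1 : (fun t => skCPr n 1 (ckSeg t (flkB s T ε c 0 e) (flkB s T ε c 1 e)) (ckSeg t (flkH s τ c r0 0 g) (flkH s τ c r0 1 g)))
      = fun t => skCPr n 1 (flkB s T ε c t e) (flkH s τ c r0 t g) := by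
    funext t
    rw [← flk_B_seg, ← flk_H_seg]
  rw [e1, flk_dpr n τ T ε c r0 θ hs0.le hs1] at h1
  have h2 : HasDerivWithinAt (fun t : ℝ => t * c / 4 * flkI s τ r0) (c / 4 * flkI s τ r0) (Icc 0 1) θ := by
    have := ((((hasDerivAt_id θ).mul_const c).div_const 4).mul_const (flkI s τ r0)).hasDerivWithinAt (s := Icc (0 : ℝ) 1)
    simpa using this
  have h3 := (h1.add_const p).add h2
  rw [flk_merge hn (flk_adm_seg A0 A1 hθ) hs0 hs1 hτ] at h3
  exact h3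

end sweep

/-! ### the value function -/

theorem flk_value {K : Type} {F : ℝ → K → ℝ} {A : Set K} {I : Set ℝ} (hex : ∀ θ ∈ I, ∃ k ∈ A, ∀ k' ∈ A, F θ k ≤ F θ k') :
    ∃ V : ℝ → ℝ, Tl12Value F A V I := by
  classical
  refine ⟨fun θ => if h : θ ∈ I then F θ (Classical.choose (hex θ h)) else 0, ⟨fun θ hθ r hr => ?_, fun θ hθ => ?_⟩⟩
  · simp only [dif_pos hθ]
    exact (Classical.choose_spec (hex θ hθ)).2 r hr
  · simp only [dif_pos hθ]
    exact ⟨_, (Classical.choose_spec (hex θ hθ)).1, rfl⟩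

theorem flk_ok_congr {O : FlwObs} {n s : ℝ} {h h' : ℝ → ℝ} (hO : O.Ok n s h) (hh : ∀ u ∈ Ioo 0 s, h u = h' u) : O.Ok n s h' :=
  ⟨hO.S_nonneg, hO.S_mono, hO.B_nonneg, hO.B_le, hO.B_mono, hO.H_nonneg, hO.H_int,
    fun u v κ hu huv hv hκ hsl => hO.sus u v κ hu huv hv hκ fun w w' h1 h2 h3 => by
      rw [hh w ⟨by linarith, by linarith⟩, hh w' ⟨by linarith, by linarith⟩]
      exact hsl w w' h1 h2 h3,
    hO.pin⟩

section main

variable {K : Type} {n : ℕ} {s τ T ε c r0 a ℓ : ℝ} {e g : K → ℝ → ℝ} {pen : K → ℝ} {A : Set K} {V : ℝ → ℝ}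

/-- the value function is Lipschitz (PE l.402-404) -/
theorem flk_lip (hn : 0 < n) (hs0 : 0 < s) (hs1 : s ≤ 1) (hτ : 0 < τ) (hc : 0 ≤ c) (hr0 : 0 ≤ r0) (hr1 : r0 ≤ 1)
    (hadm : ∀ θ ∈ Icc (0 : ℝ) 1, ∀ k ∈ A, CkAdm 1 (flkB s T ε c θ (e k)) (flkH s τ c r0 θ (g k)))
    (hV : Tl12Value (flkJ n s τ T ε c r0 e g pen) A V (Icc 0 1)) : LipschitzOnWith c.toNNReal V (Icc 0 1) := by
  refine tl_12_lipschitz_of_deriv hV (convex_Icc 0 1)
    (dF := fun θ k => c / 4 * ∫ u in (0 : ℝ)..s, (skCB n 1 (flkB s T ε c θ (e k)) (flkH s τ c r0 θ (g k)) (ghPosA u)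
        - 2 * r0 * flwPsi s τ u * skCS n 1 (flkB s T ε c θ (e k)) (flkH s τ c r0 θ (g k)) (ghPosA u) + r0 ^ 2 * flwPsi s τ u ^ 2))
    (fun k hk θ hθ => ?_) (fun k hk θ hθ => ?_)
  · exact flk_hasDeriv hn hs0 hs1 hτ (hadm 0 ⟨le_rfl, zero_le_one⟩ k hk) (hadm 1 ⟨zero_le_one, le_rfl⟩ k hk) (pen k) hθ
  · have h1 := flk_merge_abs hn (hadm θ hθ k hk) hs0 hs1 hτ hr0 hr1
    rw [abs_mul, abs_of_nonneg (by positivity : 0 ≤ c / 4), Real.coe_toNNReal c hc]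
    have h2 : c / 4 * |∫ u in (0 : ℝ)..s, (skCB n 1 (flkB s T ε c θ (e k)) (flkH s τ c r0 θ (g k)) (ghPosA u)
        - 2 * r0 * flwPsi s τ u * skCS n 1 (flkB s T ε c θ (e k)) (flkH s τ c r0 θ (g k)) (ghPosA u) + r0 ^ 2 * flwPsi s τ u ^ 2)|
        ≤ c / 4 * (2 * s) := mul_le_mul_of_nonneg_left h1 (by positivity)
    nlinarith

/-- **PE Lemma 7.4, first assertion, on the wall paths of the SK model.**      TEX[PE:fl:wall-cost] -/
theorem flk_sweep (hn : 0 < n) (hτ : 0 < τ) (hsτ : 4 * τ ≤ s) (hs1 : s ≤ 1) (hc : 0 < c) (hr0 : 0 < r0) (hr1 : r0 ≤ 1)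
    (hℓ2 : Real.log 2 ≤ ℓ) (hℓ : Real.log (1 / τ) ≤ 10 * ℓ)
    (hadm : ∀ θ ∈ Icc (0 : ℝ) 1, ∀ k ∈ A, CkAdm 1 (flkB s T ε c θ (e k)) (flkH s τ c r0 θ (g k)))
    (hV : Tl12Value (flkJ n s τ T ε c r0 e g pen) A V (Icc 0 1))
    (hlow : ∀ θ ∈ Ioo (0 : ℝ) 1, ∀ k ∈ A, flkJ n s τ T ε c r0 e g pen θ k = V θ → ∀ u ∈ Ioo 0 s,
      skCS n 1 (flkB s T ε c θ (e k)) (flkH s τ c r0 θ (g k)) (ghPosA u) ≤ a) :
    V 1 - V 0 ≤ 2 * c * s * (a ^ 2 + r0 ^ 2) + 2000000 * (a * ℓ ^ 3 / (n * r0 * s)) + 3 * c * τ := by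
  have hs0 : 0 < s := by linarith
  have hn' : (0 : ℝ) < n := by exact_mod_cast hn
  refine flw_cost hn' hτ hsτ hs1 hc hr0 hr1 hℓ2 hℓ hV (flk_lip hn hs0 hs1 hτ hc.le hr0.le hr1 hadm hV) fun θ hθ => ?_
  have hθ' := Ioo_subset_Icc_self hθ
  obtain ⟨k, hk, hkV⟩ := hV.att θ hθ'
  refine ⟨k, hk, hkV, flwSk n (flkB s T ε c θ (e k)) (flkH s τ c r0 θ (g k)), ?_, ?_, ?_⟩
  · refine flk_ok_congr (flw_sk_ok hn (hadm θ hθ' k hk) hs1) fun u hu => ?_
    simp only [flkH, if_pos hu.2]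
  · exact hlow θ hθ k hk hkV
  · have h1 := flk_hasDeriv hn hs0 hs1 hτ (hadm 0 ⟨le_rfl, zero_le_one⟩ k hk) (hadm 1 ⟨zero_le_one, le_rfl⟩ k hk) (pen k) hθ'
    exact (h1.hasDerivAt (Icc_mem_nhds hθ.1 hθ.2)).hasDerivWithinAt

end main

/-! ### the chord at `θ = 1` -/

section chord

variable {n : ℕ} {s τ T ε c r0 : ℝ} {e ρ : ℝ → ℝ}

/-- the residual matrix covariance of the chord from the changed path at `θ = 1` to `p(ε + c/2)` -/
noncomputable def flkAl (s c : ℝ) (e : ℝ → ℝ) (u : ℝ) : ℝ := if u < s then c / 2 else e u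

theorem flk_al_eqns_cite : True := by
  have := @flkAl.eq_1
  trivial

/-- the chord density on the low group -/
theorem flk_den_low (hc : 0 < c) {u : ℝ} (hu : u < s) :
    flkH s τ c r0 1 (fun u => e u * ρ u) u ^ 2 / flkAl s c e u = 2 * c * (r0 ^ 2 * flwPsi s τ u ^ 2) := by
  simp only [flkH, flkAl, if_pos hu]
  field_simp

/-- the chord density on the high group -/
theorem flk_den_high {u : ℝ} (hu : s ≤ u) :
    flkH s τ c r0 1 (fun u => e u * ρ u) u ^ 2 / flkAl s c e u = e u * ρ u ^ 2 := by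
  simp only [flkH, flkAl, if_neg (not_lt.2 hu)]
  rcases eq_or_ne (e u) 0 with h | h
  · rw [h]
    simp
  · field_simp

theorem flk_den_int (hs0 : 0 < s) (hτ : 0 < τ) (hc : 0 < c) (hε : 0 ≤ ε) (hεT : ε + c / 2 ≤ T)
    (he : ∀ u ∈ Icc s 1, 0 ≤ e u) {M : ℝ} (hM : ∀ u ∈ Icc s 1, e u * ρ u ^ 2 ≤ M)
    (hadm : CkAdm 1 (flkB s T ε c 1 e) (flkH s τ c r0 1 fun u => e u * ρ u)) :
    IntervalIntegrable (fun u => flkH s τ c r0 1 (fun u => e u * ρ u) u ^ 2 / flkAl s c e u) volume 0 1 := by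
  rw [intervalIntegrable_iff_integrableOn_Ioc_of_le zero_le_one]
  have m1 : AEMeasurable (flkH s τ c r0 1 fun u => e u * ρ u) (volume.restrict (Ioc 0 1)) :=
    aemeasurable_restrict_of_monotoneOn measurableSet_Ioc (hadm.2.1.mono Ioc_subset_Icc_self)
  have m2 : AEMeasurable (flkB s T ε c 1 e) (volume.restrict (Ioc 0 1)) :=
    aemeasurable_restrict_of_monotoneOn measurableSet_Ioc (hadm.1.1.mono Ioc_subset_Icc_self)
  have m3 : AEMeasurable (flqB s T (ε + c / 2)) (volume.restrict (Ioc 0 1)) :=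
    aemeasurable_restrict_of_monotoneOn measurableSet_Ioc
      ((flq_B_clk (a := 1) (s := s) (by positivity) hεT).1.mono Ioc_subset_Icc_self)
  have e1 : flkAl s c e = fun u => flqB s T (ε + c / 2) u - flkB s T ε c 1 e u := by
    funext u
    by_cases hu : u < s
    · simp only [flkAl, flqB, flkB, if_pos hu]
      ring
    · simp only [flkAl, flqB, flkB, if_neg hu]
      ring
  have m4 : AEMeasurable (flkAl s c e) (volume.restrict (Ioc 0 1)) := by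
    rw [e1]
    exact m3.sub m2
  refine IntegrableOn.of_bound (by simp) ((m1.pow_const 2).div m4).aestronglyMeasurable (2 * c * r0 ^ 2 + |M|) ?_
  rw [ae_restrict_iff' measurableSet_Ioc]
  refine Eventually.of_forall fun u hu => ?_
  rw [Real.norm_eq_abs]
  by_cases hus : u < s
  · rw [flk_den_low hc hus]
    obtain ⟨p0, p1⟩ := flw_psi_mem hs0 hτ hu.1.le hus.le
    have : flwPsi s τ u ^ 2 ≤ 1 := pow_le_one₀ p0 p1
    rw [abs_of_nonneg (by positivity)]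
    have h2 : r0 ^ 2 * flwPsi s τ u ^ 2 ≤ r0 ^ 2 := by nlinarith [sq_nonneg r0]
    have h3 : 2 * c * (r0 ^ 2 * flwPsi s τ u ^ 2) ≤ 2 * c * r0 ^ 2 := mul_le_mul_of_nonneg_left h2 (by positivity)
    linarith [abs_nonneg M]
  · have hus' : u ∈ Icc s 1 := ⟨not_lt.1 hus, hu.2⟩
    rw [flk_den_high hus'.1, abs_of_nonneg (mul_nonneg (he u hus') (sq_nonneg _))]
    have h2 : 0 ≤ 2 * c * r0 ^ 2 := by positivity
    linarith [hM u hus', le_abs_self M]

/-- the chord penalty -/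
theorem flk_den_val (hs0 : 0 < s) (hs1 : s ≤ 1) (hc : 0 < c)
    (hint : IntervalIntegrable (fun u => flkH s τ c r0 1 (fun u => e u * ρ u) u ^ 2 / flkAl s c e u) volume 0 1) :
    ∫ u in (0 : ℝ)..1, flkH s τ c r0 1 (fun u => e u * ρ u) u ^ 2 / flkAl s c e u
      = 2 * c * flkI s τ r0 + ∫ u in s..1, e u * ρ u ^ 2 := by
  have i1 : IntervalIntegrable (fun u => flkH s τ c r0 1 (fun u => e u * ρ u) u ^ 2 / flkAl s c e u) volume 0 s :=
    hint.mono_set (by rw [uIcc_of_le hs0.le, uIcc_of_le zero_le_one]; exact Icc_subset_Icc le_rfl hs1)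
  have i2 : IntervalIntegrable (fun u => flkH s τ c r0 1 (fun u => e u * ρ u) u ^ 2 / flkAl s c e u) volume s 1 :=
    hint.mono_set (by rw [uIcc_of_le hs1, uIcc_of_le zero_le_one]; exact Icc_subset_Icc hs0.le le_rfl)
  rw [← intervalIntegral.integral_add_adjacent_intervals i1 i2]
  congr 1
  · unfold flkI
    rw [← intervalIntegral.integral_const_mul]
    refine intervalIntegral.integral_congr_ae ?_
    filter_upwards [tl_12_ae_Ioo 0 s] with u hu hu'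
    rw [uIoc_of_le hs0.le] at hu'
    exact flk_den_low hc (hu ⟨hu'.1.le, hu'.2⟩).2
  · refine intervalIntegral.integral_congr fun u hu => ?_
    rw [uIcc_of_le hs1] at hu
    exact flk_den_high hu.1

/-- **the chord at `θ = 1`** (PE l.428-440): residual matrix covariance `e` high, `c/2` low; residual field `e ρ` high, `c r₀ ψ` low -/
theorem flk_end (hn : 0 < n) (hs0 : 0 < s) (hs1 : s ≤ 1) (hτ : 0 < τ) (hc : 0 < c) (hε : 0 ≤ ε) (hεT : ε + c / 2 ≤ T)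
    (he : ∀ u ∈ Icc s 1, 0 ≤ e u) {M : ℝ} (hM : ∀ u ∈ Icc s 1, e u * ρ u ^ 2 ≤ M)
    (hadm : CkAdm 1 (flkB s T ε c 1 e) (flkH s τ c r0 1 fun u => e u * ρ u)) :
    skCPr n 1 (flqB s T (ε + c / 2)) (fun _ => 0)
      ≤ skCPr n 1 (flkB s T ε c 1 e) (flkH s τ c r0 1 fun u => e u * ρ u) + 1 / 4 * (∫ u in s..1, e u * ρ u ^ 2)
        + c / 2 * flkI s τ r0 := by
  have hint := flk_den_int (r0 := r0) hs0 hτ hc hε hεT he hM hadm
  have key := flq_chord hn one_pos hadm (flq_B_adm (a := 1) (s := s) (T := T) (ε := ε + c / 2) (by positivity) hεT)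
    (al := flkAl s c e) (c := flkH s τ c r0 1 fun u => e u * ρ u) (fun u _ => ⟨?_, (sub_self _).symm⟩) (fun u hu => ?_) hint
  · rw [flk_den_val hs0 hs1 hc hint] at key
    linarith
  · by_cases hus : u < s
    · simp only [flkAl, flqB, flkB, if_pos hus]
      ring
    · simp only [flkAl, flqB, flkB, if_neg hus]
      ring
  · by_cases hus : u < s
    · simp only [flkAl, if_pos hus]
      exact ⟨by positivity, fun h => absurd h (by positivity)⟩
    · simp only [flkAl, flkH, if_neg hus]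
      exact ⟨he u ⟨not_lt.1 hus, hu.2⟩, fun h => by rw [h, zero_mul]⟩

end chord

/-! ### the second assertion, abstract class of high quantiles -/

section total

variable {K : Type} {n : ℕ} {s τ T ε c r0 a ℓ err : ℝ} {e ρ : K → ℝ → ℝ} {A : Set K}

/-- **PE Lemma 7.4, second assertion** (before the power ledger).      TEX[PE:fl:wall-cost] -/
theorem flk_total (hn : 0 < n) (hτ : 0 < τ) (hsτ : 4 * τ ≤ s) (hs1 : s ≤ 1) (hc : 0 < c) (hr0 : 0 < r0) (hr1 : r0 ≤ 1)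
    (hℓ2 : Real.log 2 ≤ ℓ) (hℓ : Real.log (1 / τ) ≤ 10 * ℓ) (hε : 0 ≤ ε) (hεT : ε + c / 2 ≤ T)
    (he : ∀ k ∈ A, ∀ u ∈ Icc s 1, 0 ≤ e k u) (hM : ∀ k ∈ A, ∃ M : ℝ, ∀ u ∈ Icc s 1, e k u * ρ k u ^ 2 ≤ M)
    (hadm : ∀ θ ∈ Icc (0 : ℝ) 1, ∀ k ∈ A, CkAdm 1 (flkB s T ε c θ (e k)) (flkH s τ c r0 θ fun u => e k u * ρ k u))
    (hex : ∀ θ ∈ Icc (0 : ℝ) 1, ∃ k ∈ A, ∀ k' ∈ A,
      flkJ n s τ T ε c r0 e (fun k u => e k u * ρ k u) (fun k => 1 / 4 * ∫ u in s..1, e k u * ρ k u ^ 2) θ k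
        ≤ flkJ n s τ T ε c r0 e (fun k u => e k u * ρ k u) (fun k => 1 / 4 * ∫ u in s..1, e k u * ρ k u ^ 2) θ k')
    (herr : ∃ k ∈ A, flkJ n s τ T ε c r0 e (fun k u => e k u * ρ k u) (fun k => 1 / 4 * ∫ u in s..1, e k u * ρ k u ^ 2) 0 k
      ≤ skCPr n 1 (flqB s T ε) (fun _ => 0) + err)
    (hlow : ∀ θ ∈ Ioo (0 : ℝ) 1, ∀ k ∈ A, (∀ k' ∈ A,
      flkJ n s τ T ε c r0 e (fun k u => e k u * ρ k u) (fun k => 1 / 4 * ∫ u in s..1, e k u * ρ k u ^ 2) θ k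
        ≤ flkJ n s τ T ε c r0 e (fun k u => e k u * ρ k u) (fun k => 1 / 4 * ∫ u in s..1, e k u * ρ k u ^ 2) θ k') →
      ∀ u ∈ Ioo 0 s, skCS n 1 (flkB s T ε c θ (e k)) (flkH s τ c r0 θ fun u => e k u * ρ k u) (ghPosA u) ≤ a) :
    skCPr n 1 (flqB s T (ε + c / 2)) (fun _ => 0) - skCPr n 1 (flqB s T ε) (fun _ => 0)
      ≤ err + (2 * c * s * (a ^ 2 + r0 ^ 2) + 2000000 * (a * ℓ ^ 3 / (n * r0 * s)) + 3 * c * τ) + c * s * r0 ^ 2 / 4 := by
  have hs0 : 0 < s := by linarith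
  obtain ⟨V, hV⟩ := flk_value hex
  have h1 := flk_sweep (a := a) hn hτ hsτ hs1 hc hr0 hr1 hℓ2 hℓ hadm hV fun θ hθ k hk hkV u hu =>
    hlow θ hθ k hk (fun k' hk' => by rw [hkV]; exact hV.le θ (Ioo_subset_Icc_self hθ) k' hk') u hu
  -- `θ = 0`
  obtain ⟨k0, hk0, herr⟩ := herr
  have h2 : V 0 ≤ skCPr n 1 (flqB s T ε) (fun _ => 0) + err := (hV.le 0 ⟨le_rfl, zero_le_one⟩ k0 hk0).trans herr
  -- `θ = 1`
  obtain ⟨k1, hk1, hkV⟩ := hV.att 1 ⟨zero_le_one, le_rfl⟩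
  obtain ⟨M, hM⟩ := hM k1 hk1
  have h3 := flk_end (r0 := r0) hn hs0 hs1 hτ hc hε hεT (he k1 hk1) hM (hadm 1 ⟨zero_le_one, le_rfl⟩ k1 hk1)
  have h4 : skCPr n 1 (flkB s T ε c 1 (e k1)) (flkH s τ c r0 1 fun u => e k1 u * ρ k1 u) + 1 / 4 * (∫ u in s..1, e k1 u * ρ k1 u ^ 2)
      = V 1 - c / 4 * flkI s τ r0 := by
    rw [← hkV]
    unfold flkJ
    ring
  have h5 : c / 4 * flkI s τ r0 ≤ c / 4 * (s * r0 ^ 2) := mul_le_mul_of_nonneg_left (flk_I_le r0 hs0 hτ) (by positivity)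
  rw [h4] at h3
  linarith

end total

/-! ### the instance on the vocabulary of `Fl/Defs` -/

section inst

theorem flk_Pb (n : ℕ) (m T ε θ : ℝ) (r : ℝ → ℝ) :
    (flDW n m T ε θ).Pb (flDH n m ^ 2) r
      = flkB (flS n m) T ε (flCL T ε) θ (fun u => (flCallH n m).e (flDH n m ^ 2) (r u)) := by
  funext u
  have e1 : (flDW n m T ε θ).Pb (flDH n m ^ 2) r u
      = if flS n m ≤ u then (if u < flS n m then T - (ε + θ * (min ε (T - ε) / 2)) else T) - (flCallH n m).e (flDH n m ^ 2) (r u)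
        else (if u < flS n m then T - (ε + θ * (min ε (T - ε) / 2)) else T) := rfl
  rw [e1]
  by_cases hu : u < flS n m
  · simp only [flkB, flCL, if_pos hu, if_neg (not_le.2 hu)]
    ring
  · simp only [flkB, if_neg hu, if_pos (not_lt.1 hu)]

theorem flk_Ph (n : ℕ) (m T ε θ : ℝ) (r : ℝ → ℝ) :
    (flDW n m T ε θ).Ph (flDH n m ^ 2) r
      = flkH (flS n m) (flTau n) (flCL T ε) (flR0 n m ε) θ (fun u => (flCallH n m).e (flDH n m ^ 2) (r u) * r u) := by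
  funext u
  have e1 : (flDW n m T ε θ).Ph (flDH n m ^ 2) r u
      = if flS n m ≤ u then
          (if u < flS n m then θ * (min ε (T - ε) / 2) * (flDH n m ^ 2 * flRmin n m / (2 * ε)) * flwPsi (flS n m) (flTau n) u else 0)
            + (flCallH n m).e (flDH n m ^ 2) (r u) * r u
        else (if u < flS n m then θ * (min ε (T - ε) / 2) * (flDH n m ^ 2 * flRmin n m / (2 * ε)) * flwPsi (flS n m) (flTau n) u else 0) := rfl
  rw [e1]
  by_cases hu : u < flS n m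
  · simp only [flkH, flCL, flR0, if_pos hu, if_neg (not_le.2 hu)]
  · simp only [flkH, if_neg hu, if_pos (not_lt.1 hu), zero_add]

theorem flk_J (n : ℕ) (m T ε θ : ℝ) (r : ℝ → ℝ) :
    flkJ n (flS n m) (flTau n) T ε (flCL T ε) (flR0 n m ε) (fun (k : ℝ → ℝ) u => (flCallH n m).e (flDH n m ^ 2) (k u))
        (fun k u => (flCallH n m).e (flDH n m ^ 2) (k u) * k u)
        (fun k => 1 / 4 * ∫ u in flS n m..1, (flCallH n m).e (flDH n m ^ 2) (k u) * k u ^ 2) θ r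
      = (flDW n m T ε θ).obj flFn (flDH n m ^ 2) r + flLowPen n m T ε θ := by
  unfold flkJ
  rw [← flk_Pb, ← flk_Ph]
  rfl

/-- **PE Lemma 7.4, second assertion, at one size** (before the power ledger).      TEX[PE:fl:wall-cost] -/
theorem flk_step {n : ℕ} {m T CS ε : ℝ} (hn : 2 ≤ n) (hsτ : 4 * flTau n ≤ flS n m) (hs1 : flS n m ≤ 1) (hε : 0 < ε) (hεT : ε < T)
    (hrm : 0 < flRmin n m) (hr1 : flR0 n m ε ≤ 1) (hI : FlImpH n m T CS ε) :
    flP n m T (skFnStep T ε) - flP n m T ε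
      ≤ (n : ℝ) ^ m * (flCallH n m).E
        + (2 * flCL T ε * flS n m * (flAL n m CS ε ^ 2 + flR0 n m ε ^ 2)
          + 2000000 * (flAL n m CS ε * Real.log (n : ℝ) ^ 3 / ((n : ℝ) * flR0 n m ε * flS n m)) + 3 * flCL T ε * flTau n)
        + flCL T ε * flS n m * flR0 n m ε ^ 2 / 4 := by
  have hn0 : 0 < n := by omega
  have hnR : (0 : ℝ) < (n : ℝ) := by exact_mod_cast hn0
  have hn2 : (2 : ℝ) ≤ (n : ℝ) := by exact_mod_cast hn
  have hτ : 0 < flTau n := flp_Tau_pos hnR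
  have hd : 0 < flDH n m := flp_DH_pos hnR
  have hmin : 0 < min ε (T - ε) := lt_min hε (by linarith)
  have hc : 0 < flCL T ε := by unfold flCL; linarith
  have hc2 : ε + flCL T ε / 2 ≤ T := by
    have : min ε (T - ε) ≤ T - ε := min_le_right _ _
    unfold flCL
    linarith
  have hr0 : 0 < flR0 n m ε := by unfold flR0; positivity
  have hℓ : Real.log (1 / flTau n) ≤ 10 * Real.log (n : ℝ) := by
    unfold flTau
    rw [one_div, Real.log_inv, Real.log_rpow hnR]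
    linarith
  have hstep : skFnStep T ε = ε + flCL T ε / 2 := by
    unfold skFnStep flCL
    ring
  have key := flk_total (K := ℝ → ℝ) (n := n) (s := flS n m) (τ := flTau n) (T := T) (ε := ε) (c := flCL T ε) (r0 := flR0 n m ε)
    (a := flAL n m CS ε) (ℓ := Real.log (n : ℝ)) (err := (n : ℝ) ^ m * (flCallH n m).E)
    (e := fun k u => (flCallH n m).e (flDH n m ^ 2) (k u)) (ρ := fun k => k) (A := {r | (flCallH n m).Fe r})
    hn0 hτ hsτ hs1 hc hr0 hr1 (Real.log_le_log (by norm_num) hn2) hℓ hε.le hc2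
    (fun k _ u _ => cm_e_nonneg _ (by positivity) _)
    (fun k hk => ⟨flDH n m ^ 2, fun u hu => ?_⟩)
    (fun θ hθ k hk => ?_) (fun θ hθ => ?_) ?_ (fun θ hθ k hk hmin u hu => ?_)
  · rw [hstep]
    exact key
  · -- the penalty density is bounded
    obtain ⟨q, rfl⟩ := hk
    have hmem := q.r_mem u hu
    have h1 : (flCallH n m).e (flDH n m ^ 2) (q.r u) ≤ flDH n m ^ 2 := cm_e_le _ (by positivity) _
    have h0 : 0 ≤ (flCallH n m).e (flDH n m ^ 2) (q.r u) := cm_e_nonneg _ (by positivity) _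
    have h2 : 0 ≤ q.r u := hrm.le.trans hmem.1
    have h3 : q.r u ^ 2 ≤ 1 := pow_le_one₀ h2 hmem.2
    calc (flCallH n m).e (flDH n m ^ 2) (q.r u) * q.r u ^ 2 ≤ flDH n m ^ 2 * 1 := mul_le_mul h1 h3 (sq_nonneg _) (by positivity)
      _ = flDH n m ^ 2 := mul_one _
  · -- admissibility
    have := hI.fam θ hθ k hk
    rw [flk_Pb, flk_Ph] at this
    exact this
  · -- minimisers
    obtain ⟨r, hr, hmin⟩ := hI.ex θ hθ
    refine ⟨r, hr, fun k' hk' => ?_⟩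
    rw [flk_J, flk_J]
    linarith [hmin k' hk']
  · -- the error at `θ = 0`
    obtain ⟨r, hr, herr⟩ := hI.err
    refine ⟨r, hr, ?_⟩
    rw [flk_J]
    have : flLowPen n m T ε 0 = 0 := by simp [flLowPen]
    rw [this, add_zero]
    exact herr
  · -- suppression of the low group mean
    have h1 : (flDW n m T ε θ).IsMin flFn (flDH n m ^ 2) k := by
      refine ⟨hk, fun r' hr' => ?_⟩
      have := hmin r' hr'
      rw [flk_J, flk_J] at this
      linarith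
    have h2 := hI.low θ (Ioo_subset_Icc_self hθ) k h1 u hu
    rw [flk_Pb, flk_Ph] at h2
    exact h2

/-- `4 τ ≤ s` -/
theorem flk_tau_le {n : ℕ} {m : ℝ} (hn : 2 ≤ n) (hm0 : 0 ≤ m) : 4 * flTau n ≤ flS n m := by
  have hn2 : (2 : ℝ) ≤ (n : ℝ) := by exact_mod_cast hn
  have hnR : (0 : ℝ) < (n : ℝ) := by linarith
  have h4 : (4 : ℝ) ≤ (n : ℝ) ^ (2 : ℝ) := by
    rw [Real.rpow_two]
    nlinarith
  unfold flTau flS
  calc 4 * (n : ℝ) ^ (-(10 : ℝ)) ≤ (n : ℝ) ^ (2 : ℝ) * (n : ℝ) ^ (-(10 : ℝ)) :=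
        mul_le_mul_of_nonneg_right h4 (Real.rpow_nonneg hnR.le _)
    _ = (n : ℝ) ^ ((2 : ℝ) + -(10 : ℝ)) := (Real.rpow_add hnR _ _).symm
    _ ≤ (n : ℝ) ^ (-(1 / 6 : ℝ) + 5 * m) := Real.rpow_le_rpow_of_exponent_le (by linarith) (by linarith)

/-- `r₀ ≤ 1` -/
theorem flk_R0_le {n : ℕ} {m ε : ℝ} (hn : 1 ≤ (n : ℝ)) (hm0 : 0 ≤ m) (hm : m ≤ 1 / 300) (h1 : flE0 n m ≤ ε) : flR0 n m ε ≤ 1 := by
  have hnR : (0 : ℝ) < (n : ℝ) := by linarith
  have hε : 0 < ε := (flp_E0_pos hnR).trans_le h1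
  have hd : 0 < flDH n m := flp_DH_pos hnR
  have h2 : flDH n m ^ 2 ≤ ε := by
    rw [flp_H_dsq hnR]
    have h3 : (n : ℝ) ^ (-(10 * m)) ≤ 1 := flp_rp_le_one hn (by linarith)
    have h4 := flp_E0_pos (m := m) hnR
    nlinarith
  have h5 : flRmin n m ≤ 1 := (flp_Rmin_le_DH hn hm0).trans (flp_DH_le_one hn hm)
  have h6 : 0 < flRmin n m := flp_Rmin_pos hn hm0
  unfold flR0
  rw [div_le_one (by positivity)]
  calc flDH n m ^ 2 * flRmin n m ≤ ε * 1 := mul_le_mul h2 h5 h6.le hε.le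
    _ ≤ 2 * ε := by linarith

/-- **PE Lemma 7.4 (second assertion) + the power ledger** = `fl_wall` of `Fl/Contract.lean`, VERBATIM.      TEX[PE:fl:wall-cost] -/
theorem flk_wall {T m CS : ℝ} (hT : 1 < T) (hm0 : 0 < m) (hm : m < 1 / 300) (hCS : 0 < CS) :
    ∃ C' : ℝ, ∀ᶠ n : ℕ in atTop, ∀ ε : ℝ, flE0 n m ≤ ε → ε < T → FlImpH n m T CS ε →
      flP n m T (skFnStep T ε) - flP n m T ε ≤ C' * (n : ℝ) ^ (-(5 / 6 : ℝ) + 70 * m) := by
  have hC : (0 : ℝ) ≤ 2000000 + T := by linarith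
  refine ⟨1 + (2000000 + T) * (CS ^ 2 / 2 + 1 / 8 + 24 * CS + 1), ?_⟩
  filter_upwards [flp_step70 T m (2000000 + T) CS hm0 hC hCS.le, eventually_ge_atTop 2] with n hled hn ε h1 h2 hI
  have hn2 : (2 : ℝ) ≤ (n : ℝ) := by exact_mod_cast hn
  have hn1 : (1 : ℝ) ≤ (n : ℝ) := by linarith
  have hnR : (0 : ℝ) < (n : ℝ) := by linarith
  have hε : 0 < ε := (flp_E0_pos hnR).trans_le h1
  have hs : 0 < flS n m := flp_S_pos hnR
  have hτ : 0 < flTau n := flp_Tau_pos hnR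
  have hrm := flp_Rmin_pos (n := n) (m := m) hn1 hm0.le
  have hd : 0 < flDH n m := flp_DH_pos hnR
  have key := flk_step hn (flk_tau_le hn hm0.le) (flp_S_le_one hn1 hm.le) hε h2 hrm (flk_R0_le hn1 hm0.le hm.le h1) hI
  refine key.trans (le_trans ?_ (hled ε h1 h2))
  have hmin : 0 < min ε (T - ε) := lt_min hε (by linarith)
  have hc0 : 0 < flCL T ε := by unfold flCL; linarith
  have hc1 : 3 * flCL T ε ≤ T := by
    have a1 : min ε (T - ε) ≤ ε := min_le_left _ _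
    have a2 : min ε (T - ε) ≤ T - ε := min_le_right _ _
    unfold flCL
    linarith
  have hr0 : 0 < flR0 n m ε := by unfold flR0; positivity
  have ha : 0 ≤ flAL n m CS ε := by unfold flAL; positivity
  have hl : 0 ≤ Real.log (n : ℝ) := Real.log_nonneg hn1
  set Y1 : ℝ := flCL T ε * flS n m * (flAL n m CS ε ^ 2 + flR0 n m ε ^ 2) with hY1
  set Y2 : ℝ := flAL n m CS ε * Real.log (n : ℝ) ^ 3 / ((n : ℝ) * flR0 n m ε * flS n m) with hY2
  have y1 : 0 ≤ Y1 := by positivity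
  have y2 : 0 ≤ Y2 := by positivity
  have b1 : flCL T ε * flS n m * flR0 n m ε ^ 2 ≤ Y1 := by
    rw [hY1]
    exact mul_le_mul_of_nonneg_left (by nlinarith [sq_nonneg (flAL n m CS ε)]) (by positivity)
  have b2 : 2 * flCL T ε * flS n m * (flAL n m CS ε ^ 2 + flR0 n m ε ^ 2) = 2 * Y1 := by
    rw [hY1]
    ring
  have b3 : 3 * flCL T ε * flTau n ≤ T * flTau n := mul_le_mul_of_nonneg_right hc1 hτ.le
  have b4 : (2000000 + T) * (Y1 + Y2 + flTau n)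
      = 2000000 * Y1 + T * Y1 + 2000000 * Y2 + T * Y2 + 2000000 * flTau n + T * flTau n := by ring
  have b5 : 0 ≤ T * Y1 := by positivity
  have b6 : 0 ≤ T * Y2 := by positivity
  rw [b2, b4]
  linarith

end inst

end Claimed.Agent.R286
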