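import Claimed.Agent.R286.Defs.SkLem
import Claimed.Agent.R286.Defs.Clk
import Claimed.Agent.R286.Top.Lam
import Claimed.Agent.R286.Top.Fix
import Claimed.Agent.R286.Top.Noise
import Claimed.Agent.R286.Brg.Step

/-!
# Row 286 (S0533), PE Sec 7, Fl/End : THE ENDPOINT IDENTITY (S0)      (owner helper256; prefix `fle_`; sorry free)

source: PE fluctuations.tex l.1-50 (definition of `p(ε)`, endpoints `p(0)`, `p(T)`), LL (A4).

`p(ε) = f_n(T - ε 1_{u<s}, 0)`.      `p(0)` = the SK model (everything revealed at mass `0`), `p(T)` = everything revealed at the mass `s`, hence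
`n s (p(T) - p(0)) = K_n(s) = log E exp(s (F_n - E F_n)) + T s²/4`, which is `skLam β n t` at `s = t n^(-1/6)`.

* `fle_kk`      `skKK n 1 s (skPhys β²) = log ∫ exp (s skCen) + β² s²/4`            (step paths; from the bridge `sk_d_bridge`, `sk_d_A4` of 273)
* `fle_lam`     `skLam β n t = skKK n 1 (t n^(-1/6)) (skPhys β²)`
* `fle_p0`, `fle_pT`      the two endpoint clocks are step clocks (from `Brg/Step.lean`)
* **`fle_end`** `skKK n 1 s (skPhys T) = n s (p(T) - p(0))` for `0 < s ≤ 1`, `0 ≤ T`, clocks written as `fun u => if u < s then T - ε else T` (`= flBE n m T ε` at `s = flS n m`, by `rfl`)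
* **`fle_hK`**  hypothesis `hK` of `sk_fn_window` (Fl/Num) with `K n = skLam β n (n^(5m))` (the quantity of `SkWindow`), `p n ε = skCPr n 1 (..) 0`
-/

set_option autoImplicit false

namespace Claimed.Agent.R286

open MeasureTheory ProbabilityTheory Filter Topology
open Claims.C0461
open scoped NNReal

theorem fle_meas_fc (n : ℕ) (T : ℝ) : Measurable (skFc n T) := by
  have hF : Measurable (ghF0 (skBase n 1)) := by
    unfold ghF0; fun_prop
  have e1 : skFc n T = ghF0 (skBase n 1) ∘ fun ξ σ => ∑ d, ((⟨0, T, 0⟩ : SkInc).lv n).A σ d * ξ d := by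
    funext ξ
    rfl
  rw [e1]
  exact hF.comp (by fun_prop)

theorem fle_meas_free (β : ℝ) (n : ℕ) : Measurable (skcFree β n) := by
  unfold skcFree
  exact (((sk_top_meas β n).comp measurable_fst).sub_const _).add measurable_snd

/-- transfer of integrals through the bridge -/
theorem fle_integral (β : ℝ) (n : ℕ) (hn : 0 < n) (φ : ℝ → ℝ) (hφ : Measurable φ) :
    ∫ ξ, φ (skFc n (β ^ 2) ξ) ∂ghStd (SkDr n) = ∫ ω, φ (skcFree β n ω) ∂skcDisorder β n := by
  rw [← integral_map (fle_meas_fc n _).aemeasurable hφ.aestronglyMeasurable, sk_d_bridge β n hn,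
    integral_map (fle_meas_free β n).aemeasurable hφ.aestronglyMeasurable]

theorem fle_integrable (β : ℝ) (n : ℕ) (hn : 0 < n) (φ : ℝ → ℝ) (hφ : Measurable φ) :
    Integrable (fun ξ => φ (skFc n (β ^ 2) ξ)) (ghStd (SkDr n)) ↔ Integrable (fun ω => φ (skcFree β n ω)) (skcDisorder β n) := by
  have h1 := integrable_map_measure (μ := ghStd (SkDr n)) (f := skFc n (β ^ 2)) (g := φ) hφ.aestronglyMeasurable (fle_meas_fc n _).aemeasurable
  have h2 := integrable_map_measure (μ := skcDisorder β n) (f := skcFree β n) (g := φ) hφ.aestronglyMeasurable (fle_meas_free β n).aemeasurable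
  rw [sk_d_bridge β n hn] at h1
  exact h1.symm.trans h2

theorem fle_exp_cen (β : ℝ) (n : ℕ) (s : ℝ) : Integrable (fun g => Real.exp (s * skCen β n g)) (skDisorder n) := by
  have h := (sk_fix_exp β n |s|).const_mul (Real.exp (-(s * ∫ h, skLogPartition β n h ∂skDisorder n)))
  have hm : Measurable fun g => Real.exp (s * skCen β n g) := by
    unfold skCen
    have := sk_top_meas β n
    fun_prop
  refine h.mono' hm.aestronglyMeasurable (Eventually.of_forall fun g => ?_)
  rw [Real.norm_eq_abs, abs_of_pos (Real.exp_pos _), ← Real.exp_add]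
  apply Real.exp_le_exp.2
  unfold skCen
  have : s * skLogPartition β n g ≤ |s| * |skLogPartition β n g| := by
    rw [← abs_mul]; exact le_abs_self _
  linarith

/-- **the endpoint identity, step paths**: `K_n(s) = log E exp (s (F_n - E F_n)) + T s² / 4` -/
theorem fle_kk (β : ℝ) (n : ℕ) (hn : 0 < n) (s : ℝ) (hs : s ≠ 0) :
    skKK n 1 s (skPhys (β ^ 2)) = Real.log (∫ g, Real.exp (s * skCen β n g) ∂skDisorder n) + β ^ 2 * s ^ 2 / 4 := by
  have hFi := sk_fix_integrable β n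
  have hmean : ∫ ξ, skFc n (β ^ 2) ξ ∂ghStd (SkDr n) = ∫ g, skLogPartition β n g ∂skDisorder n - n * Real.log 2 := by
    rw [fle_integral β n hn (fun x => x) measurable_id]
    exact sk_cp_mean (P := skDisorder n) (v := skcVar β) (skLogPartition β n) hFi _
  have hgI : Integrable (fun y : ℝ => Real.exp (s * y)) (gaussianReal 0 (skcVar β)) := integrable_exp_mul_gaussianReal s
  have hI : Integrable (fun ξ => Real.exp (s * skG n 1 (skPhys (β ^ 2)) ξ)) (ghStd (SkDr n)) := by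
    refine (fle_integrable β n hn (fun x => Real.exp (s * x)) (by fun_prop)).2 ?_
    have h1 := sk_noise_integrable_mgf_add (skDisorder n) (gaussianReal 0 (skcVar β)) (fun g => skCen β n g) (fun y => y) s (fle_exp_cen β n s) hgI
    refine (h1.const_mul (Real.exp (s * (∫ g, skLogPartition β n g ∂skDisorder n - n * Real.log 2)))).congr (Eventually.of_forall fun ω => ?_)
    simp only
    rw [← Real.exp_add]
    congr 1
    unfold skcFree skCen
    ring
  have hA := sk_d_A4 n hn 1 s hs ⟨0, β ^ 2, 0⟩ rfl [] hI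
  have e0 : skKK n 1 s (skPhys (β ^ 2)) = skKK n 1 s [⟨0, β ^ 2, 0⟩] := rfl
  rw [e0, hA]
  have e1 : ∀ ξ, skG n 1 [⟨0, β ^ 2, 0⟩] ξ = skFc n (β ^ 2) ξ := fun ξ => rfl
  simp only [e1]
  rw [hmean, fle_integral β n hn (fun x => Real.exp (s * (x - (∫ g, skLogPartition β n g ∂skDisorder n - n * Real.log 2)))) (by fun_prop)]
  have e2 : ∫ ω, Real.exp (s * (skcFree β n ω - (∫ g, skLogPartition β n g ∂skDisorder n - n * Real.log 2))) ∂skcDisorder β n
      = (∫ g, Real.exp (s * skCen β n g) ∂skDisorder n) * ∫ y, Real.exp (s * y) ∂gaussianReal 0 (skcVar β) := by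
    rw [← sk_noise_mgf_add (skDisorder n) (gaussianReal 0 (skcVar β)) (fun g => skCen β n g) (fun y => y) s]
    refine integral_congr_ae (Eventually.of_forall fun ω => ?_)
    simp only
    congr 1
    unfold skcFree skCen
    ring
  rw [e2, sk_noise_mgf_gauss, Real.log_mul (integral_exp_pos (fle_exp_cen β n s)).ne' (Real.exp_pos _).ne', Real.log_exp]
  congr 1
  show β ^ 2 / 2 * s ^ 2 / 2 = β ^ 2 * s ^ 2 / 4
  ring

/-- the completed transform of TOP is `K_n` -/
theorem fle_lam (β : ℝ) (n : ℕ) (hn : 0 < n) (t : ℝ) (ht : t ≠ 0) :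
    skLam β n t = skKK n 1 (t * (n : ℝ) ^ (-(1 / 6 : ℝ))) (skPhys (β ^ 2)) := by
  have hn0 : (0 : ℝ) < n := by exact_mod_cast hn
  rw [fle_kk β n hn _ (mul_ne_zero ht (Real.rpow_pos_of_pos hn0 _).ne')]
  unfold skLam
  congr 1
  have : ((n : ℝ) ^ (-(1 / 6 : ℝ))) ^ 2 = (n : ℝ) ^ (-(1 / 3 : ℝ)) := by
    rw [← Real.rpow_natCast, ← Real.rpow_mul hn0.le]
    norm_num
  rw [mul_pow, this]
  ring

/-- `p(0)`: the clock `T` = everything at the mass `0` -/
theorem fle_p0 (n : ℕ) {T s : ℝ} (hT : 0 ≤ T) :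
    skCPr n 1 (fun u => if u < s then T - 0 else T) (fun _ => 0) = skPr n 1 (skPhys T) := by
  have hP : SkAdm 1 (skPhys T) := by
    refine ⟨List.pairwise_singleton _ _, fun e he => ?_⟩
    rw [List.mem_singleton.1 he]
    exact ⟨le_rfl, zero_le_one, hT, le_rfl⟩
  rw [← (sk_stp_pr n one_pos hP).1]
  refine sk_stp_cpr_congr n zero_le_one (fun u hu => ?_) fun u hu => ?_
  · rw [skPhys, sk_stp_clkB_cons, sk_stp_clkB_nil]
    show _ = (if (0 : ℝ) ≤ u then T else 0) + 0
    rw [if_pos hu.1]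
    split_ifs <;> ring
  · rw [skPhys, sk_stp_clkH_cons, sk_stp_clkH_nil]
    show _ = (if (0 : ℝ) ≤ u then (0 : ℝ) else 0) + 0
    simp

/-- `p(T)`: the clock `T 1_{u ≥ s}` = everything at the mass `s` -/
theorem fle_pT (n : ℕ) {T s : ℝ} (hT : 0 ≤ T) (hs0 : 0 ≤ s) (hs1 : s ≤ 1) :
    skCPr n 1 (fun u => if u < s then T - T else T) (fun _ => 0) = skPr n 1 (skTilt s (skPhys T)) := by
  have hP : SkAdm 1 (skTilt s (skPhys T)) := by
    refine ⟨List.pairwise_singleton _ _, fun e he => ?_⟩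
    rw [List.mem_singleton.1 he]
    exact ⟨hs0, hs1, hT, le_rfl⟩
  rw [← (sk_stp_pr n one_pos hP).1]
  refine sk_stp_cpr_congr n zero_le_one (fun u _ => ?_) fun u _ => ?_
  · rw [skPhys, skTilt, sk_stp_clkB_cons, sk_stp_clkB_nil]
    show _ = (if s ≤ u then T else 0) + 0
    by_cases hu : u < s
    · rw [if_pos hu, if_neg (not_le.2 hu)]; ring
    · rw [if_neg hu, if_pos (not_lt.1 hu)]; ring
  · rw [skPhys, skTilt, sk_stp_clkH_cons, sk_stp_clkH_nil]
    show _ = (if s ≤ u then (0 : ℝ) else 0) + 0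
    simp

/-- **the endpoint identity** `K_n(s) = n s (p(T) - p(0))` -/
theorem fle_end (n : ℕ) {T s : ℝ} (hT : 0 ≤ T) (hs0 : 0 ≤ s) (hs1 : s ≤ 1) :
    skKK n 1 s (skPhys T) = (n : ℝ) * s * (skCPr n 1 (fun u => if u < s then T - T else T) (fun _ => 0)
      - skCPr n 1 (fun u => if u < s then T - 0 else T) fun _ => 0) := by
  rw [fle_p0 n hT, fle_pT n hT hs0 hs1]
  unfold skKK skPsi
  ring

/-- **hypothesis `hK` of `sk_fn_window`** for `K n = skLam β n (n^(5m))`, `p n ε = f_n(T - ε 1_{u<s}, 0)`, `s = n^(-1/6+5m)`, `T = β²` -/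
theorem fle_hK (β : ℝ) {m : ℝ} (hm : m ≤ 1 / 30) (n : ℕ) (hn : 0 < n) :
    skLam β n ((n : ℝ) ^ (5 * m)) = (n : ℝ) * (n : ℝ) ^ (-(1 / 6 : ℝ) + 5 * m) *
      (skCPr n 1 (fun u => if u < (n : ℝ) ^ (-(1 / 6 : ℝ) + 5 * m) then β ^ 2 - β ^ 2 else β ^ 2) (fun _ => 0)
        - skCPr n 1 (fun u => if u < (n : ℝ) ^ (-(1 / 6 : ℝ) + 5 * m) then β ^ 2 - 0 else β ^ 2) fun _ => 0) := by
  have hn0 : (0 : ℝ) < n := by exact_mod_cast hn
  have hn1 : (1 : ℝ) ≤ n := by exact_mod_cast hn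
  have hs : (n : ℝ) ^ (5 * m) * (n : ℝ) ^ (-(1 / 6 : ℝ)) = (n : ℝ) ^ (-(1 / 6 : ℝ) + 5 * m) := by
    rw [← Real.rpow_add hn0, add_comm]
  rw [fle_lam β n hn _ (Real.rpow_pos_of_pos hn0 _).ne', hs]
  exact fle_end n (sq_nonneg β) (Real.rpow_nonneg hn0.le _) (Real.rpow_le_one_of_one_le_of_nonpos hn1 (by linarith))

end Claimed.Agent.R286
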