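import Claimed.Agent.R286.Tool.Danskin
import Claimed.Agent.R286.Exit.ClkSus
import Claimed.Agent.R286.Exit.ClkStat

/-!
# Row 286 (S0533), PE Sec. 7 (package P13), file LemW : LEMMA W, THE DYADS, THE ENVELOPE      (owner helper158; prefix `flw_`, types `Flw*`)

= the FIRST assertion of PE Lemma 7.4 (`fl:wall-cost`), `J*_1 - J*_0 ≤ ...`, in NUMBERS (abstract over the spin system).      TEX[PE:fl:wall-cost] (first half)

* `FlwObs`              the three functions of the mass of ONE path which enter: `S u = E|X_u|²`, `B u = E‖E[yyᵀ|F_u]‖²`, `H2 u = E tr H_u²`.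
* `FlwObs.Ok n s h`     what the foundations must supply on the low group `(0,s)` of a path of size `n` with field clock `h`:
    `sus` = the susceptibility inequality of PE (1) (142's (G2)) where the field clock grows at rate `≥ κ`;
    `pin` = two-sided level averaging (`ck_Vx` = (G4.c) of Fd/CClk: `√Var|X_u|² ≤ S_{u+ρ} - S_{u-ρ} + (4/ρ) √(∫_{u-ρ}^{u+ρ} H2 j/j dj)`) + `B ≤ 2E|X|⁴ + 2E tr C²` + `u² E tr C_u² ≤ H2 u`.
* `flw_lemW`            **Lemma W**: `∫_{u1}^{u2} B ≤ (u2-u1) [6A² + 64A/(nκ (u1-ρ) ρ²)] + 2A/(nκ u1²)` if the field clock has slope `≥ κ` on `[u1-ρ, u2+ρ]`.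
* `flwPsi s τ`, `flwLam s τ`      the low field profile `ψ` and `Λ = log((s+τ)/τ)`.
* `flw_dyad`, `flw_dyads`, `flw_low`      `∫_0^s B ≤ 2 [3 s a² + 2054 k a Λ/(n κ0 s) + 4τ]`, `k` = number of dyads.
* `flw_sweep`, `flw_cost`      the envelope: `J*_1 - J*_0 ≤ ...`.
* `flwSk n b h`, `flw_sk_ok`   **THE SK INSTANCE** of `FlwObs.Ok`, from the CLOCK API of helper42 (`Exit/ClkSus`, `Exit/ClkStat`): the ONLY place where PE Sec. 7 touches the planted law.
-/

set_option autoImplicit false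

namespace Claimed.Agent.R286

open MeasureTheory Set Filter Topology
open scoped NNReal

/-- the numbers of one path which enter Lemma W -/
structure FlwObs where
  S : ℝ → ℝ
  B : ℝ → ℝ
  H2 : ℝ → ℝ

/-- what the foundations supply on the low group `(0,s)`; `n` = size, `h` = field clock -/
structure FlwObs.Ok (O : FlwObs) (n s : ℝ) (h : ℝ → ℝ) : Prop where
  S_nonneg : ∀ u ∈ Ioo 0 s, 0 ≤ O.S u
  S_mono : MonotoneOn O.S (Ioo 0 s)
  B_nonneg : ∀ u ∈ Ioo 0 s, 0 ≤ O.B u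
  B_le : ∀ u ∈ Ioo 0 s, O.B u ≤ 1
  B_mono : MonotoneOn O.B (Ioo 0 s)
  H_nonneg : ∀ u ∈ Ioo 0 s, 0 ≤ O.H2 u
  H_int : ∀ u v : ℝ, 0 < u → u ≤ v → v < s → IntervalIntegrable O.H2 volume u v
  sus : ∀ u v κ : ℝ, 0 < u → u ≤ v → v < s → 0 ≤ κ →
    (∀ w w' : ℝ, u ≤ w → w ≤ w' → w' ≤ v → κ * (w' - w) ≤ h w' - h w) →
    n * κ * ∫ w in u..v, O.H2 w ≤ O.S v - O.S u
  pin : ∀ u ρ A : ℝ, 0 < ρ → 0 < u - ρ → u + ρ < s → O.S (u + ρ) ≤ A →
    O.B u ≤ 6 * A ^ 2 + 64 / ρ ^ 2 * (∫ j in (u - ρ)..(u + ρ), O.H2 j / j) + 2 * O.H2 u / u ^ 2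

/-- a bounded function which is monotone on the OPEN interval is interval integrable -/
theorem flw_int_of_mono {f : ℝ → ℝ} {a b M : ℝ} (hab : a ≤ b) (hf : MonotoneOn f (Ioo a b)) (hM : ∀ u ∈ Ioo a b, |f u| ≤ M) :
    IntervalIntegrable f volume a b := by
  rw [intervalIntegrable_iff_integrableOn_Ioo_of_le hab]
  refine IntegrableOn.of_bound (by simp) (aemeasurable_restrict_of_monotoneOn measurableSet_Ioo hf).aestronglyMeasurable M ?_
  rw [ae_restrict_iff' measurableSet_Ioo]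
  exact Eventually.of_forall fun u hu => by simpa using hM u hu

theorem FlwObs.Ok.B_int {O : FlwObs} {n s : ℝ} {h : ℝ → ℝ} (hO : O.Ok n s h) {u v : ℝ} (hu : 0 ≤ u) (huv : u ≤ v) (hv : v ≤ s) :
    IntervalIntegrable O.B volume u v := by
  have hsub : Ioo u v ⊆ Ioo 0 s := Ioo_subset_Ioo hu hv
  refine flw_int_of_mono (M := 1) huv (hO.B_mono.mono hsub) fun w hw => ?_
  rw [abs_le]
  exact ⟨by linarith [hO.B_nonneg w (hsub hw)], hO.B_le w (hsub hw)⟩

/-- **LEMMA W** -/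
theorem flw_lemW {O : FlwObs} {n s : ℝ} {h : ℝ → ℝ} (hO : O.Ok n s h) {u1 u2 ρ κ A : ℝ} (hn : 0 < n) (hκ : 0 < κ) (hρ : 0 < ρ)
    (h1 : 0 < u1 - ρ) (h12 : u1 ≤ u2) (h3 : u2 + ρ < s)
    (hh : ∀ w w' : ℝ, u1 - ρ ≤ w → w ≤ w' → w' ≤ u2 + ρ → κ * (w' - w) ≤ h w' - h w)
    (hA : ∀ j ∈ Ioo 0 s, O.S j ≤ A) :
    ∫ u in u1..u2, O.B u ≤ (u2 - u1) * (6 * A ^ 2 + 64 * A / (n * κ * (u1 - ρ) * ρ ^ 2)) + 2 * A / (n * κ * u1 ^ 2) := by
  have hu1 : 0 < u1 := by linarith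
  have hnk : 0 < n * κ := mul_pos hn hκ
  have hmem : ∀ u, u1 - ρ ≤ u → u ≤ u2 + ρ → u ∈ Ioo 0 s := fun u a b => ⟨lt_of_lt_of_le h1 a, lt_of_le_of_lt b h3⟩
  have hA0 : 0 ≤ A := (hO.S_nonneg u1 (hmem u1 (by linarith) (by linarith))).trans (hA u1 (hmem u1 (by linarith) (by linarith)))
  -- the susceptibility bound on a subinterval
  have sus : ∀ x y : ℝ, u1 - ρ ≤ x → x ≤ y → y ≤ u2 + ρ → ∫ w in x..y, O.H2 w ≤ A / (n * κ) := by
    intro x y hx hxy hy
    have := hO.sus x y κ (lt_of_lt_of_le h1 hx) hxy (lt_of_le_of_lt hy h3) hκ.le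
      (fun w w' a b c => hh w w' (hx.trans a) b (c.trans hy))
    rw [le_div_iff₀ hnk]
    have e1 := hA y (hmem y (hx.trans hxy) hy)
    have e2 := hO.S_nonneg x (hmem x hx (hxy.trans hy))
    linarith
  have i12 := hO.H_int u1 u2 hu1 h12 (by linarith)
  -- the weighted integral
  have s3 : ∀ u ∈ Icc u1 u2, ∫ j in (u - ρ)..(u + ρ), O.H2 j / j ≤ A / (n * κ) / (u1 - ρ) := by
    intro u hu
    have hx : u1 - ρ ≤ u - ρ := by linarith [hu.1]
    have hy : u + ρ ≤ u2 + ρ := by linarith [hu.2]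
    have hxy : u - ρ ≤ u + ρ := by linarith
    have ii := hO.H_int (u - ρ) (u + ρ) (lt_of_lt_of_le h1 hx) hxy (lt_of_le_of_lt hy h3)
    by_cases hi : IntervalIntegrable (fun j => O.H2 j / j) volume (u - ρ) (u + ρ)
    · calc ∫ j in (u - ρ)..(u + ρ), O.H2 j / j ≤ ∫ j in (u - ρ)..(u + ρ), O.H2 j / (u1 - ρ) := by
            refine intervalIntegral.integral_mono_on hxy hi (ii.div_const _) fun j hj => ?_
            exact div_le_div_of_nonneg_left (hO.H_nonneg j (hmem j (hx.trans hj.1) (hj.2.trans hy))) h1 (hx.trans hj.1)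
        _ = (∫ j in (u - ρ)..(u + ρ), O.H2 j) / (u1 - ρ) := intervalIntegral.integral_div _ _
        _ ≤ _ := div_le_div_of_nonneg_right (sus _ _ hx hxy hy) h1.le
    · rw [intervalIntegral.integral_undef hi]
      positivity
  set c0 : ℝ := 6 * A ^ 2 + 64 * A / (n * κ * (u1 - ρ) * ρ ^ 2) with hc0
  have hpt : ∀ u ∈ Icc u1 u2, O.B u ≤ c0 + 2 / u1 ^ 2 * O.H2 u := by
    intro u hu
    have p := hO.pin u ρ A hρ (by linarith [hu.1]) (by linarith [hu.2]) (hA _ (hmem _ (by linarith [hu.1]) (by linarith [hu.2])))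
    have q1 : 64 / ρ ^ 2 * (∫ j in (u - ρ)..(u + ρ), O.H2 j / j) ≤ 64 * A / (n * κ * (u1 - ρ) * ρ ^ 2) := by
      calc 64 / ρ ^ 2 * (∫ j in (u - ρ)..(u + ρ), O.H2 j / j) ≤ 64 / ρ ^ 2 * (A / (n * κ) / (u1 - ρ)) :=
            mul_le_mul_of_nonneg_left (s3 u hu) (by positivity)
        _ = _ := by field_simp
    have hH := hO.H_nonneg u (hmem u (by linarith [hu.1]) (by linarith [hu.2]))
    have q2 : 2 * O.H2 u / u ^ 2 ≤ 2 / u1 ^ 2 * O.H2 u := by
      rw [div_mul_eq_mul_div]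
      refine div_le_div_of_nonneg_left (by positivity) (by positivity) ?_
      exact pow_le_pow_left₀ hu1.le hu.1 2
    linarith
  calc ∫ u in u1..u2, O.B u ≤ ∫ u in u1..u2, (c0 + 2 / u1 ^ 2 * O.H2 u) :=
        intervalIntegral.integral_mono_on h12 (hO.B_int hu1.le h12 (by linarith))
          (intervalIntegrable_const.add (i12.const_mul _)) hpt
    _ = (u2 - u1) * c0 + 2 / u1 ^ 2 * ∫ u in u1..u2, O.H2 u := by
        rw [intervalIntegral.integral_add intervalIntegrable_const (i12.const_mul _), intervalIntegral.integral_const,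
          intervalIntegral.integral_const_mul, smul_eq_mul]
    _ ≤ (u2 - u1) * c0 + 2 / u1 ^ 2 * (A / (n * κ)) := by
        have := mul_le_mul_of_nonneg_left (sus u1 u2 (by linarith) h12 (by linarith)) (show 0 ≤ 2 / u1 ^ 2 by positivity)
        linarith
    _ = _ := by
        congr 1
        field_simp

/-! ### the low field profile -/

/-- `Λ = log((s+τ)/τ)` -/
noncomputable def flwLam (s τ : ℝ) : ℝ := Real.log ((s + τ) / τ)

/-- the low field profile `ψ` -/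
noncomputable def flwPsi (s τ u : ℝ) : ℝ := Real.log ((s + τ) / (s - u + τ)) / flwLam s τ

theorem flw_eqns_cite : True := by
  have := @flwLam.eq_1
  have := @flwPsi.eq_1
  trivial

theorem flw_lam_pos {s τ : ℝ} (hs : 0 < s) (hτ : 0 < τ) : 0 < flwLam s τ := by
  unfold flwLam
  apply Real.log_pos
  rw [lt_div_iff₀ hτ]
  linarith

theorem flw_psi_zero (s τ : ℝ) (hs : 0 < s) (hτ : 0 < τ) : flwPsi s τ 0 = 0 := by
  unfold flwPsi
  rw [sub_zero, div_self (by positivity), Real.log_one, zero_div]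

theorem flw_psi_s (s τ : ℝ) (hs : 0 < s) (hτ : 0 < τ) : flwPsi s τ s = 1 := by
  have := flw_lam_pos hs hτ
  unfold flwPsi
  rw [sub_self, zero_add]
  exact div_self this.ne'

/-- increments of `ψ` -/
theorem flw_psi_inc {s τ w w' : ℝ} (hs : 0 < s) (hτ : 0 < τ) (hw : w ≤ w') (hw' : w' ≤ s) :
    (w' - w) / ((s - w + τ) * flwLam s τ) ≤ flwPsi s τ w' - flwPsi s τ w := by
  have hL := flw_lam_pos hs hτ
  have p1 : 0 < s - w' + τ := by linarith
  have p2 : 0 < s - w + τ := by linarith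
  have p3 : 0 < s + τ := by linarith
  unfold flwPsi
  rw [← sub_div, ← div_div]
  refine div_le_div_of_nonneg_right ?_ hL.le
  rw [Real.log_div p3.ne' p1.ne', Real.log_div p3.ne' p2.ne']
  have h1 : Real.log ((s - w' + τ) / (s - w + τ)) ≤ (s - w' + τ) / (s - w + τ) - 1 := Real.log_le_sub_one_of_pos (by positivity)
  rw [Real.log_div p1.ne' p2.ne'] at h1
  have h2 : (s - w' + τ) / (s - w + τ) - 1 = -((w' - w) / (s - w + τ)) := by
    field_simp
    ring
  linarith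

theorem flw_psi_mono {s τ : ℝ} (hs : 0 < s) (hτ : 0 < τ) : MonotoneOn (flwPsi s τ) (Iic s) := by
  intro w _ w' hw' hww
  have h := flw_psi_inc hs hτ hww hw'
  have hL := flw_lam_pos hs hτ
  have p2 : 0 < s - w + τ := by
    have : w' ≤ s := hw'
    linarith
  have : 0 ≤ (w' - w) / ((s - w + τ) * flwLam s τ) := div_nonneg (by linarith) (by positivity)
  linarith

theorem flw_psi_mem {s τ u : ℝ} (hs : 0 < s) (hτ : 0 < τ) (h0 : 0 ≤ u) (h1 : u ≤ s) : 0 ≤ flwPsi s τ u ∧ flwPsi s τ u ≤ 1 := by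
  constructor
  · rw [← flw_psi_zero s τ hs hτ]
    exact flw_psi_mono hs hτ (show (0 : ℝ) ∈ Iic s from hs.le) h1 h0
  · rw [← flw_psi_s s τ hs hτ]
    exact flw_psi_mono hs hτ h1 (Set.mem_Iic.2 le_rfl) h1

/-! ### the dyads -/

/-- one dyad `I_v^- = [s-v, s-v/2]`, averaging radius `v/4` -/
theorem flw_dyad {O : FlwObs} {n s τ κ0 a v : ℝ} {h : ℝ → ℝ} (hO : O.Ok n s h) (hn : 0 < n) (hs : 0 < s) (hτ : 0 < τ) (hκ0 : 0 < κ0)
    (hh : ∀ u ∈ Ioo 0 s, h u = κ0 * flwPsi s τ u) (ha : ∀ j ∈ Ioo 0 s, O.S j ≤ a) (hv : 4 * τ ≤ v) (hvs : v ≤ s / 2) :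
    ∫ u in (s - v)..(s - v / 2), O.B u ≤ 3 * v * a ^ 2 + 2054 * (a * flwLam s τ / (n * κ0 * s)) := by
  have hL := flw_lam_pos hs hτ
  have hv0 : 0 < v := by linarith
  have ha0 : 0 ≤ a := (hO.S_nonneg (s / 2) ⟨by linarith, by linarith⟩).trans (ha (s / 2) ⟨by linarith, by linarith⟩)
  set Λ := flwLam s τ with hΛ
  set κ : ℝ := 2 * κ0 / (3 * v * Λ) with hκ
  have hκp : 0 < κ := by positivity
  have hinc : ∀ w w' : ℝ, s - v - v / 4 ≤ w → w ≤ w' → w' ≤ s - v / 2 + v / 4 → κ * (w' - w) ≤ h w' - h w := by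
    intro w w' a1 a2 a3
    have m1 : w ∈ Ioo 0 s := ⟨by linarith, by linarith⟩
    have m2 : w' ∈ Ioo 0 s := ⟨by linarith, by linarith⟩
    rw [hh w m1, hh w' m2, ← mul_sub]
    have i1 := flw_psi_inc hs hτ a2 m2.2.le
    have p2 : 0 < s - w + τ := by linarith [m1.2]
    have i2 : 2 / (3 * v * Λ) * (w' - w) ≤ (w' - w) / ((s - w + τ) * Λ) := by
      rw [div_mul_eq_mul_div, div_le_div_iff₀ (by positivity) (by positivity)]
      have : (s - w + τ) ≤ 3 * v / 2 := by linarith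
      have h0 : 0 ≤ (w' - w) * Λ := mul_nonneg (by linarith) hL.le
      nlinarith
    calc κ * (w' - w) = κ0 * (2 / (3 * v * Λ) * (w' - w)) := by
          rw [hκ]
          ring
      _ ≤ κ0 * (flwPsi s τ w' - flwPsi s τ w) := mul_le_mul_of_nonneg_left (i2.trans i1) hκ0.le
  have key := flw_lemW hO (u1 := s - v) (u2 := s - v / 2) (ρ := v / 4) (κ := κ) (A := a) hn hκp (by linarith) (by linarith)
    (by linarith) (by linarith) hinc ha
  refine key.trans ?_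
  set Y : ℝ := a * Λ / (n * κ0) with hY
  have hY0 : 0 ≤ Y := by positivity
  have hz : 3 * s / 8 ≤ s - v - v / 4 := by linarith
  have hu1 : s / 2 ≤ s - v := by linarith
  have hzp : 0 < s - v - v / 4 := by linarith
  have hu1p : 0 < s - v := by linarith
  have e1 : (s - v / 2 - (s - v)) * (6 * a ^ 2 + 64 * a / (n * κ * (s - v - v / 4) * (v / 4) ^ 2))
      = 3 * v * a ^ 2 + 768 * Y / (s - v - v / 4) := by
    have x1 : s - v / 2 - (s - v) = v / 2 := by ring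
    rw [x1, hκ, hY]
    generalize s - v - v / 4 = z at hzp
    field_simp
    ring
  have e2 : 2 * a / (n * κ * (s - v) ^ 2) = 3 * Y * v / (s - v) ^ 2 := by
    rw [hκ, hY]
    field_simp
  have e3 : a * Λ / (n * κ0 * s) = Y / s := by
    rw [hY]
    field_simp
  rw [e1, e2, e3]
  have b1 : 768 * Y / (s - v - v / 4) ≤ 2048 * (Y / s) := by
    rw [div_le_iff₀ hzp]
    have : 2048 * (Y / s) * (s - v - v / 4) = 2048 * Y * ((s - v - v / 4) / s) := by ring
    rw [this]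
    have : 3 / 8 ≤ (s - v - v / 4) / s := by
      rw [le_div_iff₀ hs]
      linarith
    nlinarith
  have b2 : 3 * Y * v / (s - v) ^ 2 ≤ 6 * (Y / s) := by
    rw [div_le_iff₀ (by positivity)]
    have h1 : s ^ 2 / 4 ≤ (s - v) ^ 2 := by nlinarith
    have h2 : 6 * (Y / s) * (s ^ 2 / 4) ≤ 6 * (Y / s) * (s - v) ^ 2 := mul_le_mul_of_nonneg_left h1 (by positivity)
    have h3 : 6 * (Y / s) * (s ^ 2 / 4) = 3 / 2 * Y * s := by
      field_simp
      ring
    have h4 : 3 * Y * v ≤ 3 / 2 * Y * s := by nlinarith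
    linarith
  linarith

/-- the sum over the dyads `v = s/2, ..., s/2^k` -/
theorem flw_dyads {O : FlwObs} {n s τ κ0 a : ℝ} {h : ℝ → ℝ} (hO : O.Ok n s h) (hn : 0 < n) (hs : 0 < s) (hτ : 0 < τ) (hκ0 : 0 < κ0)
    (hh : ∀ u ∈ Ioo 0 s, h u = κ0 * flwPsi s τ u) (ha : ∀ j ∈ Ioo 0 s, O.S j ≤ a) (k : ℕ) (hk : 4 * τ ≤ s / 2 ^ k) :
    ∫ u in (s / 2)..(s - s / 2 ^ (k + 1)), O.B u ≤ 3 * (s - s / 2 ^ k) * a ^ 2 + k * (2054 * (a * flwLam s τ / (n * κ0 * s))) := by
  induction k with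
  | zero =>
    have : s - s / 2 ^ (0 + 1) = s / 2 := by
      norm_num
      ring
    rw [this]
    simp
  | succ k ih =>
    have hp : (0 : ℝ) < 2 ^ k := by positivity
    have e0 : s / 2 ^ (k + 1) = s / 2 ^ k / 2 := by
      rw [pow_succ, div_div]
    have e1 : s / 2 ^ (k + 1 + 1) = s / 2 ^ (k + 1) / 2 := by
      rw [pow_succ (2 : ℝ) (k + 1), div_div]
    have hq : 0 < s / 2 ^ k := by positivity
    have hq1 : s / 2 ^ k ≤ s := div_le_self hs.le (one_le_pow₀ (by norm_num))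
    have ih' := ih (by rw [e0] at hk; linarith)
    have hd := flw_dyad hO hn hs hτ hκ0 hh ha (v := s / 2 ^ (k + 1)) hk (by rw [e0]; linarith)
    rw [← e1] at hd
    have i1 : IntervalIntegrable O.B volume (s / 2) (s - s / 2 ^ (k + 1)) :=
      hO.B_int (by linarith) (by rw [e0]; linarith) (by rw [e0]; linarith)
    have i2 : IntervalIntegrable O.B volume (s - s / 2 ^ (k + 1)) (s - s / 2 ^ (k + 1 + 1)) :=
      hO.B_int (by rw [e0]; linarith) (by rw [e1, e0]; linarith) (by rw [e1, e0]; linarith)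
    rw [← intervalIntegral.integral_add_adjacent_intervals i1 i2]
    push_cast
    have : 3 * (s - s / 2 ^ (k + 1)) * a ^ 2 = 3 * (s - s / 2 ^ k) * a ^ 2 + 3 * (s / 2 ^ (k + 1)) * a ^ 2 := by
      rw [e0]
      ring
    rw [this]
    linarith

/-- **the low group**: `∫_0^s B ≤ 2 [3 s a² + 2054 k a Λ/(n κ0 s) + 4τ]` -/
theorem flw_low {O : FlwObs} {n s τ κ0 a : ℝ} {h : ℝ → ℝ} (hO : O.Ok n s h) (hn : 0 < n) (hs : 0 < s) (hτ : 0 < τ) (hκ0 : 0 < κ0)
    (hh : ∀ u ∈ Ioo 0 s, h u = κ0 * flwPsi s τ u) (ha : ∀ j ∈ Ioo 0 s, O.S j ≤ a) (k : ℕ) (hk : 4 * τ ≤ s / 2 ^ k)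
    (hk' : s / 2 ^ (k + 1) ≤ 4 * τ) :
    ∫ u in (0 : ℝ)..s, O.B u ≤ 2 * (3 * s * a ^ 2 + k * (2054 * (a * flwLam s τ / (n * κ0 * s))) + 4 * τ) := by
  have hp : (0 : ℝ) < 2 ^ (k + 1) := by positivity
  set w : ℝ := s / 2 ^ (k + 1) with hw
  have hw0 : 0 < w := by positivity
  have hw1 : w ≤ s / 2 := by
    rw [hw, pow_succ, ← div_div]
    have : s / 2 ^ k ≤ s := div_le_self hs.le (one_le_pow₀ (by norm_num))
    linarith
  have d := flw_dyads hO hn hs hτ hκ0 hh ha k hk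
  have hsk : 3 * (s - s / 2 ^ k) * a ^ 2 ≤ 3 * s * a ^ 2 := by
    have : 0 < s / 2 ^ k := by positivity
    nlinarith [sq_nonneg a]
  have i0 : IntervalIntegrable O.B volume 0 (s / 2) := hO.B_int le_rfl (by linarith) (by linarith)
  have i1 : IntervalIntegrable O.B volume (s / 2) (s - w) := hO.B_int (by linarith) (by linarith) (by linarith)
  have i2 : IntervalIntegrable O.B volume (s - w) s := hO.B_int (by linarith) (by linarith) le_rfl
  have i12 : IntervalIntegrable O.B volume (s / 2) s := i1.trans i2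
  -- terminal strip
  have t2 : ∫ u in (s - w)..s, O.B u ≤ 4 * τ := by
    calc ∫ u in (s - w)..s, O.B u ≤ ∫ _u in (s - w)..s, (1 : ℝ) :=
          intervalIntegral.integral_mono_on_of_le_Ioo (by linarith) i2 intervalIntegrable_const
            fun u hu => hO.B_le u ⟨by linarith [hu.1], hu.2⟩
      _ = w := by simp
      _ ≤ 4 * τ := hk'
  have t12 : ∫ u in (s / 2)..s, O.B u ≤ 3 * s * a ^ 2 + k * (2054 * (a * flwLam s τ / (n * κ0 * s))) + 4 * τ := by
    rw [← intervalIntegral.integral_add_adjacent_intervals i1 i2]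
    linarith
  -- below s/2
  have hmid : s / 2 ∈ Ioo 0 s := ⟨by linarith, by linarith⟩
  have t0 : ∫ u in (0 : ℝ)..(s / 2), O.B u ≤ s / 2 * O.B (s / 2) := by
    calc ∫ u in (0 : ℝ)..(s / 2), O.B u ≤ ∫ _u in (0 : ℝ)..(s / 2), O.B (s / 2) :=
          intervalIntegral.integral_mono_on_of_le_Ioo (by linarith) i0 intervalIntegrable_const
            fun u hu => hO.B_mono ⟨hu.1, by linarith [hu.2]⟩ hmid hu.2.le
      _ = s / 2 * O.B (s / 2) := by simp
  have t3 : s / 2 * O.B (s / 2) ≤ ∫ u in (s / 2)..s, O.B u := by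
    calc s / 2 * O.B (s / 2) = ∫ _u in (s / 2)..s, O.B (s / 2) := by
          simp
          left
          ring
      _ ≤ _ := intervalIntegral.integral_mono_on_of_le_Ioo (by linarith) intervalIntegrable_const i12
            fun u hu => hO.B_mono hmid ⟨by linarith [hu.1], hu.2⟩ hu.1.le
  rw [← intervalIntegral.integral_add_adjacent_intervals i0 i12]
  linarith

/-! ### the envelope -/

/-- the derivative of the swept functional: drop the cross term -/
theorem flw_dF_le {O : FlwObs} {n s τ r0 : ℝ} {h : ℝ → ℝ} (hO : O.Ok n s h) (hs : 0 < s) (hτ : 0 < τ) (hr0 : 0 ≤ r0) :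
    ∫ u in (0 : ℝ)..s, (O.B u - 2 * r0 * flwPsi s τ u * O.S u + r0 ^ 2 * flwPsi s τ u ^ 2) ≤ (∫ u in (0 : ℝ)..s, O.B u) + s * r0 ^ 2 := by
  have iB : IntervalIntegrable O.B volume 0 s := hO.B_int le_rfl hs.le le_rfl
  have e : (∫ u in (0 : ℝ)..s, O.B u) + s * r0 ^ 2 = ∫ u in (0 : ℝ)..s, (O.B u + r0 ^ 2) := by
    rw [intervalIntegral.integral_add iB intervalIntegrable_const]
    simp
  by_cases hi : IntervalIntegrable (fun u => O.B u - 2 * r0 * flwPsi s τ u * O.S u + r0 ^ 2 * flwPsi s τ u ^ 2) volume 0 s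
  · rw [e]
    refine intervalIntegral.integral_mono_on_of_le_Ioo hs.le hi (iB.add intervalIntegrable_const) fun u hu => ?_
    obtain ⟨p0, p1⟩ := flw_psi_mem hs hτ hu.1.le hu.2.le
    have hS := hO.S_nonneg u hu
    have h1 : 0 ≤ 2 * r0 * flwPsi s τ u * O.S u := by positivity
    have h2 : r0 ^ 2 * flwPsi s τ u ^ 2 ≤ r0 ^ 2 * 1 := by
      refine mul_le_mul_of_nonneg_left ?_ (sq_nonneg _)
      nlinarith
    linarith
  · rw [intervalIntegral.integral_undef hi]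
    have : 0 ≤ ∫ u in (0 : ℝ)..s, O.B u :=
      intervalIntegral.integral_nonneg_of_ae_restrict hs.le (by
        rw [Filter.EventuallyLE, ae_restrict_iff' measurableSet_Icc]
        filter_upwards [tl_12_ae_Ioo 0 s] with u hu hu'
        exact hO.B_nonneg u (hu hu'))
    positivity

theorem flw_inv_int {τ : ℝ} (hτ : 0 < τ) (hτ1 : τ ≤ 1) : IntervalIntegrable (fun θ : ℝ => θ⁻¹) volume τ 1 := by
  refine intervalIntegral.intervalIntegrable_inv (fun x hx => ?_) continuousOn_id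
  rw [uIcc_of_le hτ1] at hx
  have := hx.1
  exact (hτ.trans_le this).ne'

theorem flw_int_g {τ : ℝ} (hτ : 0 < τ) (hτ1 : τ ≤ 1) (G0 G1 : ℝ) :
    ∫ θ in τ..1, (G0 + G1 * θ⁻¹) = (1 - τ) * G0 + G1 * Real.log (1 / τ) := by
  rw [intervalIntegral.integral_add intervalIntegrable_const ((flw_inv_int hτ hτ1).const_mul _),
    intervalIntegral.integral_const_mul, integral_inv_of_pos hτ one_pos, intervalIntegral.integral_const, smul_eq_mul]

/-- **the cost of the low field sweep** (first assertion of PE Lemma 7.4), explicit constants.      TEX[PE:fl:wall-cost]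
`F θ r = J_θ(r)`, `V = J*`, `A` = the class of high quantiles, `a = a_L`, `k` = number of dyads. -/
theorem flw_sweep {K : Type*} {F : ℝ → K → ℝ} {A : Set K} {V : ℝ → ℝ} {L : ℝ≥0} {n s τ cL r0 a : ℝ} {k : ℕ}
    (hn : 0 < n) (hs : 0 < s) (hτ : 0 < τ) (hτ1 : τ ≤ 1) (hcL : 0 < cL) (hr0 : 0 < r0)
    (hk : 4 * τ ≤ s / 2 ^ k) (hk' : s / 2 ^ (k + 1) ≤ 4 * τ)
    (hV : Tl12Value F A V (Icc 0 1)) (hLip : LipschitzOnWith L V (Icc 0 1))
    (hmin : ∀ θ ∈ Ioo (0 : ℝ) 1, ∃ r ∈ A, F θ r = V θ ∧ ∃ O : FlwObs,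
      O.Ok n s (fun u => θ * cL * r0 * flwPsi s τ u) ∧ (∀ j ∈ Ioo 0 s, O.S j ≤ a) ∧
      HasDerivWithinAt (fun θ' => F θ' r)
        (cL / 4 * ∫ u in (0 : ℝ)..s, (O.B u - 2 * r0 * flwPsi s τ u * O.S u + r0 ^ 2 * flwPsi s τ u ^ 2)) (Ioi θ) θ) :
    V 1 - V 0 ≤ cL / 4 * (6 * s * a ^ 2 + 8 * τ + s * r0 ^ 2)
      + 1027 * (k * a * flwLam s τ / (n * r0 * s)) * Real.log (1 / τ) + τ * cL * s * (1 + r0 ^ 2) / 4 := by
  have hΛ := flw_lam_pos hs hτ
  have ha0 : 0 ≤ a := by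
    obtain ⟨r, -, -, O, hO, ha, -⟩ := hmin (1 / 2) ⟨by norm_num, by norm_num⟩
    exact (hO.S_nonneg (s / 2) ⟨by linarith, by linarith⟩).trans (ha (s / 2) ⟨by linarith, by linarith⟩)
  set G0 : ℝ := cL / 4 * (6 * s * a ^ 2 + 8 * τ + s * r0 ^ 2) with hG0
  set G1 : ℝ := 1027 * (k * a * flwLam s τ / (n * r0 * s)) with hG1
  have hG0n : 0 ≤ G0 := by positivity
  have hG1n : 0 ≤ G1 := by positivity
  set dF : ℝ → K → ℝ := fun θ r => derivWithin (fun θ' => F θ' r) (Ioi θ) θ with hdF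
  -- part 1: [0, τ]
  have p1 : V τ - V 0 ≤ τ * cL * s * (1 + r0 ^ 2) / 4 := by
    have hsub : Icc (0 : ℝ) τ ⊆ Icc 0 1 := Icc_subset_Icc le_rfl hτ1
    have := tl_12_integrated_right (dF := dF) (g := fun _ => cL / 4 * (s + s * r0 ^ 2)) hτ.le (hV.mono hsub) (hLip.mono hsub)
      intervalIntegrable_const (Eventually.of_forall fun θ hθ => by
        obtain ⟨r, hr, hrV, O, hO, -, hd⟩ := hmin θ ⟨hθ.1, lt_of_lt_of_le hθ.2 hτ1⟩
        refine ⟨r, hr, hrV, ?_, ?_⟩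
        · rw [hdF]
          simp only
          rw [hd.derivWithin (uniqueDiffWithinAt_Ioi θ)]
          exact hd
        · rw [hdF]
          simp only
          rw [hd.derivWithin (uniqueDiffWithinAt_Ioi θ)]
          refine mul_le_mul_of_nonneg_left ?_ (by positivity)
          refine (flw_dF_le hO hs hτ hr0.le).trans ?_
          have : ∫ u in (0 : ℝ)..s, O.B u ≤ ∫ _u in (0 : ℝ)..s, (1 : ℝ) :=
            intervalIntegral.integral_mono_on_of_le_Ioo hs.le (hO.B_int le_rfl hs.le le_rfl) intervalIntegrable_const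
              fun u hu => hO.B_le u hu
          simp at this
          linarith)
    refine this.trans (le_of_eq ?_)
    simp
    ring
  -- part 2: [τ, 1]
  have p2 : V 1 - V τ ≤ G0 + G1 * Real.log (1 / τ) := by
    have hsub : Icc τ (1 : ℝ) ⊆ Icc 0 1 := Icc_subset_Icc hτ.le le_rfl
    have hgi : IntervalIntegrable (fun θ : ℝ => G0 + G1 * θ⁻¹) volume τ 1 :=
      intervalIntegrable_const.add ((flw_inv_int hτ hτ1).const_mul _)
    have := tl_12_integrated_right (dF := dF) (g := fun θ => G0 + G1 * θ⁻¹) hτ1 (hV.mono hsub) (hLip.mono hsub) hgi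
      (Eventually.of_forall fun θ hθ => by
        have hθ0 : 0 < θ := hτ.trans hθ.1
        obtain ⟨r, hr, hrV, O, hO, ha, hd⟩ := hmin θ ⟨hθ0, hθ.2⟩
        refine ⟨r, hr, hrV, ?_, ?_⟩
        · rw [hdF]
          simp only
          rw [hd.derivWithin (uniqueDiffWithinAt_Ioi θ)]
          exact hd
        · rw [hdF]
          simp only
          rw [hd.derivWithin (uniqueDiffWithinAt_Ioi θ)]
          have l := flw_low hO hn hs hτ (κ0 := θ * cL * r0) (by positivity) (fun u _ => rfl) ha k hk hk'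
          have l2 := (flw_dF_le hO hs hτ hr0.le).trans (add_le_add_left l (s * r0 ^ 2))
          refine (mul_le_mul_of_nonneg_left l2 (show 0 ≤ cL / 4 by positivity)).trans (le_of_eq ?_)
          rw [hG0, hG1]
          field_simp
          ring)
    refine this.trans ?_
    rw [flw_int_g hτ hτ1]
    nlinarith
  have : V 1 - V 0 = (V 1 - V τ) + (V τ - V 0) := by ring
  rw [this]
  linarith

/-- the number of dyads -/
theorem flw_k_exists {s τ : ℝ} (hτ : 0 < τ) (hs : 4 * τ ≤ s) :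
    ∃ k : ℕ, 4 * τ ≤ s / 2 ^ k ∧ s / 2 ^ (k + 1) ≤ 4 * τ ∧ (k : ℝ) * Real.log 2 ≤ flwLam s τ := by
  have hx : 1 ≤ s / (4 * τ) := by
    rw [le_div_iff₀ (by positivity)]
    linarith
  obtain ⟨k, h1, h2⟩ := exists_nat_pow_near hx (show (1 : ℝ) < 2 by norm_num)
  have hp : (0 : ℝ) < 2 ^ k := by positivity
  have hp' : (0 : ℝ) < 2 ^ (k + 1) := by positivity
  refine ⟨k, ?_, ?_, ?_⟩
  · rw [le_div_iff₀ (by positivity)] at h1
    rw [le_div_iff₀ hp]
    linarith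
  · rw [div_lt_iff₀ (by positivity)] at h2
    rw [div_le_iff₀ hp']
    linarith
  · have h3 : Real.log ((2 : ℝ) ^ k) ≤ Real.log (s / (4 * τ)) := Real.log_le_log hp h1
    rw [Real.log_pow] at h3
    refine h3.trans ?_
    unfold flwLam
    refine Real.log_le_log (by linarith) ?_
    rw [div_le_div_iff₀ (by positivity) hτ]
    nlinarith

/-- **PE Lemma 7.4, first assertion, in the form of the paper**; `ℓ = log n`, `τ = n^(-10)`.      TEX[PE:fl:wall-cost] -/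
theorem flw_cost {K : Type*} {F : ℝ → K → ℝ} {A : Set K} {V : ℝ → ℝ} {L : ℝ≥0} {n s τ cL r0 a ℓ : ℝ}
    (hn : 0 < n) (hτ : 0 < τ) (hsτ : 4 * τ ≤ s) (hs1 : s ≤ 1) (hcL : 0 < cL) (hr0 : 0 < r0) (hr1 : r0 ≤ 1)
    (hℓ2 : Real.log 2 ≤ ℓ) (hℓ : Real.log (1 / τ) ≤ 10 * ℓ)
    (hV : Tl12Value F A V (Icc 0 1)) (hLip : LipschitzOnWith L V (Icc 0 1))
    (hmin : ∀ θ ∈ Ioo (0 : ℝ) 1, ∃ r ∈ A, F θ r = V θ ∧ ∃ O : FlwObs,
      O.Ok n s (fun u => θ * cL * r0 * flwPsi s τ u) ∧ (∀ j ∈ Ioo 0 s, O.S j ≤ a) ∧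
      HasDerivWithinAt (fun θ' => F θ' r)
        (cL / 4 * ∫ u in (0 : ℝ)..s, (O.B u - 2 * r0 * flwPsi s τ u * O.S u + r0 ^ 2 * flwPsi s τ u ^ 2)) (Ioi θ) θ) :
    V 1 - V 0 ≤ 2 * cL * s * (a ^ 2 + r0 ^ 2) + 2000000 * (a * ℓ ^ 3 / (n * r0 * s)) + 3 * cL * τ := by
  have hs : 0 < s := by linarith
  have hτ1 : τ ≤ 1 := by linarith
  obtain ⟨k, hk, hk', hkΛ⟩ := flw_k_exists hτ hsτ
  have key := flw_sweep hn hs hτ hτ1 hcL hr0 hk hk' hV hLip hmin
  have hΛ := flw_lam_pos hs hτ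
  have ha0 : 0 ≤ a := by
    obtain ⟨r, -, -, O, hO, ha, -⟩ := hmin (1 / 2) ⟨by norm_num, by norm_num⟩
    exact (hO.S_nonneg (s / 2) ⟨by linarith, by linarith⟩).trans (ha (s / 2) ⟨by linarith, by linarith⟩)
  have hl2 : (0.69 : ℝ) < Real.log 2 := by
    have := Real.log_two_gt_d9
    linarith
  have hℓ0 : 0 < ℓ := by linarith
  have hΛℓ : flwLam s τ ≤ 11 * ℓ := by
    have h1 : flwLam s τ ≤ Real.log (2 * (1 / τ)) := by
      unfold flwLam
      refine Real.log_le_log (by positivity) ?_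
      rw [div_le_iff₀ hτ]
      have : 2 * (1 / τ) * τ = 2 := by field_simp
      rw [this]
      linarith
    rw [Real.log_mul (by norm_num) (by positivity)] at h1
    linarith
  have hkℓ : (k : ℝ) ≤ 16 * ℓ := by
    have h1 : (k : ℝ) * 0.69 ≤ 11 * ℓ := by
      have : (k : ℝ) * 0.69 ≤ (k : ℝ) * Real.log 2 := mul_le_mul_of_nonneg_left hl2.le (Nat.cast_nonneg k)
      linarith
    linarith
  have hlog0 : 0 ≤ Real.log (1 / τ) := Real.log_nonneg (by rw [le_div_iff₀ hτ]; linarith)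
  have hD : 0 < n * r0 * s := by positivity
  have m1 : (k : ℝ) * a * flwLam s τ / (n * r0 * s) * Real.log (1 / τ) ≤ 1760 * (a * ℓ ^ 3 / (n * r0 * s)) := by
    have e1 : (k : ℝ) * a * flwLam s τ * Real.log (1 / τ) ≤ (16 * ℓ) * a * (11 * ℓ) * (10 * ℓ) := by
      have q1 : (k : ℝ) * a ≤ 16 * ℓ * a := mul_le_mul_of_nonneg_right hkℓ ha0
      have q2 : (k : ℝ) * a * flwLam s τ ≤ 16 * ℓ * a * (11 * ℓ) := mul_le_mul q1 hΛℓ hΛ.le (by positivity)
      exact mul_le_mul q2 hℓ hlog0 (by positivity)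
    calc (k : ℝ) * a * flwLam s τ / (n * r0 * s) * Real.log (1 / τ)
        = (k : ℝ) * a * flwLam s τ * Real.log (1 / τ) / (n * r0 * s) := by ring
      _ ≤ (16 * ℓ) * a * (11 * ℓ) * (10 * ℓ) / (n * r0 * s) := div_le_div_of_nonneg_right e1 hD.le
      _ = 1760 * (a * ℓ ^ 3 / (n * r0 * s)) := by ring
  have m0 : 0 ≤ a * ℓ ^ 3 / (n * r0 * s) := by positivity
  have m2 : cL / 4 * (6 * s * a ^ 2 + 8 * τ + s * r0 ^ 2) ≤ 2 * cL * s * (a ^ 2 + r0 ^ 2) + 2 * cL * τ := by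
    have : 0 ≤ cL * s * a ^ 2 := by positivity
    have : 0 ≤ cL * s * r0 ^ 2 := by positivity
    nlinarith
  have m3 : τ * cL * s * (1 + r0 ^ 2) / 4 ≤ cL * τ := by
    have h1 : s * (1 + r0 ^ 2) ≤ 1 * 2 := by
      refine mul_le_mul hs1 ?_ (by positivity) (by norm_num)
      nlinarith
    have h2 : 0 < cL * τ := by positivity
    nlinarith
  have m4 : 1027 * ((k : ℝ) * a * flwLam s τ / (n * r0 * s)) * Real.log (1 / τ) ≤ 2000000 * (a * ℓ ^ 3 / (n * r0 * s)) := by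
    calc 1027 * ((k : ℝ) * a * flwLam s τ / (n * r0 * s)) * Real.log (1 / τ)
        = 1027 * ((k : ℝ) * a * flwLam s τ / (n * r0 * s) * Real.log (1 / τ)) := by ring
      _ ≤ 1027 * (1760 * (a * ℓ ^ 3 / (n * r0 * s))) := mul_le_mul_of_nonneg_left m1 (by norm_num)
      _ ≤ _ := by linarith
  linarith

/-! ## THE SK INSTANCE

Everything comes from the CLOCK API of helper42: (G2.b) `exit_clk_sus_int`, (G3.a) `exit_clk_SB`, (G3.b) `exit_clk_D2`, (G3.c) `exit_clk_H2`, (G3.d) `exit_clk_intble`, (G4) `exit_clk_Vx`,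
(G3.b') `exit_clk_B_le` : `B ≤ 2 E|X|⁴ + 2 E tr C²`. -/

variable {n : ℕ}

/-- the numbers of the path `(b,h)`, terminal mass `1`, as functions of the mass (positions after the jumps) -/
noncomputable def flwSk (n : ℕ) (b h : ℝ → ℝ) : FlwObs where
  S u := skCS n 1 b h (ghPosA u)
  B u := skCB n 1 b h (ghPosA u)
  H2 u := ckH2 n 1 b h (ghPosA u)

theorem flw_sk_eqns_cite : True := by
  have := @flwSk.eq_1
  trivial

theorem flw_sk_posA_ok {u : ℝ} (h0 : 0 ≤ u) (h1 : u ≤ 1) : (ghPosA u).Ok 1 := by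
  refine ⟨h0, h1, ?_, ?_⟩ <;> simp [ghPosA, GhPos.lam]

theorem flw_sk_posA_le {u v : ℝ} (h : u ≤ v) : ghPosA u ≤ ghPosA v := by
  rcases h.lt_or_eq with h | h
  · exact le_of_lt (Prod.Lex.toLex_lt_toLex.2 (Or.inl h))
  · rw [h]

/-- **the instance** -/
theorem flw_sk_ok (hn : 0 < n) {b h : ℝ → ℝ} (hbh : CkAdm 1 b h) {s : ℝ} (hs : s ≤ 1) : (flwSk n b h).Ok n s h := by
  have one : (0 : ℝ) < 1 := one_pos
  have ok : ∀ u ∈ Ioo 0 s, (ghPosA u).Ok 1 := fun u hu => flw_sk_posA_ok hu.1.le (hu.2.le.trans hs)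
  have hH0 : ∀ u ∈ Ioo 0 s, 0 ≤ ckH2 n 1 b h (ghPosA u) := by
    intro u hu
    have h1 := (exit_clk_H2 hn one hbh (ok u hu)).1
    have h2 := (exit_clk_D2 hn one hbh (ok u hu)).2.1
    have h3 : 0 ≤ (ghPosA u).u ^ 2 * ckC2 n 1 b h (ghPosA u) := mul_nonneg (sq_nonneg _) h2
    linarith
  have hint := (exit_clk_intble hn one hbh).2.2.1
  have hHint : ∀ u v : ℝ, 0 < u → u ≤ v → v < s → IntervalIntegrable (fun w => ckH2 n 1 b h (ghPosA w)) volume u v := by
    intro u v hu huv hv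
    refine hint.mono_set ?_
    rw [uIcc_of_le huv, uIcc_of_le one.le]
    exact Icc_subset_Icc hu.le (hv.le.trans hs)
  refine ⟨?_, ?_, ?_, ?_, ?_, hH0, hHint, ?_, ?_⟩
  · intro u hu
    exact (exit_clk_SB hn one hbh (ok u hu) (ok u hu) le_rfl).1
  · intro u hu v hv huv
    exact (exit_clk_SB hn one hbh (ok u hu) (ok v hv) (flw_sk_posA_le huv)).2.1
  · intro u hu
    have h1 := exit_clk_SB hn one hbh (ok u hu) (ok u hu) le_rfl
    exact (sq_nonneg _).trans h1.2.2.2.1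
  · intro u hu
    exact (exit_clk_SB hn one hbh (ok u hu) (ok u hu) le_rfl).2.2.2.2
  · intro u hu v hv huv
    exact (exit_clk_SB hn one hbh (ok u hu) (ok v hv) (flw_sk_posA_le huv)).2.2.1
  · -- susceptibility
    intro u v κ hu huv hv hκ hslope
    have := exit_clk_sus_int hn one hbh hu.le huv (hv.le.trans hs) (fun _ => κ) (fun _ _ => hκ) intervalIntegrable_const
      (fun x y hx hxy hy => by
        rw [intervalIntegral.integral_const, smul_eq_mul, mul_comm]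
        exact hslope x y hx hxy hy)
    rw [intervalIntegral.integral_const_mul] at this
    simp only [flwSk]
    linarith
  · -- two-sided level averaging
    intro u ρ A hρ h1 h2 hA
    simp only [flwSk] at hA ⊢
    have hu : u ∈ Ioo 0 s := ⟨by linarith, by linarith⟩
    have hup : u + ρ ∈ Ioo 0 s := ⟨by linarith, h2⟩
    have hum : u - ρ ∈ Ioo 0 s := ⟨h1, by linarith⟩
    have hpu : (ghPosA u).u = u := rfl
    have vx := exit_clk_Vx hn one hbh (ok u hu) hρ (by rw [hpu]; exact h1) (by rw [hpu]; linarith)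
    rw [hpu] at vx
    set I : ℝ := ∫ v in (u - ρ)..(u + ρ), ckH2 n 1 b h (ghPosA v) / v with hI
    have hI0 : 0 ≤ I := by
      refine intervalIntegral.integral_nonneg (by linarith) fun v hv => ?_
      have hv' : v ∈ Ioo 0 s := ⟨by linarith [hv.1], by linarith [hv.2]⟩
      exact div_nonneg (hH0 v hv') hv'.1.le
    have d2 := exit_clk_D2 hn one hbh (ok u hu)
    have hVx0 := d2.1
    have sb1 := exit_clk_SB hn one hbh (ok _ hum) (ok u hu) (flw_sk_posA_le (by linarith))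
    have sb2 := exit_clk_SB hn one hbh (ok u hu) (ok _ hup) (flw_sk_posA_le (by linarith))
    set Su := skCS n 1 b h (ghPosA u) with hSu
    set Sp := skCS n 1 b h (ghPosA (u + ρ)) with hSp
    set Sm := skCS n 1 b h (ghPosA (u - ρ)) with hSm
    have hSm0 : 0 ≤ Sm := sb1.1
    have hSu0 : 0 ≤ Su := sb2.1
    have hSuA : Su ≤ A := sb2.2.1.trans hA
    have hA0 : 0 ≤ A := hSu0.trans hSuA
    -- Var ≤ 2 A² + 32 I / ρ²
    have hV : ckVx n 1 b h (ghPosA u) ≤ 2 * A ^ 2 + 32 / ρ ^ 2 * I := by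
      have e1 : ckVx n 1 b h (ghPosA u) = Real.sqrt (ckVx n 1 b h (ghPosA u)) ^ 2 := (Real.sq_sqrt hVx0).symm
      have e2 : Real.sqrt (ckVx n 1 b h (ghPosA u)) ≤ A + 4 / ρ * Real.sqrt I := by
        have : Sp - Sm ≤ A := by linarith
        linarith
      have e3 : 0 ≤ Real.sqrt (ckVx n 1 b h (ghPosA u)) := Real.sqrt_nonneg _
      have e4 : Real.sqrt (ckVx n 1 b h (ghPosA u)) ^ 2 ≤ (A + 4 / ρ * Real.sqrt I) ^ 2 := pow_le_pow_left₀ e3 e2 2
      have e5 : (A + 4 / ρ * Real.sqrt I) ^ 2 ≤ 2 * A ^ 2 + 2 * (4 / ρ * Real.sqrt I) ^ 2 := by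
        nlinarith [sq_nonneg (A - 4 / ρ * Real.sqrt I)]
      have e6 : (4 / ρ * Real.sqrt I) ^ 2 = 16 / ρ ^ 2 * I := by
        rw [mul_pow, Real.sq_sqrt hI0, div_pow]
        norm_num
      rw [e1]
      calc Real.sqrt (ckVx n 1 b h (ghPosA u)) ^ 2 ≤ 2 * A ^ 2 + 2 * (4 / ρ * Real.sqrt I) ^ 2 := e4.trans e5
        _ = 2 * A ^ 2 + 32 / ρ ^ 2 * I := by
            rw [e6]
            ring
    have hX4 : ckX4 n 1 b h (ghPosA u) ≤ 3 * A ^ 2 + 32 / ρ ^ 2 * I := by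
      have : ckX4 n 1 b h (ghPosA u) = ckVx n 1 b h (ghPosA u) + Su ^ 2 := by
        simp only [ckVx, hSu]
        ring
      have h3 : Su ^ 2 ≤ A ^ 2 := pow_le_pow_left₀ hSu0 hSuA 2
      linarith
    have hC2 : ckC2 n 1 b h (ghPosA u) ≤ ckH2 n 1 b h (ghPosA u) / u ^ 2 := by
      have := (exit_clk_H2 hn one hbh (ok u hu)).1
      rw [hpu] at this
      rw [le_div_iff₀ (by have := hu.1; positivity)]
      linarith
    have hB := exit_clk_B_le hn one hbh (ok u hu)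
    calc skCB n 1 b h (ghPosA u) ≤ 2 * ckX4 n 1 b h (ghPosA u) + 2 * ckC2 n 1 b h (ghPosA u) := hB
      _ ≤ 2 * (3 * A ^ 2 + 32 / ρ ^ 2 * I) + 2 * (ckH2 n 1 b h (ghPosA u) / u ^ 2) := by linarith
      _ = 6 * A ^ 2 + 64 / ρ ^ 2 * I + 2 * ckH2 n 1 b h (ghPosA u) / u ^ 2 := by ring

end Claimed.Agent.R286
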