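import Claimed.Agent.R286.Fl.Scales
import Claimed.Agent.R286.Fl.LemW
import Claimed.Agent.R286.Pe6.Contract

/-!
# Row 286 (S0533), PE Section 7 "Positive Laplace comparisons and fluctuations": THE VOCABULARY      (helper196, head of PE Sec 7; prefix `fl`, types `Fl*`)

Typed DIRECTLY on the SK path numbers (`skCPr n 1`, `skCS n 1 b h (ghPosA u)`: `Defs/Clk.lean`) and on the vocabulary of PE Sec. 6 (`P6D`, `P6D.obj`, `IsMin`, `Fam`, `err`, `p6Wall`: `Pe6/Defs.lean`, `Pe6/Contract.lean`),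
so that the exits of Sec. 6 apply verbatim.      Scales, calls, wall scalars: `Fl/Scales.lean`.      `ψ = flwPsi s τ` of `Fl/LemW.lean` (helper158).

* `flFn = fun n => skCPr n 1`      the pressure;      `flP n m T ε = p(ε) = f_n(T - ε 1_{u<s}, 0)`
* `flDL`, `flDU`, `flDW ε θ : P6D`      the three families of instances: lower (L), initial upper (U), wall (H)
* `flLowPen`, `flJ` = `J_θ`
* `FlImpL`, `FlImpU`, `FlImpH`      what Sec. 7 consumes of Prop 6.6, Cor 6.7, Lemma 3.1, Prop 4.1 (omitted cuts), Lemma 5.5, at ONE size `n`, explicit constants, slack `n^m` (PE: `n^(20δ)`, `δ = m/10000`)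
-/

set_option autoImplicit false

namespace Claimed.Agent.R286

open MeasureTheory Set

noncomputable section

/-- the SK pressure `f_n` of bounded monotone clocks, terminal mass `1` -/
def flFn : ℕ → (ℝ → ℝ) → (ℝ → ℝ) → ℝ := fun n => skCPr n 1

/-- `p(ε) = f_n(T - ε 1_{u<s}, 0)` -/
def flP (n : ℕ) (m T ε : ℝ) : ℝ := skCPr n 1 (flBE n m T ε) fun _ => 0

/-- `ψ(u) = log((s+τ)/(s-u+τ)) / log((s+τ)/τ)` -/
def flPsi (n : ℕ) (m : ℝ) : ℝ → ℝ := flwPsi (flS n m) (flTau n)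

/-- family (L): endpoint of `p(n^(-1/3))`, call `flCallL` -/
def flDL (n : ℕ) (m T : ℝ) : P6D := ⟨flCallL n m, T, flBE n m T (flEL n), fun _ => 0⟩
/-- family (U): endpoint of `p(0)`, call `flCallU` -/
def flDU (n : ℕ) (m T : ℝ) : P6D := ⟨flCallU n m, T, flBE n m T 0, fun _ => 0⟩
/-- family (H): the wall instance of Cor. 6.7 with `φ = ψ`:   `b0 = T - (ε + θ c_L) 1_{u<s}`, `h0 = θ c_L r₀ ψ 1_{u<s}` -/
def flDW (n : ℕ) (m T ε θ : ℝ) : P6D := p6Wall (flCallH n m) T ε θ (flPsi n m)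

/-- the low penalty `(θ c_L/4) ∫_0^s r₀² ψ²` -/
def flLowPen (n : ℕ) (m T ε θ : ℝ) : ℝ := θ * flCL T ε / 4 * ∫ u in (0 : ℝ)..flS n m, flR0 n m ε ^ 2 * flPsi n m u ^ 2
/-- the functional `J_θ` (l.196) on the high quantiles -/
def flJ (n : ℕ) (m T ε θ : ℝ) (r : ℝ → ℝ) : ℝ := (flDW n m T ε θ).obj flFn (flDH n m ^ 2) r + flLowPen n m T ε θ

/-- family (L): a feasible quantile with the error bound and the profile of Prop 6.6 at the final strength `s²` -/
def FlImpL (n : ℕ) (m T c C : ℝ) : Prop :=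
  ∃ r : ℝ → ℝ, (flCallL n m).Fe r ∧ P6Adm ((flDL n m T).Pb (flS n m ^ 2) r) ((flDL n m T).Ph (flS n m ^ 2) r) ∧
    (flDL n m T).err flFn (flS n m ^ 2) r ≤ (n : ℝ) ^ m * (flCallL n m).E ∧
    P6Reg 0 r c C 1 ((flCallL n m).Al (flS n m ^ 2))

/-- family (U): the same at the final strength `d_N²` -/
def FlImpU (n : ℕ) (m T c C : ℝ) : Prop :=
  ∃ r : ℝ → ℝ, (flCallU n m).Fe r ∧ P6Adm ((flDU n m T).Pb (flDN n m ^ 2) r) ((flDU n m T).Ph (flDN n m ^ 2) r) ∧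
    (flDU n m T).err flFn (flDN n m ^ 2) r ≤ (n : ℝ) ^ m * (flCallU n m).E ∧
    P6Reg 0 r c C 1 ((flCallU n m).Al (flDN n m ^ 2))

/-- family (H) at one `ε ∈ [ε₀,T)` -/
structure FlImpH (n : ℕ) (m T CS ε : ℝ) : Prop where
  /-- Lemma 7.2, first assertion: every path in the definition of `J_θ` is admissible -/
  fam : ∀ θ ∈ Icc (0 : ℝ) 1, (flDW n m T ε θ).Fam (flDH n m ^ 2)
  /-- minimisers exist for every `θ` (Lemma 3.1) -/
  ex : ∀ θ ∈ Icc (0 : ℝ) 1, ∃ r : ℝ → ℝ, (flDW n m T ε θ).IsMin flFn (flDH n m ^ 2) r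
  /-- the error of the ORDINARY family `θ = 0` (Prop 6.6): `J_0^* ≤ p(ε) + n^m E` -/
  err : ∃ r : ℝ → ℝ, (flCallH n m).Fe r ∧ (flDW n m T ε 0).obj flFn (flDH n m ^ 2) r ≤ flP n m T ε + (n : ℝ) ^ m * (flCallH n m).E
  /-- (31), second assertion: suppression of the low-group mean at EVERY minimiser, every `θ`, every low cut -/
  low : ∀ θ ∈ Icc (0 : ℝ) 1, ∀ r : ℝ → ℝ, (flDW n m T ε θ).IsMin flFn (flDH n m ^ 2) r → ∀ u ∈ Ioo (0 : ℝ) (flS n m),
    skCS n 1 ((flDW n m T ε θ).Pb (flDH n m ^ 2) r) ((flDW n m T ε θ).Ph (flDH n m ^ 2) r) (ghPosA u) ≤ flAL n m CS ε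

theorem fl_defs_eqns_cite' : True := by
  have := @flFn.eq_1; have := @flP.eq_1; have := @flPsi.eq_1; have := @flDL.eq_1; have := @flDU.eq_1; have := @flDW.eq_1
  have := @flLowPen.eq_1; have := @flJ.eq_1; have := @FlImpL.eq_1; have := @FlImpU.eq_1
  trivial

end

end Claimed.Agent.R286
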