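import Claimed.Agent.R286.Exit.Prop
import Claimed.Agent.R286.Fl.Defs
import Claimed.Agent.R286.Fl.Par

/-!
# Row 286 (S0533), PE Section 7, file Fl/Link : PROP. 6.6 FOR THE ALL-MASS FAMILIES (L) AND (U)      (owner helper124; head helper196; prefix `fll_`)

source: PE fluctuations.tex l.102-112 (lower comparison), l.148-156 (initial upper comparison): "Proposition 6.6 applies".      Everything is PROVED from `exit_prop`, `exit_p6_min` (Exit/*).
* `fllC m T`      the record of constants of Sec. 6 used by Sec. 7: `K = T + 2`, `ρ = T/2`, `Tinf = T`, `cE = D0 = 1`.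
* `fllD P T m ε`  the all-mass instance with the bare endpoint of `p(ε)`:  `b0 = T - ε 1_{u<s}`, `h0 = 0`.
* `fll_seq`       the sequence hypotheses `P6Seq` for `n ↦ fllD (P n) ..` along every ultrafilter `U ≤ atTop`, if `ε_n = o(a_n²)`, `d_n → 0`.
* `fll_ord`, `fll_marg`      ordinary family, margin `1/2`, clock bound `T + 1` (fixed size).
* `fll_link`      the general link;      `fll_link_L`, `fll_link_U` = `fl_link_L`, `fl_link_U` of Fl/Contract.lean.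
-/

set_option autoImplicit false

namespace Claimed.Agent.R286

open Filter Topology Set MeasureTheory Asymptotics

noncomputable section

/-- the record of constants of PE Sec. 6 used by PE Sec. 7 -/
def fllC (m T : ℝ) : P6C := ⟨m, T + 2, T / 2, T, 1, 1⟩

theorem fll_C_ok {m T : ℝ} (hT : 1 < T) (hm0 : 0 < m) (hm : m ≤ 1 / 100) : (fllC m T).Ok :=
  { m_pos := hm0, m_le := hm
    K_pos := by show (0:ℝ) < T + 2; linarith
    ρ_pos := by show (0:ℝ) < T / 2; linarith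
    ρ_lt := by show T / 2 < T; linarith
    T_gt := hT, cE_pos := one_pos, D0_pos := one_pos }

/-- the all-mass instance with the bare endpoint of `p(ε)` -/
def fllD (P : CmCall) (n : ℕ) (m T ε : ℝ) : P6D := ⟨P, T, flBE n m T ε, fun _ => 0⟩

theorem fll_eqns_cite : True := by
  have := @fllC.eq_1; have := @fllD.eq_1
  trivial

/-! ## fixed size -/

section

variable {P : CmCall} {n : ℕ} {m T ε : ℝ}

theorem fll_BE_le (hε : 0 ≤ ε) (u : ℝ) : flBE n m T ε u ≤ T := by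
  unfold flBE; split_ifs <;> linarith

theorem fll_BE_ge (hε : 0 ≤ ε) (u : ℝ) : T - ε ≤ flBE n m T ε u := by
  unfold flBE; split_ifs <;> linarith

theorem fll_BE_mono (hε : 0 ≤ ε) : Monotone (flBE n m T ε) := by
  intro u v huv
  unfold flBE
  split_ifs with h1 h2 h2
  · exact le_rfl
  · linarith
  · exact absurd (lt_of_le_of_lt huv h2) h1
  · exact le_rfl

/-- the bare endpoint is admissible -/
theorem fll_adm0 (hε : 0 ≤ ε) (hεT : ε ≤ T) : P6Adm (fllD P n m T ε).b0 (fllD P n m T ε).h0 :=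
  ⟨⟨(fll_BE_mono hε).monotoneOn _, by have := fll_BE_ge (n := n) (m := m) (T := T) hε 0; show 0 ≤ flBE n m T ε 0; linarith⟩,
    ⟨fun _ _ _ _ _ => le_rfl, le_rfl⟩⟩

/-- every changed path of an all-mass call is admissible -/
theorem fll_fam (hok : P.Ok 1 1) (hu0 : P.u0 = 0) (hε : 0 ≤ ε) {l : ℝ} (hl0 : 0 ≤ l) (hl : l ≤ T - ε) :
    (fllD P n m T ε).Fam l := by
  intro z hz
  have hεT : ε ≤ T := by linarith
  refine ⟨p6f_Pb_clk (D := fllD P n m T ε) one_pos hok hz hl0 ((fll_BE_mono hε).monotoneOn _) (fll_adm0 hε hεT).1.2 ?_ ?_,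
    p6f_Ph_clk (D := fllD P n m T ε) one_pos hok hz hl0 (fun _ _ _ _ _ => le_rfl) (fun _ _ _ _ _ => le_rfl) le_rfl ?_⟩
  · intro u v h0 h1 _ _
    have : (fllD P n m T ε).P.u0 = 0 := hu0
    rw [this] at h1
    exact absurd h0 (not_le.2 h1)
  · intro _
    exact hl.trans (fll_BE_ge hε 0)
  · intro u v h0 h1 _ _
    have : (fllD P n m T ε).P.u0 = 0 := hu0
    rw [this] at h1
    exact absurd h0 (not_le.2 h1)

/-- ordinary family -/
theorem fll_ord (hok : P.Ok 1 1) (hu0 : P.u0 = 0) (hε : 0 ≤ ε) (hd : P.d ^ 2 ≤ T - ε) : (fllD P n m T ε).Ord :=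
  ⟨fll_adm0 hε (by nlinarith [sq_nonneg P.d]), fun _ h0 h1 => fll_fam hok hu0 hε h0 (h1.trans hd)⟩

/-- margin `1/2` and clock bound `T + 1` of every changed path -/
theorem fll_marg (hok : P.Ok 1 1) (hu0 : P.u0 = 0) (hT : 1 < T) (hε : 0 ≤ ε) (hε1 : ε ≤ 1 / 4) (hd : P.d ^ 2 ≤ 1 / 4)
    {l : ℝ} (hl0 : 0 ≤ l) (hl : l ≤ P.d ^ 2) {z : ℝ → ℝ} (hz : P.Fe z) :
    P6Marg ((fllD P n m T ε).Pb l z) 0 (1 / 2) ∧ P6Bd ((fllD P n m T ε).Pb l z) ((fllD P n m T ε).Ph l z) (T + 1) := by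
  have hPb : ∀ u, 0 ≤ u → (fllD P n m T ε).Pb l z u = flBE n m T ε u - P.e l (z u) := by
    intro u hu
    have : (fllD P n m T ε).P.u0 ≤ u := by show P.u0 ≤ u; rw [hu0]; exact hu
    unfold P6D.Pb; rw [if_pos this]; rfl
  have hPh : ∀ u, 0 ≤ u → (fllD P n m T ε).Ph l z u = 0 + P.e l (z u) * z u := by
    intro u hu
    have : (fllD P n m T ε).P.u0 ≤ u := by show P.u0 ≤ u; rw [hu0]; exact hu
    unfold P6D.Ph; rw [if_pos this]; rfl
  refine ⟨⟨fun u h0 _ => ?_, fun u v h0 h1 _ _ => absurd h0 (not_le.2 h1)⟩, fun u hu => ?_⟩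
  · rw [hPb u h0]
    have := fll_BE_ge (n := n) (m := m) (T := T) hε u
    have := (p6f_e_bd (P := P) hl0 (z u)).2
    linarith
  · rw [hPb u hu.1, hPh u hu.1]
    have a1 := fll_BE_ge (n := n) (m := m) (T := T) hε u
    have a2 := fll_BE_le (n := n) (m := m) (T := T) hε u
    have a3 := p6f_e_bd (P := P) hl0 (z u)
    have a4 := p6f_re_bd one_pos hok hz hl0 (u := u) (by rw [hu0]; exact hu)
    rw [abs_le, abs_le]
    refine ⟨⟨by linarith, by linarith⟩, ⟨by linarith, by linarith⟩⟩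

end

/-! ## the sequence hypotheses -/

section

variable {m T : ℝ} {P : ℕ → CmCall} {ε : ℕ → ℝ}

/-- **`P6Seq` for an all-mass family** with the bare endpoint of `p(ε_n)`, `ε_n = o(a_n²)` -/
theorem fll_seq (hT : 1 < T) {U : Ultrafilter ℕ} (hU : (U : Filter ℕ) ≤ atTop)
    (hn : ∀ n, (P n).n = n) (hPm : ∀ n, (P n).m = m) (hu0 : ∀ n, (P n).u0 = 0)
    (hok : ∀ᶠ n in atTop, (P n).Ok 1 1) (hd : Tendsto (fun n => (P n).d) atTop (𝓝 0))
    (hε0 : ∀ n, 0 ≤ ε n) (hε : ε =o[atTop] (fun n => (P n).a ^ 2)) :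
    P6Seq U (fllC m T) (fun n => fllD (P n) n m T (ε n)) := by
  have hokU : ∀ᶠ n in U, (P n).Ok 1 1 := hU hok
  have hdU : Tendsto (fun n => (P n).d) U (𝓝 0) := hd.mono_left hU
  have hεU : ε =o[U] (fun n => (P n).a ^ 2) := hε.mono hU
  have hε1 : ∀ᶠ n in U, ε n ≤ 1 := by
    filter_upwards [aq_o_bound hεU (Eventually.of_forall fun n => sq_nonneg _) one_pos, hokU] with n h1 h2
    have a1 := cm_a_pos one_pos h2
    have a2 := (cm_a_le_d one_pos h2).trans h2.d1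
    have : (P n).a ^ 2 ≤ 1 := by nlinarith
    have := le_abs_self (ε n)
    linarith
  refine
    { n_top := ?_, m_eq := Eventually.of_forall hPm, ok := hokU, T_lim := tendsto_const_nhds
      dT := ?_, u0_small := ?_, ep4 := ?_, clk := ?_, mono := ?_ }
  · have : (fun n => (fllD (P n) n m T (ε n)).P.N) = fun n : ℕ => (n : ℝ) := by
      funext n
      show (((P n).n : ℕ) : ℝ) = n
      rw [hn]
    rw [this]
    exact tendsto_natCast_atTop_atTop.mono_left hU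
  · have h1 : Tendsto (fun n => (P n).d ^ 2) U (𝓝 (0 ^ 2)) := hdU.pow 2
    filter_upwards [h1.eventually (gt_mem_nhds (show (0:ℝ) ^ 2 < 1 / 2 by norm_num))] with n hn'
    show (P n).d ^ 2 ≤ T - T / 2
    linarith
  · have : (fun n => (fllD (P n) n m T (ε n)).P.u0) = fun _ => (0:ℝ) := by
      funext n; exact hu0 n
    rw [this]
    exact isLittleO_zero _ _
  · intro κ δ hκ hδ
    have hκ0 : 0 < κ := by linarith
    filter_upwards [aq_o_bound hεU (Eventually.of_forall fun n => sq_nonneg _) (show 0 < δ / κ ^ 2 by positivity), hokU]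
      with n h1 h2 z u hz _ _ _ _ _
    have ha := cm_a_pos one_pos h2
    have hz0 : 0 < z := lt_of_lt_of_le (by positivity) hz
    have haz : (P n).a ≤ κ * z := by rwa [div_le_iff₀ hκ0, mul_comm] at hz
    have h3 : (P n).a ^ 2 ≤ κ ^ 2 * z ^ 2 := by
      rw [← mul_pow]; exact pow_le_pow_left₀ ha.le haz 2
    have h4 : ε n ≤ δ * z ^ 2 := by
      have e1 : δ / κ ^ 2 * (κ ^ 2 * z ^ 2) = δ * z ^ 2 := by field_simp
      have e2 : δ / κ ^ 2 * (P n).a ^ 2 ≤ δ / κ ^ 2 * (κ ^ 2 * z ^ 2) := mul_le_mul_of_nonneg_left h3 (by positivity)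
      have := le_abs_self (ε n)
      linarith
    constructor
    · show |flBE n m T (ε n) u - T| ≤ δ * z ^ 2
      have b1 := fll_BE_ge (n := n) (m := m) (T := T) (hε0 n) u
      have b2 := fll_BE_le (n := n) (m := m) (T := T) (hε0 n) u
      rw [abs_le]
      constructor <;> nlinarith
    · show |(0:ℝ)| ≤ δ * z ^ 3
      rw [abs_zero]; positivity
  · filter_upwards [hε1] with n h1 u _
    constructor
    · show |flBE n m T (ε n) u| ≤ T + 2
      have b1 := fll_BE_ge (n := n) (m := m) (T := T) (hε0 n) u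
      have b2 := fll_BE_le (n := n) (m := m) (T := T) (hε0 n) u
      rw [abs_le]
      constructor <;> linarith
    · show |(0:ℝ)| ≤ T + 2
      rw [abs_zero]; linarith
  · exact Eventually.of_forall fun n => ⟨(fll_BE_mono (hε0 n)).monotoneOn _, fun _ _ _ _ _ => le_rfl⟩

/-- **the general link**: PE Prop. 6.6 for an all-mass family with the bare endpoint of `p(ε_n)`.      TEX[PE:reg:finite-propagation] (use in PE Sec. 7.1) -/
theorem fll_link (hT : 1 < T) (hm0 : 0 < m) (hm : m ≤ 1 / 100) :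
    ∃ c C : ℝ, 0 < c ∧ c ≤ C ∧ ∀ (P : ℕ → CmCall) (ε : ℕ → ℝ),
      (∀ n, (P n).n = n) → (∀ n, (P n).m = m) → (∀ n, (P n).u0 = 0) →
      (∀ᶠ n in atTop, (P n).Ok 1 1) → Tendsto (fun n => (P n).d) atTop (𝓝 0) →
      (∀ n, 0 ≤ ε n) → ε =o[atTop] (fun n => (P n).a ^ 2) →
      ∀ᶠ n : ℕ in atTop, ∃ r : ℝ → ℝ, (P n).Fe r ∧
        P6Adm ((fllD (P n) n m T (ε n)).Pb ((P n).d ^ 2) r) ((fllD (P n) n m T (ε n)).Ph ((P n).d ^ 2) r) ∧
        (fllD (P n) n m T (ε n)).err flFn ((P n).d ^ 2) r ≤ (n : ℝ) ^ m * (P n).E ∧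
        P6Reg 0 r c C 1 ((P n).Al ((P n).d ^ 2)) := by
  have hc := fll_C_ok hT hm0 hm
  obtain ⟨cl, Ch, hcl, hlt, hX⟩ := exit_prop (fllC m T) hc
  refine ⟨cl, Ch, hcl, hlt.le, fun P ε hn hPm hu0 hok hd hε0 hε => ?_⟩
  rw [aq_eventually_iff_ultra]
  intro U hU
  set D : ℕ → P6D := fun n => fllD (P n) n m T (ε n) with hD
  have hseq : P6Seq U (fllC m T) D := fll_seq hT hU hn hPm hu0 hok hd hε0 hε
  have hokU : ∀ᶠ n in U, (P n).Ok 1 1 := hU hok
  have hdU : Tendsto (fun n => (P n).d ^ 2) U (𝓝 (0 ^ 2)) := (hd.mono_left hU).pow 2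
  have hd4 : ∀ᶠ n in U, (P n).d ^ 2 ≤ 1 / 4 :=
    (hdU.eventually (gt_mem_nhds (show (0:ℝ) ^ 2 < 1 / 4 by norm_num))).mono fun n h => h.le
  have hε4 : ∀ᶠ n in U, ε n ≤ 1 / 4 := by
    filter_upwards [aq_o_bound (hε.mono hU) (Eventually.of_forall fun n => sq_nonneg _) (show (0:ℝ) < 1 / 4 by norm_num), hokU]
      with n h1 h2
    have a1 := cm_a_pos one_pos h2
    have a2 := (cm_a_le_d one_pos h2).trans h2.d1
    have : (P n).a ^ 2 ≤ 1 := by nlinarith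
    have := le_abs_self (ε n)
    linarith
  have hord : ∀ᶠ n in U, (D n).Ord := by
    filter_upwards [hokU, hd4, hε4] with n h1 h2 h3
    exact fll_ord h1 (hu0 n) (hε0 n) (by linarith)
  have hj0 : ∀ᶠ n in U, (0:ℝ) ≤ (fun _ : ℕ => (0:ℝ)) n ∧ (fun _ : ℕ => (0:ℝ)) n ≤ (D n).P.u0 :=
    Eventually.of_forall fun n => ⟨le_rfl, (hu0 n).ge⟩
  have hmarg : ∀ᶠ n in U, ∀ l s, 0 < l → l ≤ (D n).P.d ^ 2 → (D n).P.Fe s →
      P6Marg ((D n).Pb l s) ((fun _ : ℕ => (0:ℝ)) n) (1 / 2) ∧ P6Bd ((D n).Pb l s) ((D n).Ph l s) (T + 1) := by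
    filter_upwards [hokU, hd4, hε4] with n h1 h2 h3 l s hl0 hl hs
    exact fll_marg h1 (hu0 n) hT (hε0 n) h3 h2 hl0.le hl hs
  have hK : T + 1 + 1 ≤ (fllC m T).K := by show T + 1 + 1 ≤ T + 2; linarith
  -- the error bound
  have herr := hX.error U (1 / 2) (T + 1) D (fun _ => 0) (by norm_num) hK hseq hord hj0 hmarg
  -- a minimiser at the final strength
  have hex : ∀ᶠ n in U, ∃ r, (D n).IsMin (fun n => skCPr n 1) ((D n).P.d ^ 2) r := by
    filter_upwards [exit_p6_min (fllC m T) hc U D hseq, hord] with n h1 h2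
    exact h1 _ (sq_nonneg _) le_rfl (h2.2 _ (sq_nonneg _) le_rfl)
  obtain ⟨r, hr⟩ := hex.choice
  have hlam : ∀ᶠ n in U, 0 < (D n).P.d ^ 2 ∧ (D n).P.d ^ 2 ≤ (D n).P.d ^ 2 :=
    hokU.mono fun n h => ⟨by have : 0 < (P n).d := h.d0; show 0 < (P n).d ^ 2; positivity, le_rfl⟩
  have hprof := hX.profile U (1 / 2) (T + 1) D (fun n => (D n).P.d ^ 2) r (fun _ => 0) (by norm_num) hK hseq hlam
    (hord.mono fun n h => h.2 _ (sq_nonneg _) le_rfl) hr hj0
    (by filter_upwards [hmarg, hlam, hr] with n h1 h2 h3; exact (h1 _ _ h2.1 h2.2 h3.1).1)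
    (by filter_upwards [hmarg, hlam, hr] with n h1 h2 h3; exact (h1 _ _ h2.1 h2.2 h3.1).2)
  filter_upwards [herr, hr, hprof, hord, hokU] with n h1 h2 h3 h4 h5
  refine ⟨r n, h2.1, h4.2 _ (sq_nonneg _) le_rfl (r n) h2.1, ?_, fun u g1 g2 _ => h3 u (by rwa [one_mul] at g1) g2⟩
  refine (h1 _ _ (sq_nonneg _) le_rfl h2).2.trans ?_
  have hN : (D n).P.N = (n : ℝ) := by show (((P n).n : ℕ) : ℝ) = n; rw [hn]
  have hdl : (D n).P.dl = m / 10000 := by show (P n).m / 10000 = m / 10000; rw [hPm]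
  rw [hN, hdl]
  have hn1 : (1:ℝ) ≤ (n : ℝ) := by
    have := cm_N_ge h5
    have e : (P n).N = (n : ℝ) := hN
    rw [e] at this; linarith
  exact mul_le_mul_of_nonneg_right (Real.rpow_le_rpow_of_exponent_le hn1 (by linarith)) (cm_E_pos one_pos h5).le

end

/-! ## the two families of PE Sec. 7.1 -/

theorem fll_S_tendsto {m : ℝ} (hm : m ≤ 1 / 300) : Tendsto (fun n : ℕ => flS n m) atTop (𝓝 0) := by
  have h : Tendsto (fun n : ℕ => (n : ℝ) ^ (-((1 / 6 : ℝ) - 5 * m))) atTop (𝓝 0) :=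
    (tendsto_rpow_neg_atTop (by linarith : (0:ℝ) < 1 / 6 - 5 * m)).comp tendsto_natCast_atTop_atTop
  refine h.congr fun n => ?_
  unfold flS; congr 1; ring

theorem fll_DN_tendsto {m : ℝ} (hm : m ≤ 1 / 300) : Tendsto (fun n : ℕ => flDN n m) atTop (𝓝 0) := by
  have h : Tendsto (fun n : ℕ => (n : ℝ) ^ (-((1 / 6 : ℝ) - 25 * m))) atTop (𝓝 0) :=
    (tendsto_rpow_neg_atTop (by linarith : (0:ℝ) < 1 / 6 - 25 * m)).comp tendsto_natCast_atTop_atTop
  refine h.congr fun n => ?_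
  unfold flDN; congr 1; ring

/-- **Prop 6.6 for the family (L)** = `fl_link_L` -/
theorem fll_link_L {T : ℝ} (hT : 1 < T) : ∃ m0 : ℝ, 0 < m0 ∧ ∀ m : ℝ, 0 < m → m < m0 →
    ∃ c C : ℝ, 0 < c ∧ c ≤ C ∧ ∀ᶠ n : ℕ in atTop, FlImpL n m T c C := by
  refine ⟨1 / 300, by norm_num, fun m hm0 hm => ?_⟩
  obtain ⟨c, C, hc, hcC, h⟩ := fll_link hT hm0 (by linarith : m ≤ 1 / 100)
  refine ⟨c, C, hc, hcC, ?_⟩
  refine h (fun n => flCallL n m) flEL (fun _ => rfl) (fun _ => rfl) (fun _ => rfl)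
    ((flp_ev_ok hm0 hm.le).mono fun n h => h.1) (fll_S_tendsto hm.le) (fun n => Real.rpow_nonneg (Nat.cast_nonneg n) _) ?_
  refine aq_o_of_le fun δ hδ => ?_
  filter_upwards [flp_ev_const δ⁻¹ (4 * m) (by positivity), flp_ev_pos] with n h1 h2
  have e := flp_L_eps (n := n) (m := m) h2.1
  have hp : 0 < (n : ℝ) ^ (4 * m) := Real.rpow_pos_of_pos h2.1 _
  have h3 : (n : ℝ) ^ (-(4 * m)) ≤ δ := by
    rw [Real.rpow_neg h2.1.le]
    have := inv_anti₀ (by positivity) h1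
    rwa [inv_inv] at this
  unfold flEL
  rw [abs_of_nonneg (Real.rpow_nonneg h2.1.le _), e]
  exact mul_le_mul_of_nonneg_right h3 (sq_nonneg _)

/-- **Prop 6.6 for the family (U)** = `fl_link_U` -/
theorem fll_link_U {T : ℝ} (hT : 1 < T) : ∃ m0 : ℝ, 0 < m0 ∧ ∀ m : ℝ, 0 < m → m < m0 →
    ∃ c C : ℝ, 0 < c ∧ c ≤ C ∧ ∀ᶠ n : ℕ in atTop, FlImpU n m T c C := by
  refine ⟨1 / 300, by norm_num, fun m hm0 hm => ?_⟩
  obtain ⟨c, C, hc, hcC, h⟩ := fll_link hT hm0 (by linarith : m ≤ 1 / 100)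
  refine ⟨c, C, hc, hcC, ?_⟩
  exact h (fun n => flCallU n m) (fun _ => 0) (fun _ => rfl) (fun _ => rfl) (fun _ => rfl)
    ((flp_ev_ok hm0 hm.le).mono fun n h => h.2.1) (fll_DN_tendsto hm.le) (fun _ => le_rfl) (isLittleO_zero _ _)

end

end Claimed.Agent.R286
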