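import Claimed.Agent.R286.Fl.Chord
import Claimed.Agent.R286.Fl.Defs
import Claimed.Agent.R286.Fl.Par
import Claimed.Agent.R286.Cmp.Fwd
import Claimed.Agent.R286.Exit.Prop

/-!
# Row 286 (S0533), PE Section 7, file Fl/Low : the lower comparison (30), the initial upper comparison, the links (L), (U) to PE Sec. 6      (owner helper49, co-architect of helper196; prefix `flo_`)

source: PE fluctuations.tex l.102-170.      Everything is PROVED (from `Fl/Chord.lean`, i.e. from the exits of the clock API).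
* `flo_chordG`     the chord comparison (PE Lemma 7.1) with a majorant `G ≥ c²/α` of the chord penalty (no measurability question for `c²/α`)
* `flo_r_mono`     a feasible quantile is nondecreasing
* `flo_low_gen`    all-mass call, endpoint `p(ε)`: `p(0) + c² ε s³/64 ≤ F_λ(r)` if `r ≥ c u` and `e(r) ≥ ε` on `[s/2,s)`
* `flo_ini_gen`    all-mass call, endpoint `p(0)`: `p(ε₀) ≤ F_λ(r) + ε₀ R² s/2` if `r ≤ R` and `e(r) ≥ 2ε₀` on `[0,s)`
* `flo_low_fix`    `FlImpL n m T c C` ⟹ (30) at the size `n`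
* `flo_ini_fix`    `FlImpU n m T c C` ⟹ the initial upper comparison at the size `n`
* `floC T m`, `flo_C_ok`      the record of constants of the two all-mass comparisons
* `flo_fam`        every changed path of an all-mass call is admissible, with margin and clock bound;      `flo_seq` : `P6Seq` along every ultrafilter `U ≤ atTop`
* `flo_link_gen`, **`flo_link_L`**, **`flo_link_U`**      eventually `FlImpL`, `FlImpU`, from `hX : P6Exit flFn (floC T m) cl Ch` (`exit_prop`) and `hMin : P6ImpMin flFn (floC T m)` (`exit_p6_min`)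
* **`flo_exit_L`**, **`flo_exit_U`**      = `fl_link_L`, `fl_link_U` of `Fl/Contract.lean`, verbatim
-/

set_option autoImplicit false

namespace Claimed.Agent.R286

open MeasureTheory Filter Topology Set

/-- completion of the square -/
theorem flo_pt {a c S : ℝ} (ha : 0 < a) : -(S ^ 2 * a) + 2 * (S * c) ≤ c ^ 2 / a := by
  have h6 : 0 ≤ (a * S - c) ^ 2 / a := by positivity
  have h7 : (a * S - c) ^ 2 / a = S ^ 2 * a - 2 * (S * c) + c ^ 2 / a := by
    field_simp
    ring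
  rw [h7] at h6
  linarith

/-- **PE Lemma 7.1 (chord comparison), majorant form**.   TEX[PE:fl:chord] -/
theorem flo_chordG {n : ℕ} (hn : 0 < n) {b h b' h' G : ℝ → ℝ} (A0 : CkAdm 1 b h) (A1 : CkAdm 1 b' h')
    (hG : IntervalIntegrable G volume 0 1)
    (hpt : ∀ u ∈ Icc (0 : ℝ) 1, 0 ≤ b' u - b u ∧ ∀ S : ℝ, 0 ≤ S → -(S ^ 2 * (b' u - b u)) + 2 * (S * (h u - h' u)) ≤ G u) :
    skCPr n 1 b' h' ≤ skCPr n 1 b h + (1 / 4) * ∫ u in (0 : ℝ)..1, G u := by
  obtain ⟨θ, hθ, he⟩ := flq_mvt hn one_pos A0 A1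
  have hθ' := Ioo_subset_Icc_self hθ
  have A := flq_seg_adm A0 A1 hθ'
  obtain ⟨i1, i2⟩ := flq_dpr hn one_pos A0 A1 hθ'
  have key : ckDPr n 1 b h b' h' θ ≤ (1 / 4) * ∫ u in (0 : ℝ)..1, G u := by
    unfold ckDPr
    rw [← intervalIntegral.integral_const_mul, ← intervalIntegral.integral_const_mul, ← intervalIntegral.integral_const_mul,
      ← intervalIntegral.integral_sub (i1.const_mul _) (i2.const_mul _)]
    refine intervalIntegral.integral_mono_on zero_le_one ((i1.const_mul _).sub (i2.const_mul _)) (hG.const_mul _) fun u hu => ?_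
    obtain ⟨p1, p2⟩ := hpt u hu
    obtain ⟨s0, s1, -⟩ := flq_SB hn one_pos A hu
    have h4 := p2 _ s0
    have h5 := mul_le_mul_of_nonneg_right s1 p1
    linarith
  linarith

/-- the integral of a step -/
theorem flo_ind_int {α β : ℝ} (K : ℝ) (h0 : 0 ≤ α) (hαβ : α ≤ β) (h1 : β ≤ 1) :
    IntervalIntegrable ((Ico α β).indicator fun _ => K) volume 0 1 ∧ ∫ u in (0 : ℝ)..1, (Ico α β).indicator (fun _ => K) u = K * (β - α) := by
  constructor
  · rw [intervalIntegrable_iff_integrableOn_Ioc_of_le zero_le_one]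
    exact (integrableOn_const (by simp)).indicator measurableSet_Ico
  · rw [intervalIntegral.integral_of_le zero_le_one, ← integral_Icc_eq_integral_Ioc, setIntegral_indicator measurableSet_Ico,
      inter_eq_self_of_subset_right (show Ico α β ⊆ Icc 0 1 from fun x hx => ⟨h0.trans hx.1, hx.2.le.trans h1⟩), setIntegral_const,
      Real.volume_real_Ico_of_le hαβ, smul_eq_mul, mul_comm]

/-- a feasible quantile is nondecreasing -/
theorem flo_r_mono {P : CmCall} (q : CmQ P) : MonotoneOn q.r (Icc P.u0 1) := by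
  intro u hu v hv huv
  by_contra hlt
  rw [not_le] at hlt
  have h1 := q.r_mem u hu
  have h2 := q.r_mem v hv
  have h3 := q.lo (q.r v) (q.r u) h2.1 hlt.le h1.2
  rw [q.al_r u hu, q.al_r v hv] at h3
  have h4 : 0 ≤ ∫ t in (q.r v)..(q.r u), P.k t := intervalIntegral.integral_nonneg hlt.le fun t _ =>
    div_nonneg (mul_nonneg (Real.rpow_nonneg (Nat.cast_nonneg _) _) (sq_nonneg _)) (sq_nonneg _)
  have h5 : u = v := by linarith
  subst h5
  exact lt_irrefl _ hlt

/-- the density of the penalty of (6) is integrable -/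
theorem flo_pen_int {P : CmCall} (hu0 : P.u0 = 0) (hrm : 0 ≤ P.rmin) (hd : 0 < P.d) {lam : ℝ} (hl : 0 ≤ lam) {r : ℝ → ℝ} (hr : P.Fe r) :
    IntervalIntegrable (fun u => P.e lam (r u) * r u ^ 2) volume 0 1 := by
  obtain ⟨q, rfl⟩ := hr
  refine MonotoneOn.intervalIntegrable ?_
  rw [uIcc_of_le zero_le_one]
  intro u hu v hv huv
  have hu' : u ∈ Icc P.u0 1 := by rw [hu0]; exact hu
  have hv' : v ∈ Icc P.u0 1 := by rw [hu0]; exact hv
  have h1 := cm_rre_mono (P := P) hd hl (a := q.r u) (hrm.trans (q.r_mem u hu').1) (b := q.r v) (hrm.trans (q.r_mem v hv').1)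
    (flo_r_mono q hu' hv' huv)
  simp only at h1 ⊢
  linarith

/-- the all-mass instance with the endpoint of `p(ε)`   (`flDL n m T = floD (flCallL n m) (flS n m) T (flEL n)`, `flDU n m T = floD (flCallU n m) (flS n m) T 0`, by `rfl`) -/
noncomputable def floD (P : CmCall) (s T ε : ℝ) : P6D := ⟨P, T, flqB s T ε, fun _ => 0⟩

theorem flo_eqns_cite : True := by
  have := @floD.eq_1
  trivial

theorem flo_Pb_eq {P : CmCall} (hu0 : P.u0 = 0) (s T ε lam : ℝ) (r : ℝ → ℝ) {u : ℝ} (hu : 0 ≤ u) :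
    (floD P s T ε).Pb lam r u = flqB s T ε u - P.e lam (r u) := by
  simp [P6D.Pb, floD, hu0, hu]

theorem flo_Ph_eq {P : CmCall} (hu0 : P.u0 = 0) (s T ε lam : ℝ) (r : ℝ → ℝ) {u : ℝ} (hu : 0 ≤ u) :
    (floD P s T ε).Ph lam r u = P.e lam (r u) * r u := by
  simp [P6D.Ph, floD, hu0, hu]

theorem flo_obj_eq {P : CmCall} (hu0 : P.u0 = 0) (s T ε lam : ℝ) (r : ℝ → ℝ) :
    (floD P s T ε).obj flFn lam r = skCPr P.n 1 ((floD P s T ε).Pb lam r) ((floD P s T ε).Ph lam r)
      + (1 / 4) * ∫ u in (0 : ℝ)..1, P.e lam (r u) * r u ^ 2 := by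
  simp [P6D.obj, P6D.pen, floD, hu0, flFn]

/-- **the lower comparison at one size** (PE l.125-140): chord from the changed path of `p(ε)` to the endpoint of `p(0)`.   TEX[PE:fl:chord] -/
theorem flo_low_gen {P : CmCall} (hn : 0 < P.n) (hu0 : P.u0 = 0) (hrm : 0 ≤ P.rmin) (hd : 0 < P.d) {T ε s lam c : ℝ} {r : ℝ → ℝ}
    (hl : 0 < lam) (hε : 0 ≤ ε) (hεT : ε ≤ T) (hs : 0 ≤ s) (hs1 : s ≤ 1) (hc : 0 ≤ c) (hr : P.Fe r)
    (adm : P6Adm ((floD P s T ε).Pb lam r) ((floD P s T ε).Ph lam r))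
    (hreg : ∀ u, s / 2 ≤ u → u < s → c * u ≤ r u) (he : ∀ u, s / 2 ≤ u → u < s → ε ≤ P.e lam (r u)) :
    skCPr P.n 1 (flqB s T 0) (fun _ => 0) + c ^ 2 / 64 * ε * s ^ 3 ≤ (floD P s T ε).obj flFn lam r := by
  set K : ℝ := c ^ 2 * ε * s ^ 2 / 8 with hK
  obtain ⟨j1, j2⟩ := flo_ind_int K (by linarith : (0 : ℝ) ≤ s / 2) (by linarith : s / 2 ≤ s) hs1
  have i1 := flo_pen_int hu0 hrm hd hl.le hr
  have key := flo_chordG hn (b := (floD P s T ε).Pb lam r) (h := (floD P s T ε).Ph lam r) (b' := flqB s T 0) (h' := fun _ => 0)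
    (G := fun u => P.e lam (r u) * r u ^ 2 - (Ico (s / 2) s).indicator (fun _ => K) u) adm (flq_B_adm le_rfl (hε.trans hεT)) (i1.sub j1) ?_
  · rw [intervalIntegral.integral_sub i1 j1, j2] at key
    rw [flo_obj_eq hu0]
    have e1 : K * (s - s / 2) = c ^ 2 / 16 * ε * s ^ 3 := by rw [hK]; ring
    rw [e1] at key
    linarith
  · intro u hu
    rw [flo_Pb_eq hu0 _ _ _ _ _ hu.1, flo_Ph_eq hu0 _ _ _ _ _ hu.1]
    have hE : 0 < P.e lam (r u) := cm_e_pos P hl _
    set E := P.e lam (r u) with hEdef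
    set R := r u with hR
    by_cases h1 : u < s
    · have e1 : flqB s T 0 u - (flqB s T ε u - E) = ε + E := by simp [flqB, h1]; ring
      rw [e1]
      refine ⟨by linarith, fun S _ => ?_⟩
      have h2 := flo_pt (a := ε + E) (c := E * R) (S := S) (by linarith)
      have e2 : E * R - 0 = E * R := by ring
      rw [e2]
      refine h2.trans ?_
      rw [div_le_iff₀ (by linarith)]
      by_cases h3 : s / 2 ≤ u
      · rw [indicator_of_mem (show u ∈ Ico (s / 2) s from ⟨h3, h1⟩)]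
        have h4 : ε ≤ E := he u h3 h1
        have h5 : c * (s / 2) ≤ R := (mul_le_mul_of_nonneg_left h3 hc).trans (hreg u h3 h1)
        have h6 : (c * (s / 2)) ^ 2 ≤ R ^ 2 := pow_le_pow_left₀ (by positivity) h5 2
        have h7 : K ≤ ε * R ^ 2 / 2 := by
          rw [hK]
          nlinarith [mul_le_mul_of_nonneg_left h6 hε]
        have h8 : (E * R ^ 2 - ε * R ^ 2 / 2) * (ε + E) ≤ (E * R ^ 2 - K) * (ε + E) :=
          mul_le_mul_of_nonneg_right (by linarith) (by linarith)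
        refine le_trans ?_ h8
        nlinarith [mul_nonneg (mul_nonneg hε (sq_nonneg R)) (sub_nonneg.2 h4)]
      · rw [indicator_of_notMem (fun h => h3 h.1)]
        nlinarith [mul_nonneg (mul_nonneg hε (sq_nonneg R)) hE.le]
    · have e1 : flqB s T 0 u - (flqB s T ε u - E) = E := by simp [flqB, h1]
      rw [e1, indicator_of_notMem (fun h => h1 h.2)]
      refine ⟨hE.le, fun S _ => ?_⟩
      have h2 := flo_pt (a := E) (c := E * R) (S := S) hE
      have e2 : E * R - 0 = E * R := by ring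
      have e3 : (E * R) ^ 2 / E = E * R ^ 2 := by field_simp
      rw [e2]
      rw [e3] at h2
      linarith

/-- **the initial upper comparison at one size** (PE l.148-166): chord from the changed path of `p(0)` to the endpoint of `p(ε₀)`.   TEX[PE:fl:chord] -/
theorem flo_ini_gen {P : CmCall} (hn : 0 < P.n) (hu0 : P.u0 = 0) (hrm : 0 ≤ P.rmin) (hd : 0 < P.d) {T ε s lam Rm : ℝ} {r : ℝ → ℝ}
    (hl : 0 < lam) (hε : 0 ≤ ε) (hεT : ε ≤ T) (hs : 0 ≤ s) (hs1 : s ≤ 1) (hr : P.Fe r)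
    (adm : P6Adm ((floD P s T 0).Pb lam r) ((floD P s T 0).Ph lam r))
    (hreg : ∀ u, 0 ≤ u → u < s → |r u| ≤ Rm) (he : ∀ u, 0 ≤ u → u < s → 2 * ε ≤ P.e lam (r u)) :
    skCPr P.n 1 (flqB s T ε) (fun _ => 0) ≤ (floD P s T 0).obj flFn lam r + ε * Rm ^ 2 * s / 2 := by
  set K : ℝ := 2 * ε * Rm ^ 2 with hK
  obtain ⟨j1, j2⟩ := flo_ind_int K le_rfl hs hs1
  have i1 := flo_pen_int hu0 hrm hd hl.le hr
  have key := flo_chordG hn (b := (floD P s T 0).Pb lam r) (h := (floD P s T 0).Ph lam r) (b' := flqB s T ε) (h' := fun _ => 0)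
    (G := fun u => P.e lam (r u) * r u ^ 2 + (Ico 0 s).indicator (fun _ => K) u) adm (flq_B_adm hε hεT) (i1.add j1) ?_
  · rw [intervalIntegral.integral_add i1 j1, j2] at key
    rw [flo_obj_eq hu0]
    rw [hK] at key
    linarith
  · intro u hu
    rw [flo_Pb_eq hu0 _ _ _ _ _ hu.1, flo_Ph_eq hu0 _ _ _ _ _ hu.1]
    have hE : 0 < P.e lam (r u) := cm_e_pos P hl _
    set E := P.e lam (r u) with hEdef
    set R := r u with hR
    have e2 : E * R - 0 = E * R := by ring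
    rw [e2]
    by_cases h1 : u < s
    · have e1 : flqB s T ε u - (flqB s T 0 u - E) = E - ε := by simp [flqB, h1]
      have h4 : 2 * ε ≤ E := he u hu.1 h1
      have h5 : R ^ 2 ≤ Rm ^ 2 := sq_le_sq' (by linarith [abs_le.1 (hreg u hu.1 h1)]) (abs_le.1 (hreg u hu.1 h1)).2
      rw [e1, indicator_of_mem (show u ∈ Ico 0 s from ⟨hu.1, h1⟩)]
      refine ⟨by linarith, fun S _ => ?_⟩
      have h2 := flo_pt (a := E - ε) (c := E * R) (S := S) (by linarith)
      refine h2.trans ?_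
      rw [div_le_iff₀ (by linarith), hK]
      have h6 : ε * E * R ^ 2 ≤ ε * (2 * (E - ε)) * Rm ^ 2 :=
        mul_le_mul (mul_le_mul_of_nonneg_left (by linarith) hε) h5 (sq_nonneg _) (mul_nonneg hε (by linarith))
      nlinarith
    · have e1 : flqB s T ε u - (flqB s T 0 u - E) = E := by simp [flqB, h1]
      rw [e1, indicator_of_notMem (fun h => h1 h.2)]
      refine ⟨hE.le, fun S _ => ?_⟩
      have h2 := flo_pt (a := E) (c := E * R) (S := S) hE
      have e3 : (E * R) ^ 2 / E = E * R ^ 2 := by field_simp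
      rw [e3] at h2
      linarith

theorem flo_S_pos {n : ℕ} (hn : 0 < n) (m : ℝ) : 0 < flS n m := Real.rpow_pos_of_pos (by exact_mod_cast hn) _

theorem flo_DN_pos {n : ℕ} (hn : 0 < n) (m : ℝ) : 0 < flDN n m := Real.rpow_pos_of_pos (by exact_mod_cast hn) _

theorem flo_EL_pos {n : ℕ} (hn : 0 < n) : 0 < flEL n := Real.rpow_pos_of_pos (by exact_mod_cast hn) _

theorem flo_E0_pos {n : ℕ} (hn : 0 < n) (m : ℝ) : 0 < flE0 n m := Real.rpow_pos_of_pos (by exact_mod_cast hn) _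

/-- **(30) at one size**: `c² ε s³/64 - n^m E ≤ p(ε) - p(0)`, `ε = n^(-1/3)`.   TEX[PE:fl:chord] -/
theorem flo_low_fix {n : ℕ} {m T c C : ℝ} (hn : 0 < n) (hc : 0 ≤ c) (hC : 0 ≤ C) (hεT : flEL n ≤ T) (hs1 : flS n m ≤ 1)
    (hAl : (flCallL n m).Al (flS n m ^ 2) ≤ flS n m / 2) (he : flEL n ≤ flS n m ^ 2 * cmF C) (hI : FlImpL n m T c C) :
    c ^ 2 / 64 * flEL n * flS n m ^ 3 - (n : ℝ) ^ m * (flCallL n m).E ≤ flP n m T (flEL n) - flP n m T 0 := by
  obtain ⟨r, hr, adm, herr, hreg⟩ := hI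
  have hs0 := flo_S_pos hn m
  have hd : 0 < (flCallL n m).d := hs0
  have key := flo_low_gen (P := flCallL n m) (T := T) (ε := flEL n) (s := flS n m) (lam := flS n m ^ 2) (c := c) (r := r)
    hn rfl le_rfl hd (by positivity) (flo_EL_pos hn).le hεT hs0.le hs1 hc hr adm
    (fun u h1 h2 => (hreg u (by linarith) (by linarith) (by linarith)).1) (fun u h1 h2 => ?_)
  · have e1 : (flDL n m T).err flFn (flS n m ^ 2) r = (floD (flCallL n m) (flS n m) T (flEL n)).obj flFn (flS n m ^ 2) r - flP n m T (flEL n) := rfl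
    have e2 : flP n m T 0 = skCPr (flCallL n m).n 1 (flqB (flS n m) T 0) fun _ => 0 := rfl
    rw [e1] at herr
    rw [e2]
    linarith
  · have h3 : r u ≤ C * flS n m := (hreg u (by linarith) (by linarith) (by linarith)).2.trans (mul_le_mul_of_nonneg_left h2.le hC)
    have h4 := cm_e_anti (P := flCallL n m) hd (lam := flS n m ^ 2) (by positivity) h3
    have e3 : (flCallL n m).e (flS n m ^ 2) (C * flS n m) = flS n m ^ 2 * cmF C := by
      have : flS n m ^ 2 * (C * flS n m) / (flCallL n m).d ^ 3 = C := by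
        change flS n m ^ 2 * (C * flS n m) / flS n m ^ 3 = C
        field_simp
      unfold CmCall.e
      rw [this]
    simp only at h4
    rw [e3] at h4
    exact he.trans h4

/-- **the initial upper comparison at one size**: `p(ε₀) - p(0) ≤ ε₀ (C s)² s/2 + n^m E`.   TEX[PE:fl:chord] -/
theorem flo_ini_fix {n : ℕ} {m T c C : ℝ} (hn : 0 < n) (hεT : flE0 n m ≤ T) (hs1 : flS n m ≤ 1)
    (hAl : (flCallU n m).Al (flDN n m ^ 2) ≤ flS n m) (hCs : C * flS n m ≤ flDN n m) (he : 2 * flE0 n m ≤ flDN n m ^ 2)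
    (hI : FlImpU n m T c C) :
    flP n m T (flE0 n m) - flP n m T 0 ≤ flE0 n m * (C * flS n m) ^ 2 * flS n m / 2 + (n : ℝ) ^ m * (flCallU n m).E := by
  obtain ⟨r, hr, adm, herr, hreg⟩ := hI
  have hs0 := flo_S_pos hn m
  have hd : 0 < (flCallU n m).d := flo_DN_pos hn m
  have hru : ∀ u, 0 ≤ u → u < flS n m → 0 ≤ r u ∧ r u ≤ C * flS n m := by
    intro u h1 h2
    obtain ⟨q, rfl⟩ := hr
    have hu' : u ∈ Icc (flCallU n m).u0 1 := ⟨h1, by linarith⟩
    have hs' : flS n m ∈ Icc (flCallU n m).u0 1 := ⟨hs0.le, hs1⟩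
    exact ⟨(q.r_mem u hu').1, (flo_r_mono q hu' hs' h2.le).trans (hreg _ (by linarith) hs1 hs0.le).2⟩
  have key := flo_ini_gen (P := flCallU n m) (T := T) (ε := flE0 n m) (s := flS n m) (lam := flDN n m ^ 2) (Rm := C * flS n m) (r := r)
    hn rfl le_rfl hd (pow_pos hd 2) (flo_E0_pos hn m).le hεT hs0.le hs1 hr adm
    (fun u h1 h2 => abs_le.2 ⟨by linarith [(hru u h1 h2).1, (hru u h1 h2).2], (hru u h1 h2).2⟩) (fun u h1 h2 => ?_)
  · have e1 : (flDU n m T).err flFn (flDN n m ^ 2) r = (floD (flCallU n m) (flS n m) T 0).obj flFn (flDN n m ^ 2) r - flP n m T 0 := rfl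
    have e2 : flP n m T (flE0 n m) = skCPr (flCallU n m).n 1 (flqB (flS n m) T (flE0 n m)) fun _ => 0 := rfl
    rw [e1] at herr
    rw [e2]
    linarith
  · have h3 : flDN n m ^ 2 * r u ≤ (flCallU n m).d ^ 3 := by
      change flDN n m ^ 2 * r u ≤ flDN n m ^ 3
      have : r u ≤ flDN n m := (hru u h1 h2).2.trans hCs
      calc flDN n m ^ 2 * r u ≤ flDN n m ^ 2 * flDN n m := mul_le_mul_of_nonneg_left this (sq_nonneg _)
        _ = flDN n m ^ 3 := by ring
    rw [cm_e_eq _ hd h3]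
    exact he

/-! ## the links to PE Sec. 6: eventually `FlImpL`, `FlImpU` -/

/-- the record of constants of the two all-mass comparisons: clock bound `T + 2`, margin `ρ = (T-1)/2`, temperature `T`, `cE = D0 = 1` -/
noncomputable def floC (T m : ℝ) : P6C := ⟨m, T + 2, (T - 1) / 2, T, 1, 1⟩

theorem flo_eqns_cite2 : True := by
  have := @floC.eq_1
  trivial

theorem flo_C_ok {T m : ℝ} (hT : 1 < T) (hm : 0 < m) (hm' : m ≤ 1 / 100) : (floC T m).Ok := by
  refine ⟨hm, hm', ?_, ?_, ?_, hT, one_pos, one_pos⟩ <;> simp only [floC] <;> linarith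

/-- every changed path of an all-mass call with endpoint `p(ε)` is admissible, with covariance margin `β` and clock bound `κ`   (PE l.108: "all matrix paths stay uniformly positive") -/
theorem flo_fam {P : CmCall} (hu0 : P.u0 = 0) (hrm : 0 ≤ P.rmin) (hd : 0 < P.d) {s T ε lam β κ : ℝ} (hε : 0 ≤ ε) (hl : 0 ≤ lam)
    (hβ : 0 ≤ β) (hb : ε + lam + β ≤ T) (hκ : T ≤ κ) {r : ℝ → ℝ} (hr : P.Fe r) :
    P6Adm ((floD P s T ε).Pb lam r) ((floD P s T ε).Ph lam r) ∧ P6Marg ((floD P s T ε).Pb lam r) 0 β ∧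
      P6Bd ((floD P s T ε).Pb lam r) ((floD P s T ε).Ph lam r) κ := by
  obtain ⟨q, rfl⟩ := hr
  have hmem : ∀ u ∈ Icc (0 : ℝ) 1, 0 ≤ q.r u ∧ q.r u ≤ 1 := fun u hu => by
    have := q.r_mem u (by rw [hu0]; exact hu)
    exact ⟨hrm.trans this.1, this.2⟩
  have hmono : ∀ u ∈ Icc (0 : ℝ) 1, ∀ v ∈ Icc (0 : ℝ) 1, u ≤ v → q.r u ≤ q.r v := fun u hu v hv huv =>
    flo_r_mono q (by rw [hu0]; exact hu) (by rw [hu0]; exact hv) huv
  have hB : ∀ u, T - ε ≤ flqB s T ε u ∧ flqB s T ε u ≤ T := fun u => by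
    unfold flqB
    split_ifs <;> constructor <;> linarith
  have hPb : ∀ u ∈ Icc (0 : ℝ) 1, β ≤ (floD P s T ε).Pb lam q.r u ∧ (floD P s T ε).Pb lam q.r u ≤ T := fun u hu => by
    rw [flo_Pb_eq hu0 _ _ _ _ _ hu.1]
    have h1 := cm_e_le P hl (q.r u)
    have h2 := cm_e_nonneg P hl (q.r u)
    have := hB u
    constructor <;> linarith
  have hPh : ∀ u ∈ Icc (0 : ℝ) 1, 0 ≤ (floD P s T ε).Ph lam q.r u ∧ (floD P s T ε).Ph lam q.r u ≤ lam := fun u hu => by
    rw [flo_Ph_eq hu0 _ _ _ _ _ hu.1]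
    have h1 := cm_e_le P hl (q.r u)
    have h2 := cm_e_nonneg P hl (q.r u)
    obtain ⟨h3, h4⟩ := hmem u hu
    constructor
    · positivity
    · nlinarith
  refine ⟨⟨⟨?_, ?_⟩, ⟨?_, ?_⟩⟩, ⟨?_, ?_⟩, ?_⟩
  · intro u hu v hv huv
    rw [flo_Pb_eq hu0 _ _ _ _ _ hu.1, flo_Pb_eq hu0 _ _ _ _ _ hv.1]
    have h1 := (flq_B_clk (a := 1) (s := s) hε (by linarith : ε ≤ T)).1 hu hv huv
    have h2 := cm_e_anti (P := P) hd hl (hmono u hu v hv huv)
    simp only at h2
    linarith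
  · exact hβ.trans (hPb 0 ⟨le_rfl, zero_le_one⟩).1
  · intro u hu v hv huv
    rw [flo_Ph_eq hu0 _ _ _ _ _ hu.1, flo_Ph_eq hu0 _ _ _ _ _ hv.1]
    have := cm_re_mono (P := P) hd hl (a := q.r u) (hmem u hu).1 (b := q.r v) (hmem v hv).1 (hmono u hu v hv huv)
    simp only at this
    linarith
  · exact (hPh 0 ⟨le_rfl, zero_le_one⟩).1
  · intro u h0 h1
    exact (hPb u ⟨h0, h1⟩).1
  · intro u v h0 h1
    exact absurd h1 (not_lt.2 h0)
  · intro u hu
    obtain ⟨a1, a2⟩ := hPb u hu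
    obtain ⟨b1, b2⟩ := hPh u hu
    exact ⟨abs_le.2 ⟨by linarith, by linarith⟩, abs_le.2 ⟨by linarith, by linarith⟩⟩

/-- **the sequence of all-mass instances `floD (P k) (s k) T (ε k)` satisfies the hypotheses of PE Sec. 6** along every ultrafilter `U ≤ atTop` -/
theorem flo_seq {T m : ℝ} (hT : 1 < T) {P : ℕ → CmCall} {s ε : ℕ → ℝ} {U : Ultrafilter ℕ} (hU : (U : Filter ℕ) ≤ atTop)
    (hPn : ∀ k, (P k).n = k) (hPm : ∀ k, (P k).m = m) (hPu : ∀ k, (P k).u0 = 0)
    (hok : ∀ᶠ k in atTop, (P k).Ok 1 1) (hd : ∀ᶠ k in atTop, (P k).d ^ 2 ≤ 1 / 4)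
    (hε0 : ∀ k, 0 ≤ ε k) (hε1 : ∀ᶠ k in atTop, ε k ≤ 1 / 4) (hε : ∀ c : ℝ, 0 < c → ∀ᶠ k in atTop, ε k ≤ c * (P k).a ^ 2) :
    P6Seq U (floC T m) fun k => floD (P k) (s k) T (ε k) where
  n_top := by
    have : (fun k => (floD (P k) (s k) T (ε k)).P.N) = fun k : ℕ => (k : ℝ) := by
      funext k
      simp [floD, CmCall.N, hPn]
    rw [this]
    exact tendsto_natCast_atTop_atTop.mono_left hU
  m_eq := Eventually.of_forall hPm
  ok := hok.filter_mono hU
  T_lim := tendsto_const_nhds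
  dT := by
    filter_upwards [hd.filter_mono hU] with k hk
    simp only [floD, floC]
    linarith
  u0_small := (Asymptotics.isLittleO_zero _ _).congr_left fun k => (hPu k).symm
  ep4 := by
    intro κ e hκ he
    have hκ0 : 0 < κ := by linarith
    filter_upwards [(hε (e / κ ^ 2) (by positivity)).filter_mono hU, hok.filter_mono hU] with k hk hok z u h1 _ _ _ _ _
    have ha := cm_a_pos one_pos hok
    have hz : 0 ≤ z := le_trans (by positivity) h1
    have h2 : ((P k).a / κ) ^ 2 ≤ z ^ 2 := pow_le_pow_left₀ (by positivity) h1 2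
    have h3 : ε k ≤ e * z ^ 2 := by
      calc ε k ≤ e / κ ^ 2 * (P k).a ^ 2 := hk
        _ = e * ((P k).a / κ) ^ 2 := by ring
        _ ≤ e * z ^ 2 := mul_le_mul_of_nonneg_left h2 he.le
    constructor
    · simp only [floD, flqB]
      split_ifs
      · rw [show T - ε k - T = -ε k by ring, abs_neg, abs_of_nonneg (hε0 k)]
        exact h3
      · simp only [sub_self, abs_zero]
        positivity
    · simp only [floD, abs_zero]
      positivity
  clk := by
    filter_upwards [hε1.filter_mono hU] with k hk u _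
    have h0 := hε0 k
    constructor
    · simp only [floD, flqB, floC]
      split_ifs <;> rw [abs_le] <;> constructor <;> linarith
    · simp only [floD, floC, abs_zero]
      linarith
  mono := by
    filter_upwards [hε1.filter_mono hU] with k hk
    constructor
    · have := (flq_B_clk (a := 1) (s := s k) (T := T) (hε0 k) (by linarith)).1
      simpa [floD, hPu] using this
    · exact fun _ _ _ _ _ => le_rfl

/-- **PE Prop. 6.6 for a sequence of all-mass comparisons with endpoint `p(ε_k)`**: eventually there is a (minimising) final path with the error bound and the profile.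
`hX` = the exits of PE Sec. 6 (`exit_prop`), `hMin` = attainment (`exit_p6_min`), both at the record `floC T m`.   TEX[PE:reg:finite-propagation] -/
theorem flo_link_gen {T m cl Ch : ℝ} (hT : 1 < T) (hX : P6Exit flFn (floC T m) cl Ch) (hMin : P6ImpMin flFn (floC T m))
    {P : ℕ → CmCall} {s ε : ℕ → ℝ} (hPn : ∀ k, (P k).n = k) (hPm : ∀ k, (P k).m = m) (hPu : ∀ k, (P k).u0 = 0) (hPr : ∀ k, (P k).rmin = 0)
    (hok : ∀ᶠ k in atTop, (P k).Ok 1 1) (hd : ∀ᶠ k in atTop, (P k).d ^ 2 ≤ 1 / 4)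
    (hε0 : ∀ k, 0 ≤ ε k) (hε1 : ∀ᶠ k in atTop, ε k ≤ 1 / 4) (hε : ∀ c : ℝ, 0 < c → ∀ᶠ k in atTop, ε k ≤ c * (P k).a ^ 2) :
    ∀ᶠ k in atTop, ∃ r : ℝ → ℝ, (P k).Fe r ∧
      P6Adm ((floD (P k) (s k) T (ε k)).Pb ((P k).d ^ 2) r) ((floD (P k) (s k) T (ε k)).Ph ((P k).d ^ 2) r) ∧
      (floD (P k) (s k) T (ε k)).err flFn ((P k).d ^ 2) r ≤ (P k).N ^ (20 * (P k).dl) * (P k).E ∧
      ∀ u, (P k).Al ((P k).d ^ 2) ≤ u → u ≤ 1 → cl * u ≤ r u ∧ r u ≤ Ch * u := by
  rw [aq_eventually_iff_ultra]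
  intro U hU
  set D : ℕ → P6D := fun k => floD (P k) (s k) T (ε k) with hD
  have seq : P6Seq U (floC T m) D := flo_seq hT hU hPn hPm hPu hok hd hε0 hε1 hε
  have hfam : ∀ᶠ k in U, ∀ l r, 0 ≤ l → l ≤ (D k).P.d ^ 2 → (D k).P.Fe r →
      P6Adm ((D k).Pb l r) ((D k).Ph l r) ∧ P6Marg ((D k).Pb l r) 0 (1 / 2) ∧ P6Bd ((D k).Pb l r) ((D k).Ph l r) (T + 1) := by
    filter_upwards [hok.filter_mono hU, hd.filter_mono hU, hε1.filter_mono hU] with k h1 h2 h3 l r hl0 hl1 hr
    have hl1' : l ≤ (P k).d ^ 2 := hl1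
    exact flo_fam (hPu k) (hPr k).ge h1.d0 (hε0 k) hl0 (by norm_num) (by linarith) (by linarith) hr
  have ord : ∀ᶠ k in U, (D k).Ord := by
    filter_upwards [hfam, hε1.filter_mono hU] with k h1 h2
    exact ⟨flq_B_adm (hε0 k) (by linarith), fun l hl0 hl1 r hr => (h1 l r hl0 hl1 hr).1⟩
  have j0 : ∀ᶠ k in U, (0 : ℝ) ≤ (fun _ : ℕ => (0 : ℝ)) k ∧ (fun _ : ℕ => (0 : ℝ)) k ≤ (D k).P.u0 :=
    Eventually.of_forall fun k => ⟨le_rfl, (hPu k).ge⟩
  have hK : (T + 1) + 1 ≤ (floC T m).K := by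
    simp only [floC]
    linarith
  have herr := hX.error U (1 / 2) (T + 1) D (fun _ => 0) (by norm_num) hK seq ord j0 (by
    filter_upwards [hfam] with k h1 l r hl0 hl1 hr
    exact (h1 l r hl0.le hl1 hr).2)
  have hex := hMin U D seq
  classical
  set r : ℕ → ℝ → ℝ := fun k => if h : ∃ r, (D k).IsMin flFn ((D k).P.d ^ 2) r then h.choose else fun _ => 0 with hr
  have hmin : ∀ᶠ k in U, (D k).IsMin flFn ((D k).P.d ^ 2) (r k) := by
    filter_upwards [hex, ord] with k h1 h2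
    have h3 := h1 _ (sq_nonneg _) le_rfl (h2.2 _ (sq_nonneg _) le_rfl)
    simp only [hr, dif_pos h3]
    exact h3.choose_spec
  have hprof := hX.profile U (1 / 2) (T + 1) D (fun k => (D k).P.d ^ 2) r (fun _ => 0) (by norm_num) hK seq
    (by filter_upwards [hok.filter_mono hU] with k h1 using ⟨pow_pos h1.d0 2, le_rfl⟩)
    (by filter_upwards [ord] with k h2 using h2.2 _ (sq_nonneg _) le_rfl)
    hmin j0
    (by filter_upwards [hfam, hmin] with k h1 h2 using (h1 _ _ (sq_nonneg _) le_rfl h2.1).2.1)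
    (by filter_upwards [hfam, hmin] with k h1 h2 using (h1 _ _ (sq_nonneg _) le_rfl h2.1).2.2)
  filter_upwards [hfam, hmin, herr, hprof] with k h1 h2 h3 h4
  exact ⟨r k, h2.1, (h1 _ _ (sq_nonneg _) le_rfl h2.1).1, (h3 _ _ (sq_nonneg _) le_rfl h2).2, h4⟩

theorem flo_slack {P : CmCall} (hN : 1 ≤ P.N) (hm : 0 ≤ P.m) (hE : 0 ≤ P.E) : P.N ^ (20 * P.dl) * P.E ≤ P.N ^ P.m * P.E := by
  refine mul_le_mul_of_nonneg_right (Real.rpow_le_rpow_of_exponent_le hN ?_) hE
  unfold CmCall.dl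
  linarith

/-- **Prop 6.6 for the family (L)**: eventually `FlImpL`   (`fl_link_L` of `Fl/Contract.lean`, with the exits of Sec. 6 as named hypotheses).   TEX[PE:reg:finite-propagation] -/
theorem flo_link_L {T m cl Ch : ℝ} (hT : 1 < T) (hm : 0 < m) (hm' : m ≤ 1 / 300) (hX : P6Exit flFn (floC T m) cl Ch)
    (hMin : P6ImpMin flFn (floC T m)) : ∀ᶠ n : ℕ in atTop, FlImpL n m T cl Ch := by
  have hok : ∀ᶠ n : ℕ in atTop, (flCallL n m).Ok 1 1 := (flp_ev_ok hm hm').mono fun n h => h.1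
  have key := flo_link_gen hT hX hMin (P := fun n => flCallL n m) (s := fun n => flS n m) (ε := fun n => flEL n)
    (fun _ => rfl) (fun _ => rfl) (fun _ => rfl) (fun _ => rfl) hok
    (by
      filter_upwards [flp_ev_S_le hm' (1 / 2) (by norm_num), flp_ev_pos] with n h hp
      have h0 : 0 < flS n m := flp_S_pos hp.1
      change flS n m ^ 2 ≤ 1 / 4
      nlinarith)
    (fun n => Real.rpow_nonneg (Nat.cast_nonneg n) _)
    (flp_ev_small (x := 1 / 3) (by norm_num) (by norm_num))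
    (fun c hc => by
      filter_upwards [flp_ev_small (x := 4 * m) (by linarith) hc, flp_ev_pos] with n h hp
      have e : flEL n = (n : ℝ) ^ (-(4 * m)) * (flCallL n m).a ^ 2 := flp_L_eps hp.1
      rw [e]
      exact mul_le_mul_of_nonneg_right h (sq_nonneg _))
  filter_upwards [key, flp_ev_pos, hok] with n hn hp hok
  obtain ⟨r, h1, h2, h3, h4⟩ := hn
  exact ⟨r, h1, h2, h3.trans (flo_slack hp.2 hm.le (cm_E_pos one_pos hok).le), fun u a b _ => h4 u ((one_mul _).symm.le.trans a) b⟩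

/-- **Prop 6.6 for the family (U)**: eventually `FlImpU`   (`fl_link_U` of `Fl/Contract.lean`, with the exits of Sec. 6 as named hypotheses).   TEX[PE:reg:finite-propagation] -/
theorem flo_link_U {T m cl Ch : ℝ} (hT : 1 < T) (hm : 0 < m) (hm' : m ≤ 1 / 300) (hX : P6Exit flFn (floC T m) cl Ch)
    (hMin : P6ImpMin flFn (floC T m)) : ∀ᶠ n : ℕ in atTop, FlImpU n m T cl Ch := by
  have hok : ∀ᶠ n : ℕ in atTop, (flCallU n m).Ok 1 1 := (flp_ev_ok hm hm').mono fun n h => h.2.1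
  have key := flo_link_gen hT hX hMin (P := fun n => flCallU n m) (s := fun n => flS n m) (ε := fun _ => 0)
    (fun _ => rfl) (fun _ => rfl) (fun _ => rfl) (fun _ => rfl) hok
    (by
      filter_upwards [flp_ev_small (x := 1 / 6 - 25 * m) (by linarith) (c := 1 / 2) (by norm_num), flp_ev_pos] with n h hp
      have h0 : 0 < flDN n m := flp_DN_pos hp.1
      have e : flDN n m = (n : ℝ) ^ (-(1 / 6 - 25 * m)) := by
        unfold flDN
        congr 1
        ring
      rw [← e] at h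
      change flDN n m ^ 2 ≤ 1 / 4
      nlinarith)
    (fun _ => le_rfl) (Eventually.of_forall fun _ => by norm_num)
    (fun c hc => Eventually.of_forall fun n => by positivity)
  filter_upwards [key, flp_ev_pos, hok] with n hn hp hok
  obtain ⟨r, h1, h2, h3, h4⟩ := hn
  exact ⟨r, h1, h2, h3.trans (flo_slack hp.2 hm.le (cm_E_pos one_pos hok).le), fun u a b _ => h4 u ((one_mul _).symm.le.trans a) b⟩

/-- **`fl_link_L` of `Fl/Contract.lean`, verbatim**: closed on `exit_prop` (PE Prop. 6.6) and `exit_p6_min` (PE Lemma 3.1).   TEX[PE:reg:finite-propagation] -/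
theorem flo_exit_L {T : ℝ} (hT : 1 < T) : ∃ m0 : ℝ, 0 < m0 ∧ ∀ m : ℝ, 0 < m → m < m0 →
    ∃ c C : ℝ, 0 < c ∧ c ≤ C ∧ ∀ᶠ n : ℕ in atTop, FlImpL n m T c C := by
  refine ⟨1 / 300, by norm_num, fun m hm0 hm => ?_⟩
  have hc := flo_C_ok hT hm0 (by linarith : m ≤ 1 / 100)
  obtain ⟨cl, Ch, h1, h2, hX⟩ := exit_prop (floC T m) hc
  exact ⟨cl, Ch, h1, h2.le, flo_link_L hT hm0 hm.le hX (exit_p6_min _ hc)⟩

/-- **`fl_link_U` of `Fl/Contract.lean`, verbatim**: closed on `exit_prop` and `exit_p6_min`.   TEX[PE:reg:finite-propagation] -/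
theorem flo_exit_U {T : ℝ} (hT : 1 < T) : ∃ m0 : ℝ, 0 < m0 ∧ ∀ m : ℝ, 0 < m → m < m0 →
    ∃ c C : ℝ, 0 < c ∧ c ≤ C ∧ ∀ᶠ n : ℕ in atTop, FlImpU n m T c C := by
  refine ⟨1 / 300, by norm_num, fun m hm0 hm => ?_⟩
  have hc := flo_C_ok hT hm0 (by linarith : m ≤ 1 / 100)
  obtain ⟨cl, Ch, h1, h2, hX⟩ := exit_prop (floC T m) hc
  exact ⟨cl, Ch, h1, h2.le, flo_link_U hT hm0 hm.le hX (exit_p6_min _ hc)⟩

end Claimed.Agent.R286
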