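import Claimed.Agent.R286.Fl.Defs
import Claimed.Agent.R286.Fl.Par
import Claimed.Agent.R286.Prof.Imports
import Claimed.Agent.R286.Exit.RigLin
import Claimed.Agent.R286.Exit.CmpRaw
import Claimed.Agent.R286.Brg.Osc

/-!
# Row 286 (S0533), PE Section 7, file Fl/Wall : LEMMA 7.2 (admissibility, unswept wall profile) AND LEMMA 7.3 (suppression of the low-group mean), UNIFORMLY IN THE WALL PARAMETERS
(owner helper54; head helper196; prefix `flh_`, types `Flh*`)      source: PE fluctuations.tex l.172-306.      TEX[PE:fl:wall-profile] TEX[PE:fl:low-mean]      NO OPEN LEAF IN THIS FILE.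

EXIT: `flh_link` = the statement `fl_link_H` of `Fl/Contract.lean`, from two supplies given as hypotheses: `pec_imports` (`PE/Chain.lean`) and `∀ c, c.Ok → PfImpCavOm c` (PE Prop 4.1, omitted lower cuts; owner helper185/223).
`flh_impH` = the same at a fixed `m` and a fixed record of constants.      CITED exits of other units: `p6_wall`, `p6_error`, `P6ImpMin` (Sec. 6), `exit_rig_lin` (PE Lemma 5.5), `exit_cmp_raw` (PE (12)).

(A) `flh_unif`      uniformisation: a statement which holds along every ultrafilter `U ≤ atTop` and every selection of parameters holds eventually, uniformly in the parameters ("choose a violating sequence").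
(B) `FlhW` = `(ε, θ, φ)`, `FlhW.Ok` (range `ε₀ ≤ ε < T`, `0 ≤ θ ≤ 1`, `φ` nondecreasing `[0,s] → [0,1]`), `flhD = p6Wall (flCallH n m) T ε θ φ` (`flDW` is the case `φ = ψ`: `flh_DW`), `FlhC c m T` (the record fits), `flh_wallSeq : P6WallSeq`.
(C) ONE SIZE (`FlhN n m T` = "n is large", `flh_ev_N`): `flh_fam` (every changed path is admissible; at `θ = 0` for every strength `0 ≤ λ ≤ d²`), `flh_bd0`, `flh_bd` (clocks `≤ T`), `flh_marg` (the two covariance alternatives `ε < T/4`, `ε ≥ T/4`, margin `T/8`), `flh_ord`.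
(D) `flh_seq : P6Seq`.
(E) UNIFORM IN `(ε, θ, φ)`: `flh_adm` (L7.2, 1st assertion), `flh_ex` (minimisers exist), `flh_profile` (L7.2, 2nd assertion: `c u ≤ r(u) ≤ C u` for `u ≥ A_{d²} = n^δ a = o(d)`), `flh_err` (`θ = 0`: `0 ≤ J_0(r) - p(ε) ≤ n^(20δ) E`).
(F) L7.3: `flh_dir` (direct test at `x = d`, `e(d) = d²`, `W = d`), `flh_inst` (the same in the vocabulary `CmI` of Sec. 3), `flh_at_b`, `flh_at_h` (clocks read after a low cut), `flh_alg` (algebra of (31)),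
    `flh_low`: `S_u ≤ n^m d³/ε` at every minimiser, after every low cut.      Only the ONE-SIDED second assertion of (31) is consumed by Lemma 7.4; sequence-dependent constants are absorbed by the slack `n^m`.
(G) `flh_psi_ok`, `flh_bareP`, `flh_impH`, `flhRec`, `flh_link`.
-/

set_option autoImplicit false

namespace Claimed.Agent.R286

open Filter Topology Set MeasureTheory Asymptotics

noncomputable section

/-! ### (A) uniformisation -/

/-- **uniformisation**: a statement which holds along every ultrafilter `U ≤ atTop` and every selection of parameters holds eventually, uniformly in the parameters -/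
theorem flh_unif {X : Type} (H Q : ℕ → X → Prop)
    (h : ∀ U : Ultrafilter ℕ, (U : Filter ℕ) ≤ atTop → ∀ x : ℕ → X, (∀ᶠ k in (U : Filter ℕ), H k (x k)) →
      ∀ᶠ k in (U : Filter ℕ), Q k (x k)) :
    ∀ᶠ n in atTop, ∀ x, H n x → Q n x := by
  rw [aq_eventually_iff_ultra]
  intro U hU
  by_contra hc
  have hc' : ∀ᶠ n in (U : Filter ℕ), ¬ ∀ x, H n x → Q n x := Ultrafilter.eventually_not.2 hc
  have hex : ∀ᶠ n in (U : Filter ℕ), ∃ x, H n x ∧ ¬ Q n x := by
    filter_upwards [hc'] with n hn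
    push Not at hn
    exact hn
  obtain ⟨n0, x0, -⟩ := hex.exists
  classical
  let x : ℕ → X := fun n => if hn : ∃ x, H n x ∧ ¬ Q n x then hn.choose else x0
  have hx : ∀ᶠ n in (U : Filter ℕ), H n (x n) ∧ ¬ Q n (x n) := by
    filter_upwards [hex] with n hn
    have : x n = hn.choose := dif_pos hn
    rw [this]
    exact hn.choose_spec
  have h1 := h U hU x (hx.mono fun _ h => h.1)
  obtain ⟨n, hn1, hn2⟩ := (h1.and hx).exists
  exact hn2.2 hn1

/-! ### (B) the wall parameters -/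

/-- the parameters of a wall: removed low covariance `ε`, sweep parameter `θ`, shape `φ` of the low field -/
structure FlhW where
  ε : ℝ
  θ : ℝ
  φ : ℝ → ℝ

/-- the range of the wall parameters at size `n` -/
structure FlhW.Ok (w : FlhW) (n : ℕ) (m T : ℝ) : Prop where
  ε_lo : flE0 n m ≤ w.ε
  ε_hi : w.ε < T
  θ_lo : 0 ≤ w.θ
  θ_hi : w.θ ≤ 1
  φ_mono : MonotoneOn w.φ (Icc 0 (flS n m))
  φ_mem : ∀ u ∈ Icc 0 (flS n m), 0 ≤ w.φ u ∧ w.φ u ≤ 1

/-- the instance of the high comparison with a wall -/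
def flhD (n : ℕ) (m T : ℝ) (w : FlhW) : P6D := p6Wall (flCallH n m) T w.ε w.θ w.φ

/-- the constants record fits the section: `m`, the constants `1, 1` of `CmCall.Ok`, the temperature -/
structure FlhC (c : P6C) (m T : ℝ) : Prop where
  ok : c.Ok
  m_eq : c.m = m
  m_le : m ≤ 1 / 300
  cE : c.cE = 1
  D0 : c.D0 = 1
  T_eq : c.Tinf = T
  K : c.Tinf + 2 ≤ c.K

variable {c : P6C} {m T : ℝ} {U : Ultrafilter ℕ} {w : ℕ → FlhW}

theorem FlhC.m_pos (h : FlhC c m T) : 0 < m := h.m_eq ▸ h.ok.m_pos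
theorem FlhC.T_gt (h : FlhC c m T) : 1 < T := h.T_eq ▸ h.ok.T_gt

theorem flh_cast_top (hU : (U : Filter ℕ) ≤ atTop) : Tendsto (fun k : ℕ => (k : ℝ)) U atTop :=
  tendsto_natCast_atTop_atTop.mono_left hU

/-- negative powers of `n` tend to zero -/
theorem flh_rp_zero (hU : (U : Filter ℕ) ≤ atTop) {x : ℝ} (hx : 0 < x) : Tendsto (fun k : ℕ => (k : ℝ) ^ (-x)) U (𝓝 0) :=
  (tendsto_rpow_neg_atTop hx).comp (flh_cast_top hU)

theorem flh_ev_pos (hU : (U : Filter ℕ) ≤ atTop) : ∀ᶠ k : ℕ in (U : Filter ℕ), (0 : ℝ) < (k : ℝ) ∧ (1 : ℝ) ≤ (k : ℝ) :=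
  hU flp_ev_pos

/-- `A = n^(-x) B` with `x > 0` gives `A = o(B)` -/
theorem flh_o_of_eq (hU : (U : Filter ℕ) ≤ atTop) {x : ℝ} (hx : 0 < x) {A B : ℕ → ℝ}
    (h : ∀ᶠ k : ℕ in (U : Filter ℕ), A k = (k : ℝ) ^ (-x) * B k) : A =o[(U : Filter ℕ)] B := by
  have h1 : (fun k : ℕ => (k : ℝ) ^ (-x) * B k) =o[(U : Filter ℕ)] B := by
    have := (isLittleO_one_iff ℝ).2 (flh_rp_zero hU hx)
    simpa using this.mul_isBigO (isBigO_refl B (U : Filter ℕ))
  exact h1.congr' (h.mono fun _ h => h.symm) EventuallyEq.rfl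

theorem flh_DH_zero (hU : (U : Filter ℕ) ≤ atTop) (hm' : m ≤ 1 / 300) : Tendsto (fun k : ℕ => flDH k m) U (𝓝 0) := by
  have := flh_rp_zero hU (x := 1 / 6 - 15 * m) (by linarith)
  refine this.congr fun k => ?_
  unfold flDH
  congr 1; ring

/-- the hypotheses of PE Cor. 6.7 hold along every selection of wall parameters -/
theorem flh_wallSeq (hc : FlhC c m T) (hU : (U : Filter ℕ) ≤ atTop) (hw : ∀ᶠ k in (U : Filter ℕ), (w k).Ok k m T) :
    P6WallSeq U c (fun k => flCallH k m) (fun _ => T) (fun k => (w k).ε) (fun k => (w k).θ) (fun k => (w k).φ) where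
  n_top := flh_cast_top hU
  m_eq := Eventually.of_forall fun _ => hc.m_eq.symm
  ok := by
    filter_upwards [hU (flp_ev_ok hc.m_pos hc.m_le)] with k hk
    rw [hc.cE, hc.D0]
    exact hk.2.2
  T_lim := hc.T_eq ▸ tendsto_const_nhds
  u0_small := flh_o_of_eq hU (x := 5 * m) (by linarith [hc.m_pos]) ((flh_ev_pos hU).mono fun k hk => flp_H_s hk.1)
  rmin_pos := (flh_ev_pos hU).mono fun k hk => flp_Rmin_pos hk.2 hc.m_pos.le
  d_small := flh_DH_zero hU hc.m_le
  d_ε := by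
    have h1 : (fun k : ℕ => flDH k m ^ 2) =o[(U : Filter ℕ)] (fun k : ℕ => flE0 k m) :=
      flh_o_of_eq hU (x := 10 * m) (by linarith [hc.m_pos]) ((flh_ev_pos hU).mono fun k hk => flp_H_dsq hk.1)
    refine h1.trans_isBigO (IsBigO.of_bound 1 ?_)
    filter_upwards [hw, flh_ev_pos hU] with k hk hp
    have h0 := flp_E0_pos (m := m) hp.1
    rw [Real.norm_eq_abs, Real.norm_eq_abs, abs_of_pos h0, abs_of_pos (lt_of_lt_of_le h0 hk.ε_lo), one_mul]
    exact hk.ε_lo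
  ε_rng := by
    filter_upwards [hw, flh_ev_pos hU] with k hk hp
    exact ⟨lt_of_lt_of_le (flp_E0_pos hp.1) hk.ε_lo, hk.ε_hi.le⟩
  θ_rng := hw.mono fun k hk => ⟨hk.θ_lo, hk.θ_hi⟩
  φ_ok := hw.mono fun k hk => ⟨hk.φ_mono, hk.φ_mem⟩


/-! ### (C) one size: admissibility, bounds, margins -/

/-- "`n` is large": the finitely many numerical inequalities used at one size -/
structure FlhN (n : ℕ) (m T : ℝ) : Prop where
  one_le : (1 : ℝ) ≤ (n : ℝ)
  ok : (flCallH n m).Ok 1 1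
  d_E0 : flDH n m ^ 2 ≤ flE0 n m
  d_T : flDH n m ^ 2 ≤ T / 8
  d_one : flDH n m ≤ 1
  rmin_d : flRmin n m ≤ flDH n m
  rmin_pos : 0 < flRmin n m
  s_d : flS n m ≤ flDH n m
  a_d : (flCallH n m).a ≤ flDH n m
  nE_d : (n : ℝ) * (flCallH n m).E ^ 2 ≤ flDH n m ^ 4
  Al_d : (flCallH n m).Al (flDH n m ^ 2) ≤ flDH n m

theorem flh_ev_N (hm : 0 < m) (hm' : m ≤ 1 / 300) (hT : 0 < T) : ∀ᶠ n : ℕ in atTop, FlhN n m T := by
  have h1 : Tendsto (fun k : ℕ => flDH k m ^ 2) atTop (𝓝 0) := by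
    have : Tendsto (fun k : ℕ => (k : ℝ) ^ (-(1 / 6 - 15 * m))) atTop (𝓝 0) :=
      (tendsto_rpow_neg_atTop (by linarith)).comp tendsto_natCast_atTop_atTop
    have h2 := this.pow 2
    simp only [ne_eq, OfNat.ofNat_ne_zero, not_false_eq_true, zero_pow] at h2
    refine h2.congr fun k => ?_
    unfold flDH
    congr 2; ring
  filter_upwards [flp_ev_pos, flp_ev_ok hm hm', h1.eventually (ge_mem_nhds (show (0:ℝ) < T / 8 by positivity))] with n hp hok hd
  have hd0 := flp_DH_pos (m := m) hp.1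
  refine ⟨hp.2, hok.2.2, ?_, hd, flp_DH_le_one hp.2 hm', ?_, flp_Rmin_pos hp.2 hm.le, ?_, ?_, ?_, ?_⟩
  · rw [flp_H_dsq hp.1]
    exact mul_le_of_le_one_left (flp_E0_pos hp.1).le (flp_rp_le_one hp.2 (by linarith))
  · refine (flp_H_rmin_d hp.2 hm.le).trans ?_
    have : (n : ℝ) ^ (-(70 * m) - m / 10000) ≤ 1 := flp_rp_le_one hp.2 (by linarith)
    nlinarith
  · rw [flp_H_s' hp.1]
    exact mul_le_of_le_one_left hd0.le (flp_rp_le_one hp.2 (by linarith))
  · have ha : 0 < (flCallH n m).a := by rw [flp_H_a hp.1]; exact Real.rpow_pos_of_pos hp.1 _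
    rw [flp_H_d_a (m := m) hp.1]
    exact le_mul_of_one_le_left ha.le (Real.one_le_rpow hp.2 (by positivity))
  · rw [flp_H_nE hp.1]
    exact mul_le_of_le_one_left (by positivity) (flp_rp_le_one hp.2 (by linarith))
  · rw [flp_H_Al hp.1]
    exact mul_le_of_le_one_left hd0.le (flp_rp_le_one hp.2 (by linarith))

section onesize

variable {n : ℕ} {m T : ℝ} {w : FlhW}

theorem FlhN.pos (hN : FlhN n m T) : (0 : ℝ) < (n : ℝ) := lt_of_lt_of_le one_pos hN.one_le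
theorem FlhN.d_pos (hN : FlhN n m T) : 0 < flDH n m := flp_DH_pos hN.pos
theorem FlhN.s_pos (hN : FlhN n m T) : 0 < flS n m := flp_S_pos hN.pos
theorem FlhN.s_le (hN : FlhN n m T) : flS n m ≤ 1 / 2 := hN.ok.u01
theorem FlhN.ε_pos (hN : FlhN n m T) (hw : w.Ok n m T) : 0 < w.ε := lt_of_lt_of_le (flp_E0_pos hN.pos) hw.ε_lo
theorem FlhN.d_ε (hN : FlhN n m T) (hw : w.Ok n m T) : flDH n m ^ 2 ≤ w.ε := hN.d_E0.trans hw.ε_lo

/-- `0 ≤ θ c_L ≤ ε/2, (T-ε)/2` -/
theorem flh_cL (hN : FlhN n m T) (hw : w.Ok n m T) :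
    0 ≤ w.θ * (min w.ε (T - w.ε) / 2) ∧ w.θ * (min w.ε (T - w.ε) / 2) ≤ w.ε / 2 ∧ w.θ * (min w.ε (T - w.ε) / 2) ≤ (T - w.ε) / 2 := by
  have h0 := hN.ε_pos hw
  have h1 : 0 ≤ min w.ε (T - w.ε) / 2 := by
    have := le_min h0.le (by linarith [hw.ε_hi] : 0 ≤ T - w.ε)
    linarith
  have h2 : w.θ * (min w.ε (T - w.ε) / 2) ≤ min w.ε (T - w.ε) / 2 := mul_le_of_le_one_left h1 hw.θ_hi
  refine ⟨mul_nonneg hw.θ_lo h1, ?_, ?_⟩
  · linarith [min_le_left w.ε (T - w.ε)]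
  · linarith [min_le_right w.ε (T - w.ε)]

/-- the low field is at most `d² r_min/4` -/
theorem flh_low_field (hN : FlhN n m T) (hw : w.Ok n m T) {u : ℝ} (hu : u ∈ Icc 0 (flS n m)) :
    0 ≤ w.θ * (min w.ε (T - w.ε) / 2) * (flDH n m ^ 2 * flRmin n m / (2 * w.ε)) * w.φ u ∧
      w.θ * (min w.ε (T - w.ε) / 2) * (flDH n m ^ 2 * flRmin n m / (2 * w.ε)) * w.φ u ≤ flDH n m ^ 2 * flRmin n m / 4 := by
  have h0 := hN.ε_pos hw
  obtain ⟨c0, c1, -⟩ := flh_cL hN hw
  have hφ := hw.φ_mem u hu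
  have hA : 0 ≤ flDH n m ^ 2 * flRmin n m := mul_nonneg (sq_nonneg _) hN.rmin_pos.le
  have hr0 : 0 ≤ flDH n m ^ 2 * flRmin n m / (2 * w.ε) := div_nonneg hA (by linarith)
  refine ⟨mul_nonneg (mul_nonneg c0 hr0) hφ.1, ?_⟩
  have h1 : w.θ * (min w.ε (T - w.ε) / 2) * (flDH n m ^ 2 * flRmin n m / (2 * w.ε)) ≤
      w.ε / 2 * (flDH n m ^ 2 * flRmin n m / (2 * w.ε)) := mul_le_mul_of_nonneg_right c1 hr0
  have h2 : w.ε / 2 * (flDH n m ^ 2 * flRmin n m / (2 * w.ε)) = flDH n m ^ 2 * flRmin n m / 4 := by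
    field_simp; ring
  calc _ ≤ w.θ * (min w.ε (T - w.ε) / 2) * (flDH n m ^ 2 * flRmin n m / (2 * w.ε)) * 1 :=
        mul_le_mul_of_nonneg_left hφ.2 (mul_nonneg c0 hr0)
    _ ≤ _ := by rw [mul_one]; linarith

theorem flh_Pb_lo {lam : ℝ} {r : ℝ → ℝ} {u : ℝ} (hu : u < flS n m) :
    (flhD n m T w).Pb lam r u = T - (w.ε + w.θ * (min w.ε (T - w.ε) / 2)) := by
  have h1 : ¬ (flCallH n m).u0 ≤ u := not_le.2 hu
  have h2 : u < (flCallH n m).u0 := hu
  simp only [P6D.Pb, flhD, p6Wall, h1, h2, if_true, if_false]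

theorem flh_Pb_hi {lam : ℝ} {r : ℝ → ℝ} {u : ℝ} (hu : flS n m ≤ u) :
    (flhD n m T w).Pb lam r u = T - (flCallH n m).e lam (r u) := by
  have h1 : (flCallH n m).u0 ≤ u := hu
  have h2 : ¬ u < (flCallH n m).u0 := not_lt.2 hu
  simp only [P6D.Pb, flhD, p6Wall, h1, h2, if_true, if_false]

theorem flh_Ph_lo {lam : ℝ} {r : ℝ → ℝ} {u : ℝ} (hu : u < flS n m) :
    (flhD n m T w).Ph lam r u = w.θ * (min w.ε (T - w.ε) / 2) * (flDH n m ^ 2 * flRmin n m / (2 * w.ε)) * w.φ u := by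
  have h1 : ¬ (flCallH n m).u0 ≤ u := not_le.2 hu
  have h2 : u < (flCallH n m).u0 := hu
  simp only [P6D.Ph, flhD, p6Wall, h1, h2, if_true, if_false]
  rfl

theorem flh_Ph_hi {lam : ℝ} {r : ℝ → ℝ} {u : ℝ} (hu : flS n m ≤ u) :
    (flhD n m T w).Ph lam r u = (flCallH n m).e lam (r u) * r u := by
  have h1 : (flCallH n m).u0 ≤ u := hu
  have h2 : ¬ u < (flCallH n m).u0 := not_lt.2 hu
  simp only [P6D.Ph, flhD, p6Wall, h1, h2, if_true, if_false, zero_add]

/-- a feasible quantile is monotone with values in `[r_min,1]` -/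
theorem flh_fe (hN : FlhN n m T) {r : ℝ → ℝ} (hr : (flCallH n m).Fe r) :
    MonotoneOn r (Icc (flS n m) 1) ∧ ∀ u ∈ Icc (flS n m) 1, flRmin n m ≤ r u ∧ r u ≤ 1 := by
  obtain ⟨q, rfl⟩ := hr
  exact ⟨(cm_q_r_strictMono one_pos hN.ok q).monotoneOn, fun u hu => q.r_mem u hu⟩

/-- **PE Lemma 7.2, admissibility** (one size): every changed path is admissible; at `θ = 0` for every strength of the sweep -/
theorem flh_fam (hN : FlhN n m T) (hw : w.Ok n m T) {lam : ℝ} (h0 : 0 ≤ lam) (h1 : lam ≤ flDH n m ^ 2)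
    (hθ : w.θ = 0 ∨ lam = flDH n m ^ 2) : (flhD n m T w).Fam lam := by
  intro r hr
  obtain ⟨hrm, hrr⟩ := flh_fe hN hr
  obtain ⟨c0, c1, c2⟩ := flh_cL hN hw
  have hd : 0 < (flCallH n m).d := hN.d_pos
  have hs := hN.s_pos
  constructor
  · refine ⟨fun u hu v hv huv => ?_, ?_⟩
    · rcases lt_or_ge u (flS n m) with hus | hus
      · rcases lt_or_ge v (flS n m) with hvs | hvs
        · rw [flh_Pb_lo hus, flh_Pb_lo hvs]
        · rw [flh_Pb_lo hus, flh_Pb_hi hvs]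
          have := cm_e_le (P := flCallH n m) h0 (r v)
          linarith [hN.d_ε hw]
      · have hvs : flS n m ≤ v := hus.trans huv
        rw [flh_Pb_hi hus, flh_Pb_hi hvs]
        have := cm_e_anti (P := flCallH n m) hd h0 (hrm ⟨hus, hu.2⟩ ⟨hvs, hv.2⟩ huv)
        simp only [] at this
        linarith
    · rw [flh_Pb_lo hs]
      linarith [hw.ε_hi]
  · refine ⟨fun u hu v hv huv => ?_, ?_⟩
    · rcases lt_or_ge u (flS n m) with hus | hus
      · rcases lt_or_ge v (flS n m) with hvs | hvs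
        · rw [flh_Ph_lo hus, flh_Ph_lo hvs]
          have hA : 0 ≤ flDH n m ^ 2 * flRmin n m / (2 * w.ε) :=
            div_nonneg (mul_nonneg (sq_nonneg _) hN.rmin_pos.le) (by linarith [hN.ε_pos hw])
          exact mul_le_mul_of_nonneg_left (hw.φ_mono ⟨hu.1, hus.le⟩ ⟨hv.1, hvs.le⟩ huv) (mul_nonneg c0 hA)
        · rw [flh_Ph_lo hus, flh_Ph_hi hvs]
          have hrv := hrr v ⟨hvs, hv.2⟩
          have hrv0 : 0 ≤ r v := hN.rmin_pos.le.trans hrv.1
          rcases hθ with hθ | hθ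
          · rw [hθ]
            simp only [zero_mul]
            exact mul_nonneg (cm_e_nonneg _ h0 _) hrv0
          · have a1 := (flh_low_field hN hw (u := u) ⟨hu.1, hus.le⟩).2
            have a2 := cm_re_mono (P := flCallH n m) hd h0 (show flRmin n m ∈ Ici (0:ℝ) from hN.rmin_pos.le)
              (show r v ∈ Ici (0:ℝ) from hrv0) hrv.1
            simp only [] at a2
            have a3 : (flCallH n m).e lam (flRmin n m) = lam := by
              refine cm_e_eq _ hd ?_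
              rw [hθ]
              show flDH n m ^ 2 * flRmin n m ≤ flDH n m ^ 3
              nlinarith [hN.rmin_d, sq_nonneg (flDH n m)]
            rw [a3, hθ] at a2
            have a4 : 0 ≤ flDH n m ^ 2 * flRmin n m := mul_nonneg (sq_nonneg _) hN.rmin_pos.le
            rw [hθ]
            linarith
      · have hvs : flS n m ≤ v := hus.trans huv
        rw [flh_Ph_hi hus, flh_Ph_hi hvs]
        have hru := hrr u ⟨hus, hu.2⟩
        have hrv := hrr v ⟨hvs, hv.2⟩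
        have := cm_re_mono (P := flCallH n m) hd h0 (show r u ∈ Ici (0:ℝ) from hN.rmin_pos.le.trans hru.1)
          (show r v ∈ Ici (0:ℝ) from hN.rmin_pos.le.trans hrv.1) (hrm ⟨hus, hu.2⟩ ⟨hvs, hv.2⟩ huv)
        simp only [] at this
        linarith
    · rw [flh_Ph_lo hs]
      exact (flh_low_field hN hw ⟨le_rfl, hs.le⟩).1

end onesize

section onesize2

variable {n : ℕ} {m T : ℝ} {w : FlhW}

theorem flh_b0_lo {u : ℝ} (hu : u < flS n m) : (flhD n m T w).b0 u = T - (w.ε + w.θ * (min w.ε (T - w.ε) / 2)) := by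
  have h2 : u < (flCallH n m).u0 := hu
  simp only [flhD, p6Wall, h2, if_true]

theorem flh_b0_hi {u : ℝ} (hu : flS n m ≤ u) : (flhD n m T w).b0 u = T := by
  have h2 : ¬ u < (flCallH n m).u0 := not_lt.2 hu
  simp only [flhD, p6Wall, h2, if_false]

theorem flh_h0_lo {u : ℝ} (hu : u < flS n m) :
    (flhD n m T w).h0 u = w.θ * (min w.ε (T - w.ε) / 2) * (flDH n m ^ 2 * flRmin n m / (2 * w.ε)) * w.φ u := by
  have h2 : u < (flCallH n m).u0 := hu
  simp only [flhD, p6Wall, h2, if_true]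
  rfl

theorem flh_h0_hi {u : ℝ} (hu : flS n m ≤ u) : (flhD n m T w).h0 u = 0 := by
  have h2 : ¬ u < (flCallH n m).u0 := not_lt.2 hu
  simp only [flhD, p6Wall, h2, if_false]

theorem flh_dr_le (hN : FlhN n m T) : flDH n m ^ 2 * flRmin n m / 4 ≤ 1 := by
  have h1 := hN.d_pos
  have h2 := hN.d_one
  have h3 := hN.rmin_pos
  have h4 : flRmin n m ≤ 1 := hN.rmin_d.trans h2
  have h5 : flDH n m ^ 2 ≤ 1 := by nlinarith
  nlinarith [mul_le_mul h5 h4 h3.le zero_le_one]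

/-- the bare clocks are bounded by `T` -/
theorem flh_bd0 (hN : FlhN n m T) (hw : w.Ok n m T) (hT : 1 ≤ T) : P6Bd (flhD n m T w).b0 (flhD n m T w).h0 T := by
  intro u hu
  obtain ⟨c0, c1, c2⟩ := flh_cL hN hw
  rcases lt_or_ge u (flS n m) with hus | hus
  · rw [flh_b0_lo hus, flh_h0_lo hus]
    have a := flh_low_field hN hw (u := u) ⟨hu.1, hus.le⟩
    have hε := hN.ε_pos hw
    refine ⟨abs_le.2 ⟨by linarith [hw.ε_hi], by linarith⟩, abs_le.2 ⟨by linarith [a.1], by linarith [a.2, flh_dr_le hN]⟩⟩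
  · rw [flh_b0_hi hus, flh_h0_hi hus]
    exact ⟨by rw [abs_of_nonneg (by linarith)], by rw [abs_zero]; linarith⟩

/-- the changed clocks are bounded by `T` -/
theorem flh_bd (hN : FlhN n m T) (hw : w.Ok n m T) (hT : 1 ≤ T) {lam : ℝ} (h0 : 0 ≤ lam) (h1 : lam ≤ flDH n m ^ 2)
    {r : ℝ → ℝ} (hr : (flCallH n m).Fe r) : P6Bd ((flhD n m T w).Pb lam r) ((flhD n m T w).Ph lam r) T := by
  intro u hu
  obtain ⟨c0, c1, c2⟩ := flh_cL hN hw
  obtain ⟨-, hrr⟩ := flh_fe hN hr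
  rcases lt_or_ge u (flS n m) with hus | hus
  · rw [flh_Pb_lo hus, flh_Ph_lo hus]
    have a := flh_low_field hN hw (u := u) ⟨hu.1, hus.le⟩
    have hε := hN.ε_pos hw
    refine ⟨abs_le.2 ⟨by linarith [hw.ε_hi], by linarith⟩, abs_le.2 ⟨by linarith [a.1], by linarith [a.2, flh_dr_le hN]⟩⟩
  · rw [flh_Pb_hi hus, flh_Ph_hi hus]
    have e0 := cm_e_nonneg (flCallH n m) h0 (r u)
    have e1 := cm_e_le (flCallH n m) h0 (r u)
    have hru := hrr u ⟨hus, hu.2⟩
    have hru0 : 0 ≤ r u := hN.rmin_pos.le.trans hru.1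
    have hd1 : flDH n m ^ 2 ≤ 1 := by nlinarith [hN.d_pos, hN.d_one]
    have e2 : (flCallH n m).e lam (r u) * r u ≤ 1 * 1 := mul_le_mul (by linarith) hru.2 hru0 zero_le_one
    refine ⟨abs_le.2 ⟨by linarith [hN.d_T], by linarith⟩, abs_le.2 ⟨by linarith [mul_nonneg e0 hru0], by linarith⟩⟩

/-- **the two covariance alternatives** of PE Lemma 7.2 / Def. 6.1: all-mass descendants if `ε < T/4`, high-only descendants otherwise -/
theorem flh_marg (hN : FlhN n m T) (hw : w.Ok n m T) (hT : 0 < T) {lam : ℝ} (h0 : 0 ≤ lam) (h1 : lam ≤ flDH n m ^ 2) (r : ℝ → ℝ) :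
    P6Marg ((flhD n m T w).Pb lam r) (if w.ε < T / 4 then 0 else flS n m) (T / 8) := by
  obtain ⟨c0, c1, c2⟩ := flh_cL hN hw
  have hi : ∀ u, flS n m ≤ u → 7 * T / 8 ≤ (flhD n m T w).Pb lam r u ∧ (flhD n m T w).Pb lam r u = T - (flCallH n m).e lam (r u) := by
    intro u hus
    rw [flh_Pb_hi hus]
    have e1 := cm_e_le (flCallH n m) h0 (r u)
    exact ⟨by linarith [hN.d_T], rfl⟩
  by_cases hε : w.ε < T / 4
  · rw [if_pos hε]
    refine ⟨fun u hu0 _ => ?_, fun u v hu0 hu => absurd hu (not_lt.2 hu0)⟩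
    rcases lt_or_ge u (flS n m) with hus | hus
    · rw [flh_Pb_lo hus]; linarith
    · linarith [(hi u hus).1]
  · rw [if_neg hε]
    refine ⟨fun u hus _ => by linarith [(hi u hus).1], fun u v _ hus hvs _ => ?_⟩
    rw [flh_Pb_lo hus, flh_Pb_hi hvs]
    have e1 := cm_e_le (flCallH n m) h0 (r v)
    linarith [hN.d_T, not_lt.1 hε]

/-- at `θ = 0` the family is ordinary -/
theorem flh_ord (hN : FlhN n m T) (hw : w.Ok n m T) (hθ : w.θ = 0) : (flhD n m T w).Ord := by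
  refine ⟨?_, fun lam h0 h1 => flh_fam hN hw h0 h1 (Or.inl hθ)⟩
  have hε := hN.ε_pos hw
  constructor
  · refine ⟨fun u hu v hv huv => ?_, ?_⟩
    · rcases lt_or_ge u (flS n m) with hus | hus
      · rcases lt_or_ge v (flS n m) with hvs | hvs
        · rw [flh_b0_lo hus, flh_b0_lo hvs]
        · rw [flh_b0_lo hus, flh_b0_hi hvs, hθ]; linarith
      · rw [flh_b0_hi hus, flh_b0_hi (hus.trans huv)]
    · rw [flh_b0_lo hN.s_pos, hθ]; linarith [hw.ε_hi]
  · refine ⟨fun u hu v hv huv => ?_, ?_⟩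
    · have : ∀ x, (flhD n m T w).h0 x = 0 := by
        intro x
        rcases lt_or_ge x (flS n m) with hx | hx
        · rw [flh_h0_lo hx, hθ]; ring
        · exact flh_h0_hi hx
      rw [this, this]
    · rw [flh_h0_lo hN.s_pos, hθ]; simp

end onesize2

/-! ### (D) the sequence hypotheses of Section 6 -/

theorem flh_seq (hc : FlhC c m T) (hU : (U : Filter ℕ) ≤ atTop) (hw : ∀ᶠ k in (U : Filter ℕ), (w k).Ok k m T) :
    P6Seq U c (fun k => flhD k m T (w k)) where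
  n_top := flh_cast_top hU
  m_eq := Eventually.of_forall fun _ => hc.m_eq.symm
  ok := by
    filter_upwards [hU (flp_ev_ok hc.m_pos hc.m_le)] with k hk
    rw [hc.cE, hc.D0]
    exact hk.2.2
  T_lim := hc.T_eq ▸ tendsto_const_nhds
  dT := by
    have h1 := (flh_DH_zero (m := m) hU hc.m_le).pow 2
    simp only [ne_eq, OfNat.ofNat_ne_zero, not_false_eq_true, zero_pow] at h1
    have h2 : 0 < T - c.ρ := by linarith [hc.ok.ρ_lt, hc.T_eq]
    exact h1.eventually (ge_mem_nhds h2)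
  u0_small := flh_o_of_eq hU (x := 5 * m) (by linarith [hc.m_pos]) ((flh_ev_pos hU).mono fun k hk => flp_H_s hk.1)
  ep4 := by
    intro κ ε hκ hε
    filter_upwards [flh_ev_pos hU] with k hk z u hz _ hu _ _ _
    have hu' : flS k m ≤ u := le_of_lt hu
    have ha : 0 < (flCallH k m).a := by rw [flp_H_a hk.1]; exact Real.rpow_pos_of_pos hk.1 _
    have hz0 : 0 < z := lt_of_lt_of_le (div_pos ha (by linarith)) hz
    rw [flh_b0_hi hu', flh_h0_hi hu']
    show |T - T| ≤ _ ∧ _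
    rw [sub_self, abs_zero]
    exact ⟨by positivity, by positivity⟩
  clk := by
    filter_upwards [hU (flh_ev_N hc.m_pos hc.m_le (by linarith [hc.T_gt])), hw] with k hN hk u hu
    have := flh_bd0 hN hk hc.T_gt.le u hu
    have hK : T ≤ c.K := by linarith [hc.K, hc.T_eq]
    exact ⟨this.1.trans hK, this.2.trans hK⟩
  mono := by
    refine Eventually.of_forall fun k => ⟨fun u hu v hv _ => ?_, fun u hu v hv _ => ?_⟩
    · rw [flh_b0_hi hu.1, flh_b0_hi hv.1]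
    · rw [flh_h0_hi hu.1, flh_h0_hi hv.1]

/-! ### (E) PE Lemma 7.2 and the two facts of Sections 3, 6 consumed with it, UNIFORMLY in the wall parameters -/

variable {fn : ℕ → (ℝ → ℝ) → (ℝ → ℝ) → ℝ} {cκ Cκ cT CT : ℝ}

/-- **PE Lemma 7.2, first assertion**: for large `n` every path in the definition of `J_θ` is admissible, uniformly in `(ε, θ, φ)` -/
theorem flh_adm (hm : 0 < m) (hm' : m ≤ 1 / 300) (hT : 0 < T) :
    ∀ᶠ n : ℕ in atTop, ∀ w : FlhW, w.Ok n m T → (flhD n m T w).Fam (flDH n m ^ 2) := by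
  filter_upwards [flh_ev_N hm hm' hT] with n hN w hw
  exact flh_fam hN hw (sq_nonneg _) le_rfl (Or.inr rfl)

/-- minimisers of `J_θ` exist (PE Lemma 3.1), uniformly -/
theorem flh_ex (hI : P6Imports fn c cκ Cκ cT CT) (hc : FlhC c m T) :
    ∀ᶠ n : ℕ in atTop, ∀ w : FlhW, w.Ok n m T → ∃ r, (flhD n m T w).IsMin fn (flDH n m ^ 2) r := by
  refine flh_unif (fun n w => w.Ok n m T) (fun n w => ∃ r, (flhD n m T w).IsMin fn (flDH n m ^ 2) r) fun U hU w hw => ?_
  filter_upwards [hI.exMin U _ (flh_seq hc hU hw), hU (flh_ev_N hc.m_pos hc.m_le (by linarith [hc.T_gt])), hw] with k h1 hN hk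
  exact h1 _ (sq_nonneg _) le_rfl (flh_fam hN hk (sq_nonneg _) le_rfl (Or.inr rfl))

/-- **PE Lemma 7.2, second assertion**: every minimising high quantile has the regular outer profile (8) above `A_{d²} = n^δ a = o(d)`, with constants independent of `(ε, θ, φ)` -/
theorem flh_profile (hI : P6Imports fn c cκ Cκ cT CT) (hc : FlhC c m T) :
    ∀ᶠ n : ℕ in atTop, ∀ (w : FlhW) (r : ℝ → ℝ), w.Ok n m T → (flhD n m T w).IsMin fn (flDH n m ^ 2) r →
      ∀ u, (flCallH n m).Al (flDH n m ^ 2) ≤ u → u ≤ 1 → p6Lo Cκ cT * u ≤ r u ∧ r u ≤ p6Hi cκ CT * u := by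
  have key := flh_unif (X := FlhW × (ℝ → ℝ)) (fun n x => x.1.Ok n m T ∧ (flhD n m T x.1).IsMin fn (flDH n m ^ 2) x.2)
    (fun n x => ∀ u, (flCallH n m).Al (flDH n m ^ 2) ≤ u → u ≤ 1 → p6Lo Cκ cT * u ≤ x.2 u ∧ x.2 u ≤ p6Hi cκ CT * u)
    fun U hU x hx => p6_wall hI hc.ok hc.K (flh_wallSeq hc hU (w := fun k => (x k).1) (hx.mono fun _ h => h.1))
      (r := fun k => (x k).2) (hx.mono fun _ h => h.2)
  filter_upwards [key] with n hn w r hw hr
  exact hn (w, r) ⟨hw, hr⟩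

/-- **the error of the ordinary family `θ = 0`** (PE Prop. 6.6): `0 ≤ J_0(r) - p(ε) ≤ n^(20δ) E`, uniformly in `ε` -/
theorem flh_err (hI : P6Imports fn c cκ Cκ cT CT) (hc : FlhC c m T) :
    ∀ᶠ n : ℕ in atTop, ∀ (w : FlhW) (r : ℝ → ℝ), w.Ok n m T → w.θ = 0 → (flhD n m T w).IsMin fn (flDH n m ^ 2) r →
      0 ≤ (flhD n m T w).err fn (flDH n m ^ 2) r ∧
        (flhD n m T w).err fn (flDH n m ^ 2) r ≤ (n : ℝ) ^ (20 * (m / 10000)) * (flCallH n m).E := by
  have hT0 : 0 < T := by linarith [hc.T_gt]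
  have key := flh_unif (X := FlhW × (ℝ → ℝ))
    (fun n x => (x.1.Ok n m T ∧ x.1.θ = 0) ∧ (flhD n m T x.1).IsMin fn (flDH n m ^ 2) x.2)
    (fun n x => 0 ≤ (flhD n m T x.1).err fn (flDH n m ^ 2) x.2 ∧
        (flhD n m T x.1).err fn (flDH n m ^ 2) x.2 ≤ (n : ℝ) ^ (20 * (m / 10000)) * (flCallH n m).E)
    fun U hU x hx => by
      have hw : ∀ᶠ k in (U : Filter ℕ), (x k).1.Ok k m T := hx.mono fun _ h => h.1.1
      have hN : ∀ᶠ k : ℕ in (U : Filter ℕ), FlhN k m T := hU (flh_ev_N hc.m_pos hc.m_le hT0)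
      have h1 := p6_error (β0 := T / 8) (κ0 := T) (j0 := fun k => if (x k).1.ε < T / 4 then 0 else flS k m) hI hc.ok (by positivity)
        (by linarith [hc.K, hc.T_eq]) (flh_seq hc hU hw)
        (by filter_upwards [hN, hx] with k hN hk using flh_ord hN hk.1.1 hk.1.2)
        (by
          filter_upwards [hN] with k hN
          by_cases h : (x k).1.ε < T / 4
          · simp only [h, if_true]; exact ⟨le_rfl, hN.s_pos.le⟩
          · simp only [h, if_false]; exact ⟨hN.s_pos.le, le_rfl⟩)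
        (by
          filter_upwards [hN, hw] with k hN hk l s hl0 hl1 hs
          exact ⟨flh_marg hN hk hT0 hl0.le hl1 s, flh_bd hN hk hc.T_gt.le hl0.le hl1 hs⟩)
      filter_upwards [h1, hx] with k h1 hk
      exact h1 _ _ (sq_nonneg _) le_rfl hk.2
  filter_upwards [key] with n hn w r hw hθ hr
  exact hn (w, r) ⟨⟨hw, hθ⟩, hr⟩

/-! ### (F) PE Lemma 7.3 -/

section lowmean

variable {n : ℕ} {m T : ℝ} {w : FlhW}

/-- `S_p` is the first raw moment of PE (12) -/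
theorem flh_MX_one (n : ℕ) (b h : ℝ → ℝ) (p : GhPos) : cmkMX n b h 1 p = skCS n 1 b h p := by
  unfold cmkMX skCS cmkStar
  simp

/-- the matrix clock of the changed path, read after a low cut -/
theorem flh_at_b (hN : FlhN n m T) {lam : ℝ} {r : ℝ → ℝ} {u : ℝ} (hu0 : 0 ≤ u) (hus : u < flS n m) :
    ghAt 1 ((flhD n m T w).Pb lam r) (ghPosA u) = T - (w.ε + w.θ * (min w.ε (T - w.ε) / 2)) := by
  rw [gh_os_at_posA]
  apply rightLim_eq_of_tendsto
  refine tendsto_const_nhds.congr' ?_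
  filter_upwards [Ioo_mem_nhdsGT hus] with x hx
  unfold ghClamp
  rw [if_neg (not_lt.2 (hu0.trans hx.1.le)), min_eq_left (a := x) (b := (1:ℝ)) (by linarith [hx.2, hN.s_le]), flh_Pb_lo hx.2]

/-- the field clock of the changed path, read after a low cut, is at most `d² r_min/4` -/
theorem flh_at_h (hN : FlhN n m T) (hw : w.Ok n m T) {lam : ℝ} {r : ℝ → ℝ} (hadm : GhClk1 1 ((flhD n m T w).Ph lam r)) {u : ℝ}
    (hu0 : 0 ≤ u) (hus : u < flS n m) :
    0 ≤ ghAt 1 ((flhD n m T w).Ph lam r) (ghPosA u) ∧ ghAt 1 ((flhD n m T w).Ph lam r) (ghPosA u) ≤ flDH n m ^ 2 * flRmin n m / 4 := by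
  refine ⟨gh_os_at_nonneg zero_le_one hadm (by simp [ghPosA, GhPos.lam]), ?_⟩
  rw [gh_os_at_posA]
  have hv1 : u < (u + flS n m) / 2 := by linarith
  have hv2 : (u + flS n m) / 2 < flS n m := by linarith
  refine ((gh_os_clamp_mono zero_le_one hadm).rightLim_le hv1).trans ?_
  unfold ghClamp
  rw [if_neg (not_lt.2 (by linarith)), min_eq_left (a := (u + flS n m) / 2) (b := (1:ℝ)) (by linarith [hN.s_le]), flh_Ph_lo hv2]
  exact (flh_low_field hN hw ⟨by linarith, hv2.le⟩).2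

/-- the algebra of (31) -/
theorem flh_alg {T A S hp d ε CC CC' Kr u : ℝ} {G : ℝ → ℝ} (hT : 1 ≤ T) (hε : 0 < ε) (hA : ε ≤ A) (hAT : A ≤ T) (hd : 0 < d) (hd1 : d ≤ 1)
    (hu : u ≤ d) (hp0 : 0 ≤ hp) (hp1 : hp ≤ d ^ 3 / 4) (hS0 : 0 ≤ S) (hS1 : S ≤ Kr * (u + d)) (hKr : 0 < Kr)
    (H1 : |S - G (hp + (T - A) * S)| ≤ CC * d ^ 3)
    (H2 : ∀ t : ℝ, 0 ≤ t → t ≤ (1 + 2 * T * Kr) * d → |G t - t / T| ≤ CC' * d ^ 3) :
    S ≤ (1 / 4 + T * (CC + CC')) * d ^ 3 / ε := by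
  have hT0 : 0 < T := by linarith
  have hK0 : 0 ≤ hp + (T - A) * S := add_nonneg hp0 (mul_nonneg (by linarith) hS0)
  have hd3 : d ^ 3 ≤ d := by
    have : d ^ 2 ≤ 1 := by nlinarith
    nlinarith
  have hK1 : hp + (T - A) * S ≤ (1 + 2 * T * Kr) * d := by
    have h1 : (T - A) * S ≤ T * (Kr * (u + d)) :=
      mul_le_mul (by linarith) hS1 hS0 hT0.le
    have h2 : T * (Kr * (u + d)) ≤ T * (Kr * (d + d)) :=
      mul_le_mul_of_nonneg_left (mul_le_mul_of_nonneg_left (by linarith) hKr.le) hT0.le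
    nlinarith
  have h2 := abs_le.1 (H2 _ hK0 hK1)
  have h1 := abs_le.1 H1
  have h3 : S ≤ (hp + (T - A) * S) / T + (CC + CC') * d ^ 3 := by linarith [h1.2, h2.2]
  have h4 : T * S ≤ hp + (T - A) * S + T * ((CC + CC') * d ^ 3) := by
    have := mul_le_mul_of_nonneg_left h3 hT0.le
    rw [mul_add, mul_div_cancel₀ _ hT0.ne'] at this
    exact this
  rw [le_div_iff₀ hε]
  have h5 : S * ε ≤ A * S := by nlinarith
  nlinarith

/-- the comparison instance, in the vocabulary of PE Sec. 3, of a minimiser of `J_θ`: the hypotheses of PE Prop. 3.4 at the scale `x = d` -/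
theorem flh_inst (hN : FlhN n m T) (hw : w.Ok n m T) (hT : 1 ≤ T) {q : CmQ (flCallH n m)}
    (hmin : (flhD n m T w).IsMin flFn (flDH n m ^ 2) q.r) {c1 C1 : ℝ} (hreg : P6Reg (flS n m) q.r c1 C1 1 (flDH n m)) :
    (⟨flCallH n m, flDH n m ^ 2, (flhD n m T w).b0, (flhD n m T w).h0, q⟩ : CmI).Std 1 1 T ∧
      (⟨flCallH n m, flDH n m ^ 2, (flhD n m T w).b0, (flhD n m T w).h0, q⟩ : CmI).Loc 1 1 c1 C1 1 (flDH n m) := by
  have hd := hN.d_pos
  have hfam := flh_fam hN hw (sq_nonneg _) le_rfl (Or.inr rfl)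
  have hbd := flh_bd hN hw hT (sq_nonneg _) le_rfl hmin.1 1 ⟨zero_le_one, le_rfl⟩
  constructor
  · refine ⟨hN.ok, pow_pos hd 2, le_rfl, fun q' => hfam q'.r ⟨q', rfl⟩, fun q' => hmin.2 q'.r ⟨q', rfl⟩, ?_, ?_⟩
    · exact (le_abs_self _).trans hbd.1
    · exact (le_abs_self _).trans hbd.2
  · refine ⟨hd, hN.d_one, by rw [one_mul]; exact hN.a_d, ?_, hreg⟩
    have he : (flCallH n m).e (flDH n m ^ 2) (flDH n m) = flDH n m ^ 2 := by
      refine cm_e_eq _ hd (le_of_eq ?_)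
      show flDH n m ^ 2 * flDH n m = flDH n m ^ 3
      ring
    show 1 * ((n : ℝ) * (flCallH n m).E ^ 2) ≤ (flCallH n m).e (flDH n m ^ 2) (flDH n m) * flDH n m ^ 2
    rw [he, one_mul]
    calc (n : ℝ) * (flCallH n m).E ^ 2 ≤ flDH n m ^ 4 := hN.nE_d
      _ = flDH n m ^ 2 * flDH n m ^ 2 := by ring

end lowmean

/-- at `θ = 0` the bare endpoint is the path of `p(ε)` -/
theorem flh_bare0 {n : ℕ} {w : FlhW} (hθ : w.θ = 0) :
    (flhD n m T w).b0 = (fun u => if u < flS n m then T - w.ε else T) ∧ (flhD n m T w).h0 = fun _ => 0 := by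
  constructor
  · funext u
    by_cases hu : u < flS n m
    · rw [flh_b0_lo hu, hθ, if_pos hu]; ring
    · rw [flh_b0_hi (not_lt.1 hu), if_neg hu]
  · funext u
    by_cases hu : u < flS n m
    · rw [flh_h0_lo hu, hθ]; ring
    · rw [flh_h0_hi (not_lt.1 hu)]

/-- the direct test at the scale `x = d`, strength `d²`, along every selection of wall parameters and minimisers (PE l.268-275) -/
theorem flh_dir (hI : P6Imports flFn c cκ Cκ cT CT) (hc : FlhC c m T) (hU : (U : Filter ℕ) ≤ atTop) {x : ℕ → FlhW × (ℝ → ℝ)}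
    (hx : ∀ᶠ k in (U : Filter ℕ), (x k).1.Ok k m T ∧ (flhD k m T (x k).1).IsMin flFn (flDH k m ^ 2) (x k).2) :
    PfDir U c (fun k => flhD k m T (x k).1) (fun k => flDH k m ^ 2) (fun k => flDH k m) (fun k => (x k).2) (p6Lo Cκ cT) (p6Hi cκ CT) 1 ∧
      (fun k => (flhD k m T (x k).1).P.e (flDH k m ^ 2) (flDH k m)) =O[(U : Filter ℕ)] (fun k => flDH k m ^ 2) := by
  have hT0 : 0 < T := by linarith [hc.T_gt]
  have hm := hc.m_pos
  have hw : ∀ᶠ k in (U : Filter ℕ), (x k).1.Ok k m T := hx.mono fun _ h => h.1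
  have hN : ∀ᶠ k : ℕ in (U : Filter ℕ), FlhN k m T := hU (flh_ev_N hm hc.m_le hT0)
  have he : ∀ᶠ k : ℕ in (U : Filter ℕ), (flCallH k m).e (flDH k m ^ 2) (flDH k m) = flDH k m ^ 2 := by
    filter_upwards [hN] with k hN
    refine cm_e_eq _ hN.d_pos (le_of_eq ?_)
    show flDH k m ^ 2 * flDH k m = flDH k m ^ 3
    ring
  refine ⟨⟨p6Lo_pos hI.κ_rng hI.T_rng, lt_of_lt_of_le (by norm_num) (le_max_left _ _), one_pos, flh_seq hc hU hw,
    hN.mono fun k hN => ⟨pow_pos hN.d_pos 2, le_rfl⟩,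
    by filter_upwards [hN, hw] with k hN hk using flh_fam hN hk (sq_nonneg _) le_rfl (Or.inr rfl),
    hx.mono fun _ h => h.2, hN.mono fun k hN => hN.d_pos, flh_DH_zero hU hc.m_le, ?_, ?_,
    EventuallyEq.isBigO (he.mono fun k h => h.symm), ?_⟩, EventuallyEq.isBigO he⟩
  · refine IsBigO.of_bound 1 ?_
    filter_upwards [hN] with k hN
    have ha : 0 < (flCallH k m).a := by rw [flp_H_a hN.pos]; exact Real.rpow_pos_of_pos hN.pos _
    show ‖(flCallH k m).a‖ ≤ 1 * ‖flDH k m‖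
    rw [Real.norm_eq_abs, Real.norm_eq_abs, abs_of_pos ha, abs_of_pos hN.d_pos, one_mul]
    exact hN.a_d
  · refine IsBigO.of_bound 1 ?_
    filter_upwards [hN, he] with k hN he
    show ‖(k : ℝ) * (flCallH k m).E ^ 2‖ ≤ 1 * ‖(flCallH k m).e (flDH k m ^ 2) (flDH k m) * flDH k m ^ 2‖
    have hd := hN.d_pos
    have hk := hN.pos
    rw [he, Real.norm_eq_abs, Real.norm_eq_abs, abs_of_nonneg (by positivity), abs_of_nonneg (by positivity), one_mul]
    calc (k : ℝ) * (flCallH k m).E ^ 2 ≤ flDH k m ^ 4 := hN.nE_d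
      _ = flDH k m ^ 2 * flDH k m ^ 2 := by ring
  · have hpr : ∀ᶠ k : ℕ in (U : Filter ℕ), _ := hU (flh_profile hI hc)
    filter_upwards [hpr, hx, hN] with k h1 hk hN u hu1 hu2 _
    refine h1 _ _ hk.1 hk.2 u ?_ hu2
    rw [one_mul] at hu1
    exact hN.Al_d.trans hu1

/-- **PE Lemma 7.3, (31), second assertion** with the slack `n^m`: at every minimiser of `J_θ`, after every low cut, `S_u ≤ n^m d³/ε`, uniformly in `(ε, θ, φ)`.      TEX[PE:fl:low-mean]
FROM: `PfImpCavOm c` (PE Prop 4.1, omitted lower cuts), `exit_rig_lin` (PE Lemma 5.5), `exit_cmp_raw` (PE (12)), the profile of Lemma 7.2. -/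
theorem flh_low (hI : P6Imports flFn c cκ Cκ cT CT) (hOm : PfImpCavOm c) (hc : FlhC c m T) :
    ∀ᶠ n : ℕ in atTop, ∀ (w : FlhW) (r : ℝ → ℝ), w.Ok n m T → (flhD n m T w).IsMin flFn (flDH n m ^ 2) r →
      ∀ u, 0 < u → u < flS n m →
        skCS n 1 ((flhD n m T w).Pb (flDH n m ^ 2) r) ((flhD n m T w).Ph (flDH n m ^ 2) r) (ghPosA u) ≤ (n : ℝ) ^ m * flDH n m ^ 3 / w.ε := by
  have hT0 : 0 < T := by linarith [hc.T_gt]
  have hm := hc.m_pos
  have hlo : 0 < p6Lo Cκ cT := p6Lo_pos hI.κ_rng hI.T_rng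
  have hhi : 0 < p6Hi cκ CT := lt_of_lt_of_le (by norm_num) (le_max_left _ _)
  obtain ⟨Kr, hKr, hraw⟩ := exit_cmp_raw m 1 1 T 1 1 (p6Lo Cκ cT) (p6Hi cκ CT) 1 hm one_pos one_pos hT0 one_pos one_pos hlo hhi one_pos 1 le_rfl
  have key := flh_unif (X := FlhW × (ℝ → ℝ)) (fun n x => x.1.Ok n m T ∧ (flhD n m T x.1).IsMin flFn (flDH n m ^ 2) x.2)
    (fun n x => ∀ u, 0 < u → u < flS n m →
        skCS n 1 ((flhD n m T x.1).Pb (flDH n m ^ 2) x.2) ((flhD n m T x.1).Ph (flDH n m ^ 2) x.2) (ghPosA u) ≤ (n : ℝ) ^ m * flDH n m ^ 3 / x.1.ε)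
    fun U hU x hx => by
      have hN : ∀ᶠ k : ℕ in (U : Filter ℕ), FlhN k m T := hU (flh_ev_N hm hc.m_le hT0)
      obtain ⟨hdir, heO⟩ := flh_dir hI hc hU hx
      obtain ⟨CC, hCC⟩ := hOm U _ _ _ _ _ _ _ hdir heO 1
      obtain ⟨CC', hCC'⟩ := exit_rig_lin c hc.ok U _ _ _ _ _ _ _ hdir (1 + 2 * T * Kr)
      have hcst : ∀ᶠ k : ℕ in (U : Filter ℕ), 1 / 4 + T * (CC + CC') ≤ (k : ℝ) ^ m := hU (flp_ev_const _ m hm)
      filter_upwards [hCC, hCC', hN, hx, hcst, hdir.reg] with k hCC hCC' hN hk hcst hreg u hu0 hus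
      obtain ⟨hw, hmin⟩ := hk
      obtain ⟨q, hq⟩ := hmin.1
      have hε := hN.ε_pos hw
      have hd := hN.d_pos
      have hd3 : 0 < flDH k m ^ 3 := pow_pos hd 3
      have hpOk : (ghPosA u).Ok 1 := flw_sk_posA_ok hu0.le (by linarith [hN.s_le])
      have hud : u ≤ flDH k m := hus.le.trans hN.s_d
      set S := skCS k 1 ((flhD k m T (x k).1).Pb (flDH k m ^ 2) (x k).2) ((flhD k m T (x k).1).Ph (flDH k m ^ 2) (x k).2) (ghPosA u) with hS
      rcases le_or_gt S 0 with hS0 | hS0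
      · exact hS0.trans (by positivity)
      -- raw moments
      have hS1 : S ≤ Kr * (u + flDH k m) := by
        have hi := flh_inst hN hw hc.T_gt.le (q := q) (by rw [hq]; exact hmin) (c1 := p6Lo Cκ cT) (C1 := p6Hi cκ CT) (by rw [hq]; exact hreg)
        have h1 := (hraw _ (flDH k m) le_rfl hi.1
          (fun a ha b hb _ => by
            show (flhD k m T (x k).1).h0 a ≤ (flhD k m T (x k).1).h0 b
            rw [flh_h0_hi ha.1, flh_h0_hi hb.1]) hN.s_d hi.2 (ghPosA u) hpOk).1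
        rw [flh_MX_one, pow_one] at h1
        have e1 : (⟨flCallH k m, flDH k m ^ 2, (flhD k m T (x k).1).b0, (flhD k m T (x k).1).h0, q⟩ : CmI).b
            = (flhD k m T (x k).1).Pb (flDH k m ^ 2) (x k).2 := by rw [← hq]; rfl
        have e2 : (⟨flCallH k m, flDH k m ^ 2, (flhD k m T (x k).1).b0, (flhD k m T (x k).1).h0, q⟩ : CmI).h
            = (flhD k m T (x k).1).Ph (flDH k m ^ 2) (x k).2 := by rw [← hq]; rfl
        rw [e1, e2] at h1
        exact h1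
      have hadm := flh_fam hN hw (sq_nonneg _) le_rfl (Or.inr rfl) _ hmin.1
      obtain ⟨c0, c1, c2⟩ := flh_cL hN hw
      have hh := flh_at_h hN hw hadm.2 hu0.le hus
      have hb := flh_at_b (w := (x k).1) (lam := flDH k m ^ 2) (r := (x k).2) hN hu0.le hus
      have H1 := hCC u hu0.le (by rw [one_mul]; exact hud)
      unfold pfS pfK pfKu at H1
      have hK : pfKp (flhD k m T (x k).1).P.n ((flhD k m T (x k).1).Pb (flDH k m ^ 2) (x k).2) ((flhD k m T (x k).1).Ph (flDH k m ^ 2) (x k).2) (ghPosA u)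
          = ghAt 1 ((flhD k m T (x k).1).Ph (flDH k m ^ 2) (x k).2) (ghPosA u)
            + (T - ((x k).1.ε + (x k).1.θ * (min (x k).1.ε (T - (x k).1.ε) / 2))) * S := by
        unfold pfKp
        rw [hb]
        rfl
      rw [hK] at H1
      have h2 : flDH k m ^ 2 * flRmin k m / 4 ≤ flDH k m ^ 3 / 4 := by
        have : flDH k m ^ 2 * flRmin k m ≤ flDH k m ^ 2 * flDH k m := mul_le_mul_of_nonneg_left hN.rmin_d (sq_nonneg _)
        nlinarith
      have hfin := flh_alg (G := pfG (flhD k m T (x k).1) (flDH k m ^ 2) (x k).2 c.tau) hc.T_gt.le hε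
        (show (x k).1.ε ≤ (x k).1.ε + (x k).1.θ * (min (x k).1.ε (T - (x k).1.ε) / 2) by linarith)
        (by linarith [hw.ε_hi]) hd hN.d_one hud hh.1 (hh.2.trans h2) hS0.le hS1 hKr H1 hCC'.1
      refine hfin.trans ?_
      exact div_le_div_of_nonneg_right (mul_le_mul_of_nonneg_right hcst hd3.le) hε.le
  filter_upwards [key] with n hn w r hw hr
  exact hn (w, r) ⟨hw, hr⟩

/-! ### (G) the exit: `FlImpH` for all large `n`, uniformly in `ε ∈ [ε₀,T)` -/

/-- the wall parameters of the paper (`φ = ψ`) are in the range -/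
theorem flh_psi_ok {n : ℕ} (hN : FlhN n m T) {ε θ : ℝ} (h1 : flE0 n m ≤ ε) (h2 : ε < T) (hθ : θ ∈ Icc (0 : ℝ) 1) :
    (⟨ε, θ, flPsi n m⟩ : FlhW).Ok n m T := by
  have hs := hN.s_pos
  have hτ : 0 < flTau n := Real.rpow_pos_of_pos hN.pos _
  exact ⟨h1, h2, hθ.1, hθ.2, (flw_psi_mono hs hτ).mono fun u hu => hu.2, fun u hu => flw_psi_mem hs hτ hu.1 hu.2⟩

theorem flh_DW (n : ℕ) (m T ε θ : ℝ) : flDW n m T ε θ = flhD n m T ⟨ε, θ, flPsi n m⟩ := rfl

/-- the bare pressure at `θ = 0` is `p(ε)` -/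
theorem flh_bareP (n : ℕ) (m T ε : ℝ) :
    flFn (flhD n m T ⟨ε, 0, flPsi n m⟩).P.n (flhD n m T ⟨ε, 0, flPsi n m⟩).b0 (flhD n m T ⟨ε, 0, flPsi n m⟩).h0 = flP n m T ε := by
  have h := flh_bare0 (n := n) (m := m) (T := T) (w := ⟨ε, 0, flPsi n m⟩) rfl
  rw [h.1, h.2]
  rfl

/-- **PE Lemma 7.2 + Lemma 7.3 = `fl_link_H` at a fixed `m`**, from the imports of Sec. 6 and the omitted-cut closure of Sec. 4.      TEX[PE:fl:wall-profile] TEX[PE:fl:low-mean] -/
theorem flh_impH (hI : P6Imports flFn c cκ Cκ cT CT) (hOm : PfImpCavOm c) (hc : FlhC c m T) :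
    ∀ᶠ n : ℕ in atTop, ∀ ε : ℝ, flE0 n m ≤ ε → ε < T → FlImpH n m T 1 ε := by
  have hT0 : 0 < T := by linarith [hc.T_gt]
  have hm := hc.m_pos
  filter_upwards [flh_ev_N hm hc.m_le hT0, flh_ex hI hc, flh_err hI hc, flh_low hI hOm hc] with n hN hex herr hlow ε h1 h2
  constructor
  · intro θ hθ
    rw [flh_DW]
    exact flh_fam hN (flh_psi_ok hN h1 h2 hθ) (sq_nonneg _) le_rfl (Or.inr rfl)
  · intro θ hθ
    rw [flh_DW]
    exact hex _ (flh_psi_ok hN h1 h2 hθ)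
  · have h0 : (0 : ℝ) ∈ Icc (0 : ℝ) 1 := ⟨le_rfl, zero_le_one⟩
    have hw := flh_psi_ok hN h1 h2 h0
    obtain ⟨r, hr⟩ := hex _ hw
    refine ⟨r, hr.1, ?_⟩
    have h3 := (herr _ r hw rfl hr).2
    have h4 : (n : ℝ) ^ (20 * (m / 10000)) * (flCallH n m).E ≤ (n : ℝ) ^ m * (flCallH n m).E := by
      have hE : 0 < (flCallH n m).E := Real.rpow_pos_of_pos hN.pos _
      exact mul_le_mul_of_nonneg_right (Real.rpow_le_rpow_of_exponent_le hN.one_le (by linarith)) hE.le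
    unfold P6D.err at h3
    rw [flh_bareP] at h3
    rw [flh_DW]
    linarith
  · intro θ hθ r hr u hu
    rw [flh_DW] at hr ⊢
    have := hlow _ r (flh_psi_ok hN h1 h2 hθ) hr u hu.1 hu.2
    unfold flAL
    rw [one_mul]
    exact this

/-- the record of constants of the family (H): `K = T + 2`, `ρ = T/2`, `T_∞ = T`, `cE = D0 = 1` -/
def flhRec (m T : ℝ) : P6C := ⟨m, T + 2, T / 2, T, 1, 1⟩

theorem flh_rec_eqns_cite : True := by
  have := @flhRec.eq_1; have := @flhD.eq_1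
  trivial

theorem flh_rec (hT : 1 < T) (hm : 0 < m) (hm' : m ≤ 1 / 300) : FlhC (flhRec m T) m T where
  ok := ⟨hm, by show m ≤ 1 / 100; linarith, by show 0 < T + 2; linarith, by show 0 < T / 2; linarith, by show T / 2 < T; linarith, hT,
    one_pos, one_pos⟩
  m_eq := rfl
  m_le := hm'
  cE := rfl
  D0 := rfl
  T_eq := rfl
  K := le_rfl

/-- **`fl_link_H`** (`Fl/Contract.lean`) from the two supplies: `hSup` = `pec_imports` (`PE/Chain.lean`, helper207), `hOm` = the exit of PE Sec. 4 for omitted lower cuts (`PfImpCavOm`, owner helper185/223).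
TEX[PE:fl:wall-profile] TEX[PE:fl:low-mean] -/
theorem flh_link (hSup : ∀ c : P6C, c.Ok → ∃ cκ Cκ cT CT : ℝ, P6Imports (fun n => skCPr n 1) c cκ Cκ cT CT)
    (hOm : ∀ c : P6C, c.Ok → PfImpCavOm c) (hT : 1 < T) :
    ∃ m0 : ℝ, 0 < m0 ∧ ∀ m : ℝ, 0 < m → m < m0 →
      ∃ CS : ℝ, 0 < CS ∧ ∀ᶠ n : ℕ in atTop, ∀ ε : ℝ, flE0 n m ≤ ε → ε < T → FlImpH n m T CS ε := by
  refine ⟨1 / 300, by norm_num, fun m hm hm' => ⟨1, one_pos, ?_⟩⟩
  have hc := flh_rec hT hm hm'.le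
  obtain ⟨cκ, Cκ, cT, CT, hI⟩ := hSup _ hc.ok
  exact flh_impH hI (hOm _ hc.ok) hc

end

end Claimed.Agent.R286
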