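import Claimed.Agent.R286.Fl.Defs
import Claimed.Agent.R286.Fl.Num
import Claimed.Agent.R286.Fl.Link
import Claimed.Agent.R286.Fl.Chord
import Claimed.Agent.R286.Fl.End
import Claimed.Agent.R286.Fl.Low
import Claimed.Agent.R286.Fl.Par
import Claimed.Agent.R286.Fl.Cost
import Claimed.Agent.R286.Fl.Wall
import Claimed.Agent.R286.PE.Chain
import Claimed.Agent.R286.Exit.PfCavOm
import Claimed.Agent.R286.Top.PeTop

/-!
# Row 286 (S0533), unit FL = PE Section 7 (fluctuations.tex l.1-500): CONTRACT      (section head helper196; co-architect helper49; reader helper158; ADV helper256; chief helper142)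

## EXIT
* `fl_window : 1 < β → SkWindow β`  = PE Prop 7.5 (`Exit/Window.lean`, statement frozen by 207).      PROVED HERE from the nine named theorems below + `sk_fn_window` (`Fl/Num.lean`, 158, closed).
  (PE Lemma 7.6, 7.7 and Thm 1.1 ⇐ window belong to TOP: `Top/PeTop.lean`, `Exit/Tail.lean`.)      `flq_chord` (`Fl/Chord.lean`, 49) = PE Lemma 7.1 is also the import `P6Chord` of Sec. 6.

## THE DAG  (file, owner)
* `fl_end`     S0, endpoints: `K_n^c(s) = n s (p(T) - p(0))`                      `Fl/End.lean`    helper256      ⇐ `LL04/Bridge.lean` (245: `sk_br_A4`, `sk_br_lam`) + "`skCPr` of a step clock = `skPr`" (Exit/ClkC*, 42/76)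
* `fl_p_mono`  S0, `0 ≤ p(ε') - p(ε) ≤ s (ε'-ε)/4`                                `Fl/Low.lean`    helper49       ⇐ `exit_clk_pr_deriv`, `exit_clk_SB`
* `fl_low`     (30): `FlImpL ⟹ p(n^(-1/3)) - p(0) ≥ c n^(-5/6+15m)`              CLOSED (`flo_low_fix`, 49; `Fl/Par.lean`, 254)
* `fl_ini`     l.148-170: `FlImpU ⟹ p(ε₀) - p(0) ≤ C n^(-5/6+95m)`               CLOSED (`flo_ini_fix`, 49; `Fl/Par.lean`, 254)
* `fl_wall`    Lemma 7.4 + table: `FlImpH ⟹ p(ε+q) - p(ε) ≤ C n^(-5/6+70m)`      CLOSED (`flk_wall`, 126, `Fl/Cost.lean`; `flw_cost`, `flw_sk_ok` 158; ledger 254)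
* `fl_link_L`, `fl_link_U`   eventually `FlImpL`, `FlImpU`                        `Fl/Low.lean`    helper49       ⇐ `p6_error`, `p6_profile`, `P6ImpMin` (Sec. 6, helper14), `Fl/Par.lean`
* `fl_link_H`  Lemma 7.2, 7.3: eventually, for ALL `ε ∈ [ε₀,T)`: `FlImpH`         CLOSED (`flh_link`, 54, `Fl/Wall.lean`) ⇐ `pec_imports` (PE/Chain, 207), `exit_pf_cav_om` (Exit/PfCavOm), `exit_rig_lin`, `exit_cmp_raw`, `p6_wall`, `p6_error`

## IMPORTS FROM OTHER UNITS
* Sec. 2 (118/42/150): `Exit/ClkPr`, `Exit/ClkStat`, `Exit/ClkSus`, `Exit/ClkC*` (clock API (G1)-(G5)).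
* Sec. 6 (14): `Pe6/Contract.lean` for `fn = flFn`, i.e. `P6Imports flFn c cκ Cκ cT CT` for the records `c` used by 49 and 54 (assembled from `Exit/*` by 14 / 142).
* Sec. 4 + 5 (223, 98): ONE combined statement, one-sided is enough (256 N3): at a direct test `x = d`, `W = O(x)`, omitted mass `u0 = o(x)`: `S_u ≤ (h_u + b_u S_u)/T + C x³` for ALL cuts `u ∈ (0,u0)`.
* TOP (49, 245): `SkWindow`, `skLam`, bridge.
ORDER OF CONSTANTS: `T` ; `m0(T)` ; `m < m0` ; `c, C, CS` ; `n0`.      Uniformity in `(ε, θ, minimiser, cut)` is part of `fl_link_H`.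
-/

set_option autoImplicit false

namespace Claimed.Agent.R286

open Filter Topology Set

/-- **S0, endpoints** (l.36-46).      CLOSED by helper256, `Fl/End.lean`.      TEX[PE:sec:fluctuations] -/
theorem fl_end {β : ℝ} (hβ : 0 ≤ β) {n : ℕ} (hn : 1 ≤ n) {m : ℝ} (hs : flS n m < 1) :
    skLam β n ((n : ℝ) ^ (5 * m)) = (n : ℝ) * flS n m * (flP n m (β ^ 2) (β ^ 2) - flP n m (β ^ 2) 0) := by
  have hm : m ≤ 1 / 30 := by
    by_contra hcon
    push Not at hcon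
    have : (1 : ℝ) ≤ flS n m := by
      unfold flS
      exact Real.one_le_rpow (by exact_mod_cast hn) (by linarith)
    linarith
  exact fle_hK β hm n hn

/-- **S0, `0 ≤ p' ≤ s/4`** (l.50-56).      CLOSED by helper49, `Fl/Chord.lean`. -/
theorem fl_p_mono {n : ℕ} (hn : 0 < n) {m T : ℝ} (hs : flS n m ≤ 1) {ε ε' : ℝ} (h0 : 0 ≤ ε) (h : ε ≤ ε') (h1 : ε' ≤ T) :
    0 ≤ flP n m T ε' - flP n m T ε ∧ flP n m T ε' - flP n m T ε ≤ flS n m * (ε' - ε) / 4 :=
  flq_P_mono hn (Real.rpow_nonneg (Nat.cast_nonneg n) _) hs h0 h h1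

/-- the profile `f` is positive -/
theorem fl_cmF_pos (t : ℝ) : 0 < cmF t := by
  unfold cmF
  split_ifs with h
  · exact one_pos
  · push Not at h
    have := Real.log_pos h
    positivity

/-- **(30)** (l.100-141).      CLOSED: `flo_low_fix` (helper49, `Fl/Low.lean`) + the numerics of helper254 (`Fl/Par.lean`). -/
theorem fl_low {T m c C : ℝ} (hT : 1 < T) (hm0 : 0 < m) (hm : m < 1 / 300) (hc : 0 < c) (hcC : c ≤ C) :
    ∃ c' : ℝ, 0 < c' ∧ ∀ᶠ n : ℕ in atTop, FlImpL n m T c C →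
      c' * (n : ℝ) ^ (-(5 / 6 : ℝ) + 15 * m) ≤ flP n m T (flEL n) - flP n m T 0 := by
  refine ⟨c ^ 2 / 128, by positivity, ?_⟩
  filter_upwards [flp_ev_pos, flp_ev_S_le hm.le 1 one_pos, flp_ev_L_Al hm0 (c := 1 / 2) (by norm_num),
    flp_ev_EL hm0 (fl_cmF_pos C), flp_ev_errL hm0 (c := c ^ 2 / 128) (by positivity)] with n hp hS hAl hEL herr hI
  have hn : 0 < n := by exact_mod_cast hp.1
  have hεT : flEL n ≤ T := by
    have : flEL n ≤ 1 := by
      unfold flEL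
      exact Real.rpow_le_one_of_one_le_of_nonpos hp.2 (by norm_num)
    linarith
  have key := flo_low_fix hn hc.le (hc.le.trans hcC) hεT hS (by linarith) (by linarith) hI
  have e : c ^ 2 / 64 * flEL n * flS n m ^ 3 = c ^ 2 / 64 * (n : ℝ) ^ (-(5 / 6 : ℝ) + 15 * m) := by
    rw [mul_assoc, flp_tab1' hp.1]
  rw [e] at key
  linarith

/-- **the initial upper comparison** (l.143-170).      CLOSED: `flo_ini_fix` (helper49, `Fl/Low.lean`) + the numerics of helper254 (`Fl/Par.lean`). -/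
theorem fl_ini {T m c C : ℝ} (hT : 1 < T) (hm0 : 0 < m) (hm : m < 1 / 300) (hc : 0 < c) (hcC : c ≤ C) :
    ∃ C' : ℝ, ∀ᶠ n : ℕ in atTop, FlImpU n m T c C →
      flP n m T (flE0 n m) - flP n m T 0 ≤ C' * (n : ℝ) ^ (-(5 / 6 : ℝ) + 95 * m) := by
  have hC : 0 < C := hc.trans_le hcC
  refine ⟨2, ?_⟩
  filter_upwards [flp_ev_pos, flp_ev_S_le hm.le 1 one_pos, flp_ev_S_DN hm0 (c := C⁻¹) (by positivity),
    flp_ev_E0 hm0 (c := 1 / 2) (by norm_num), flp_ev_small (x := 3 * m - m / 10000) (by linarith) one_pos] with n hp hS hSD hE0 hsm hI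
  have hn : 0 < n := by exact_mod_cast hp.1
  have hS0 := flp_S_pos (m := m) hp.1
  have hD0 := flp_DN_pos (m := m) hp.1
  have hE00 := flp_E0_pos (m := m) hp.1
  have hD1 : flDN n m ≤ 1 := flp_DN_le_one hp.2 hm.le
  have hεT : flE0 n m ≤ T := by nlinarith
  have hCs : C * flS n m ≤ flDN n m := by
    have := mul_le_mul_of_nonneg_left hSD hC.le
    rwa [← mul_assoc, mul_inv_cancel₀ hC.ne', one_mul] at this
  have hAl : (flCallU n m).Al (flDN n m ^ 2) ≤ flS n m := by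
    rw [flp_U_Al hp.1, flp_U_s hp.1]
    have e : (n : ℝ) ^ (-(23 * m - m / 10000)) = (n : ℝ) ^ (-(3 * m - m / 10000)) * (n : ℝ) ^ (-(20 * m)) := by
      rw [← Real.rpow_add hp.1]
      congr 1
      ring
    rw [e]
    have h20 : 0 < (n : ℝ) ^ (-(20 * m)) := Real.rpow_pos_of_pos hp.1 _
    have := mul_le_mul_of_nonneg_right hsm (mul_pos h20 hD0).le
    linarith
  have key := flo_ini_fix hn hεT hS hAl hCs (by linarith) hI
  have h1 := flp_errU (m := m) hp.2 hm0.le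
  have h2 := flp_tab3 (m := m) hp.1
  have h3 : (C * flS n m) ^ 2 ≤ flDN n m ^ 2 := pow_le_pow_left₀ (by positivity) hCs 2
  have h4 : flE0 n m * (C * flS n m) ^ 2 * flS n m / 2 ≤ (n : ℝ) ^ (-(5 / 6 : ℝ) + 95 * m) := by
    rw [← h2]
    have := mul_le_mul_of_nonneg_left h3 (mul_pos hS0 hE00).le
    have h5 : 0 ≤ flS n m * flE0 n m * (C * flS n m) ^ 2 := by positivity
    nlinarith
  linarith

/-- **Lemma 7.4 (second assertion) + the power ledger** (l.306-468).      CLOSED by helper126, `Fl/Cost.lean`.      TEX[PE:fl:wall-cost] -/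
theorem fl_wall {T m CS : ℝ} (hT : 1 < T) (hm0 : 0 < m) (hm : m < 1 / 300) (hCS : 0 < CS) :
    ∃ C' : ℝ, ∀ᶠ n : ℕ in atTop, ∀ ε : ℝ, flE0 n m ≤ ε → ε < T → FlImpH n m T CS ε →
      flP n m T (skFnStep T ε) - flP n m T ε ≤ C' * (n : ℝ) ^ (-(5 / 6 : ℝ) + 70 * m) :=
  flk_wall hT hm0 hm hCS

/-- **Prop 6.6 for the family (L)**.      CLOSED by helper124, `Fl/Link.lean` (from `exit_prop`, `exit_p6_min`). -/
theorem fl_link_L {T : ℝ} (hT : 1 < T) : ∃ m0 : ℝ, 0 < m0 ∧ ∀ m : ℝ, 0 < m → m < m0 →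
    ∃ c C : ℝ, 0 < c ∧ c ≤ C ∧ ∀ᶠ n : ℕ in atTop, FlImpL n m T c C :=
  fll_link_L hT

/-- **Prop 6.6 for the family (U)**.      CLOSED by helper124, `Fl/Link.lean` (from `exit_prop`, `exit_p6_min`). -/
theorem fl_link_U {T : ℝ} (hT : 1 < T) : ∃ m0 : ℝ, 0 < m0 ∧ ∀ m : ℝ, 0 < m → m < m0 →
    ∃ c C : ℝ, 0 < c ∧ c ≤ C ∧ ∀ᶠ n : ℕ in atTop, FlImpU n m T c C :=
  fll_link_U hT

/-- **Lemma 7.2 + Lemma 7.3, uniformly in the wall parameters**.      CLOSED by helper54 (`flh_link`, `Fl/Wall.lean`) from `pec_imports` (207) and `exit_pf_cav_om`.      TEX[PE:fl:wall-profile] TEX[PE:fl:low-mean] -/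
theorem fl_link_H {T : ℝ} (hT : 1 < T) : ∃ m0 : ℝ, 0 < m0 ∧ ∀ m : ℝ, 0 < m → m < m0 →
    ∃ CS : ℝ, 0 < CS ∧ ∀ᶠ n : ℕ in atTop, ∀ ε : ℝ, flE0 n m ≤ ε → ε < T → FlImpH n m T CS ε :=
  flh_link pec_imports exit_pf_cav_om hT

/-- `s → 0` -/
theorem fl_s_lt_one {m : ℝ} (hm : m < 1 / 300) : ∀ᶠ n : ℕ in atTop, flS n m < 1 := by
  filter_upwards [eventually_ge_atTop 2] with n hn
  unfold flS
  exact Real.rpow_lt_one_of_one_lt_of_neg (by exact_mod_cast hn) (by linarith)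

/-- **EXIT = PE Prop 7.5**      TEX[PE:fl:laplace-window] -/
theorem fl_window (β : ℝ) (hβ : 1 < β) : SkWindow β := by
  have hT : 1 < β ^ 2 := by nlinarith
  obtain ⟨mL, hmL, hL⟩ := fl_link_L hT
  obtain ⟨mU, hmU, hU⟩ := fl_link_U hT
  obtain ⟨mH, hmH, hH⟩ := fl_link_H hT
  refine ⟨min (1 / 300) (min mL (min mU mH)), by positivity, fun m hm0 hm => ?_⟩
  have h1 : m < 1 / 300 := lt_of_lt_of_le hm (min_le_left _ _)
  have h2 : m < mL := lt_of_lt_of_le hm ((min_le_right _ _).trans (min_le_left _ _))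
  have h3 : m < mU := lt_of_lt_of_le hm ((min_le_right _ _).trans ((min_le_right _ _).trans (min_le_left _ _)))
  have h4 : m < mH := lt_of_lt_of_le hm ((min_le_right _ _).trans ((min_le_right _ _).trans (min_le_right _ _)))
  obtain ⟨cL, CL, hcL, hcCL, hL⟩ := hL m hm0 h2
  obtain ⟨cU, CU, hcU, hcCU, hU⟩ := hU m hm0 h3
  obtain ⟨CS, hCS, hH⟩ := hH m hm0 h4
  obtain ⟨c', hc', hlow⟩ := fl_low hT hm0 h1 hcL hcCL
  obtain ⟨C1, hini⟩ := fl_ini hT hm0 h1 hcU hcCU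
  obtain ⟨C2, hwall⟩ := fl_wall hT hm0 h1 hCS
  obtain ⟨c, C, hc, hw⟩ := sk_fn_window hT hm0 h1 (fun n ε => flP n m (β ^ 2) ε) (fun n => skLam β n ((n : ℝ) ^ (5 * m)))
    (by
      filter_upwards [fl_s_lt_one h1, eventually_ge_atTop 1] with n hs hn
      exact fl_end (by linarith) hn hs)
    (by
      filter_upwards [fl_s_lt_one h1, eventually_ge_atTop 1] with n hs hn ε ε' a b d
      exact fl_p_mono hn hs.le a b d)
    ⟨c', hc', by filter_upwards [hlow, hL] with n a b using a b⟩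
    ⟨C1, by filter_upwards [hini, hU] with n a b using a b⟩
    ⟨C2, by filter_upwards [hwall, hH] with n a b ε h5 h6 using a ε h5 h6 (b ε h5 h6)⟩
  obtain ⟨n0, hn0⟩ := eventually_atTop.1 hw
  exact ⟨c, C, n0, hc, hn0⟩

end Claimed.Agent.R286
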