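import Claimed.Agent.R286.Cmp.Defs

/-!
# Row 286 (S0533), PE Section 7: SCALES, CALLS, WALL SCALARS      (helper196, head of PE Sec 7; prefix `fl`)

Imports `Cmp/Defs.lean` only (numbers; nothing of the model).      Arguments: `n : ℕ` (size), `m` (power slack), `T = β²`, `ε` (removed low covariance), `θ` (sweep parameter).
* `flS = n^(-1/6+5m)` (`s`), `flDH = n^(-1/6+15m)` (`d_H`), `flDN = n^(-1/6+25m)` (`d_N`), `flE0 = n^(-1/3+40m)` (`ε₀ = d_H d_N`), `flTau = n^(-10)` (`τ`), `flEL = n^(-1/3)`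
* `flCallL`, `flCallU`, `flCallH`      the three comparison calls: lower (l.102), initial upper (l.148), high with wall (l.176);   `flRmin = u_*/(2 M(s))`
* `flBE ε`      the matrix clock `T - ε 1_{u<s}` of `p(ε)`
* `flCL = c_L = min(ε,T-ε)/2`, `flR0 = r₀ = d² r_min/(2ε)`, `flAL = a_L` (with a constant `CS` and the slack `n^m`)
The numerics of these objects (`CmCall.Ok 1 1`, powers of `a, u_*, L, M(s), r_min`, the table l.452, the ledger): `Fl/Par.lean` (helper254).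
-/

set_option autoImplicit false

namespace Claimed.Agent.R286

noncomputable section

/-- `s = n^(-1/6+5m)` -/
def flS (n : ℕ) (m : ℝ) : ℝ := (n : ℝ) ^ (-(1 / 6 : ℝ) + 5 * m)
/-- `d_H = n^(-1/6+15m)` -/
def flDH (n : ℕ) (m : ℝ) : ℝ := (n : ℝ) ^ (-(1 / 6 : ℝ) + 15 * m)
/-- `d_N = n^(-1/6+25m)` -/
def flDN (n : ℕ) (m : ℝ) : ℝ := (n : ℝ) ^ (-(1 / 6 : ℝ) + 25 * m)
/-- `ε₀ = d_H d_N = n^(-1/3+40m)` -/
def flE0 (n : ℕ) (m : ℝ) : ℝ := (n : ℝ) ^ (-(1 / 3 : ℝ) + 40 * m)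
/-- `τ = n^(-10)` -/
def flTau (n : ℕ) : ℝ := (n : ℝ) ^ (-(10 : ℝ))
/-- the `ε = n^(-1/3)` of the lower comparison -/
def flEL (n : ℕ) : ℝ := (n : ℝ) ^ (-(1 / 3 : ℝ))

/-- the lower comparison (l.102): all masses, `d = s`, `E = n^(-2/3+2m) d = n^(-5/6+7m)` -/
def flCallL (n : ℕ) (m : ℝ) : CmCall := ⟨n, m, (n : ℝ) ^ (-(5 / 6 : ℝ) + 7 * m), flS n m, 0, 0⟩
/-- the initial upper comparison (l.148): all masses, `d = d_N`, `E = n^(-2/3+2m) d_N = n^(-5/6+27m)` -/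
def flCallU (n : ℕ) (m : ℝ) : CmCall := ⟨n, m, (n : ℝ) ^ (-(5 / 6 : ℝ) + 27 * m), flDN n m, 0, 0⟩
/-- the wall `r_min = u_*/(2 M(s))` of the high comparison (`u_*`, `M` do not depend on the wall) -/
def flRmin (n : ℕ) (m : ℝ) : ℝ :=
  (⟨n, m, (n : ℝ) ^ (-(5 / 6 : ℝ) + 25 * m), flDH n m, flS n m, 0⟩ : CmCall).us /
    (2 * (⟨n, m, (n : ℝ) ^ (-(5 / 6 : ℝ) + 25 * m), flDH n m, flS n m, 0⟩ : CmCall).M (flS n m))
/-- the high comparison (l.176): masses `[s,1]`, `d = d_H`, `E = n^(-2/3+10m) d_H = n^(-5/6+25m)`, wall `r_min` -/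
def flCallH (n : ℕ) (m : ℝ) : CmCall := ⟨n, m, (n : ℝ) ^ (-(5 / 6 : ℝ) + 25 * m), flDH n m, flS n m, flRmin n m⟩

/-- the matrix clock `T - ε 1_{u<s}` -/
def flBE (n : ℕ) (m T ε : ℝ) (u : ℝ) : ℝ := if u < flS n m then T - ε else T

/-- `c_L = 2q = min(ε, T-ε)/2` -/
def flCL (T ε : ℝ) : ℝ := min ε (T - ε) / 2
/-- `r₀ = d² r_min/(2ε)` -/
def flR0 (n : ℕ) (m ε : ℝ) : ℝ := flDH n m ^ 2 * flRmin n m / (2 * ε)
/-- `a_L`, with the constant `CS` and the slack `n^m` -/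
def flAL (n : ℕ) (m CS ε : ℝ) : ℝ := CS * (n : ℝ) ^ m * flDH n m ^ 3 / ε

theorem fl_scales_eqns_cite : True := by
  have := @flS.eq_1; have := @flDH.eq_1; have := @flDN.eq_1; have := @flE0.eq_1; have := @flTau.eq_1; have := @flEL.eq_1
  have := @flCallL.eq_1; have := @flCallU.eq_1; have := @flRmin.eq_1; have := @flCallH.eq_1; have := @flBE.eq_1
  have := @flCL.eq_1; have := @flR0.eq_1; have := @flAL.eq_1
  trivial

end

end Claimed.Agent.R286
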