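import Claimed.Agent.R286.Fl.Defs
import Claimed.Agent.R286.Fl.Par

/-!
# Row 286 (S0533), PE Section 7, family (H): THE SEQUENCE FRAME OF SEC. 6 FOR THE WALL INSTANCES      (helper254; prefix `fls_`; head of PE Sec. 7 = helper196; consumer helper54 `fl_link_H`)

The exits of PE Sec. 6 (`Pe6/Contract.lean`) are statements along an arbitrary ultrafilter `U` on `ℕ` about sequences of instances.      Here: index `k` = the size `n`, `U ≤ atTop`,
`P k = flCallH k m`, temperature `T` fixed, ARBITRARY sequences of wall parameters `ε k ∈ [ε₀(k), T]`, `θ k ∈ [0,1]`, profile `φ k = flPsi k m`.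
* `flsC T m`            the record of constants `⟨m, T+2, (T-1)/2, T, 1, 1⟩`;   `fls_C_ok`
* `fls_unif`            THE CONVERTER: a statement along all `U ≤ atTop` and all sequences of parameters ⟹ eventually in `n`, uniformly in the parameters (choice of a violating sequence)
* `fls_wallseq`         `P6WallSeq U (flsC T m) (flCallH · m) T ε θ (flPsi · m)`;   `fls_seq` = `P6Seq` of the instances `flDW k m T (ε k) (θ k)`
* `fls_fam`             first field of `FlImpH`, fixed size (PE Lemma 7.2, first assertion)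
* `fls_ord0`, `fls_marg`      the family `θ = 0` is ORDINARY; margins `β0 = T/16`, clock bound `κ0 = T+1` of all changed paths, all strengths `0 ≤ l ≤ d²`, `j0 = 0` (`ε < T/4`) or `j0 = s`
* `fls_ex`, `fls_err`, `fls_profile`      minimisers exist (all `θ`), the error at `θ = 0`, the profile `p6Lo u ≤ r u ≤ p6Hi u` above `A_{d²}` at EVERY minimiser: eventually in `n`, uniformly in `(ε, θ, r)`
* `fls_link`            `FlImpH` from the imports of Sec. 6 and ONE remaining hypothesis `FlsLow` = (31) (suppression of the low-group mean at profiled minimisers)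
All model input enters through `hI : P6Imports flFn (flsC T m) cκ Cκ cT CT`  (`pec_imports`, `PE/Chain.lean`).
-/

set_option autoImplicit false

namespace Claimed.Agent.R286

open Filter Topology Set MeasureTheory Asymptotics

noncomputable section

/-! ## constants, converter -/

/-- the record of constants of the family (H) -/
def flsC (T m : ℝ) : P6C := ⟨m, T + 2, (T - 1) / 2, T, 1, 1⟩

theorem fls_defs_cite : True := by
  have := @flsC.eq_1
  trivial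

theorem fls_C_ok {T m : ℝ} (hT : 1 < T) (hm : 0 < m) (hm' : m ≤ 1 / 100) : (flsC T m).Ok where
  m_pos := hm
  m_le := hm'
  K_pos := by show 0 < T + 2; linarith
  ρ_pos := by show 0 < (T - 1) / 2; linarith
  ρ_lt := by show (T - 1) / 2 < T; linarith
  T_gt := hT
  cE_pos := one_pos
  D0_pos := one_pos

/-- **the converter**: along every ultrafilter and every sequence of parameters ⟹ eventually, uniformly in the parameters -/
theorem fls_unif {α : Type*} {H p : ℕ → α → Prop}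
    (h : ∀ U : Ultrafilter ℕ, (U : Filter ℕ) ≤ atTop → ∀ x : ℕ → α, (∀ᶠ k in (U : Filter ℕ), H k (x k)) → ∀ᶠ k in (U : Filter ℕ), p k (x k)) :
    ∀ᶠ n : ℕ in atTop, ∀ a, H n a → p n a := by
  rw [aq_eventually_iff_ultra]
  intro U hU
  by_contra hcon
  rw [← Ultrafilter.eventually_not] at hcon
  have h1 : ∀ᶠ k in (U : Filter ℕ), ∃ a, H k a ∧ ¬ p k a := hcon.mono fun k hk => by
    push Not at hk
    exact hk
  obtain ⟨k0, a0, -⟩ := h1.exists
  have : Nonempty α := ⟨a0⟩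
  obtain ⟨x, hx⟩ := h1.choice
  have h2 := h U hU x (hx.mono fun _ hk => hk.1)
  obtain ⟨k, hk1, hk2⟩ := (h2.and hx).exists
  exact hk2.2 hk1

/-! ## the wall sequence -/

variable {T m : ℝ}

theorem fls_psi_ok {n : ℕ} (hn : 0 < (n : ℝ)) :
    MonotoneOn (flPsi n m) (Icc 0 (flS n m)) ∧ ∀ u ∈ Icc 0 (flS n m), 0 ≤ flPsi n m u ∧ flPsi n m u ≤ 1 :=
  ⟨(flw_psi_mono (flp_S_pos hn) (flp_Tau_pos hn)).mono fun _ hu => hu.2,
    fun _ hu => flw_psi_mem (flp_S_pos hn) (flp_Tau_pos hn) hu.1 hu.2⟩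

/-- `d_H ≤ c` eventually -/
theorem fls_ev_DH (hm' : m ≤ 1 / 300) {c : ℝ} (hc : 0 < c) : ∀ᶠ n : ℕ in atTop, flDH n m ≤ c := by
  filter_upwards [flp_ev_small (x := 1 / 6 - 15 * m) (by linarith) hc] with n h
  have e : flDH n m = (n : ℝ) ^ (-(1 / 6 - 15 * m)) := by
    unfold flDH
    congr 1; ring
  rw [e]
  exact h

theorem fls_DH_tendsto (hm' : m ≤ 1 / 300) : Tendsto (fun n : ℕ => flDH n m) atTop (𝓝 0) := by
  rw [Metric.tendsto_atTop']
  intro η hη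
  obtain ⟨N, hN⟩ := eventually_atTop.1 ((fls_ev_DH (m := m) hm' (half_pos hη)).and flp_ev_pos)
  refine ⟨N, fun n hn => ?_⟩
  obtain ⟨h1, h2⟩ := hN n hn.le
  rw [Real.dist_eq, sub_zero, abs_of_pos (flp_DH_pos h2.1)]
  linarith

/-- **the hypotheses of Cor. 6.7** for the high call, arbitrary wall parameters -/
theorem fls_wallseq (hm : 0 < m) (hm' : m ≤ 1 / 300) {U : Ultrafilter ℕ} (hU : (U : Filter ℕ) ≤ atTop) {ε θ : ℕ → ℝ}
    (hε : ∀ᶠ k in (U : Filter ℕ), flE0 k m ≤ ε k ∧ ε k ≤ T) (hθ : ∀ᶠ k in (U : Filter ℕ), 0 ≤ θ k ∧ θ k ≤ 1) :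
    P6WallSeq U (flsC T m) (fun k => flCallH k m) (fun _ => T) ε θ (fun k => flPsi k m) where
  n_top := tendsto_natCast_atTop_atTop.mono_left hU
  m_eq := Eventually.of_forall fun _ => rfl
  ok := ((flp_ev_ok hm hm').filter_mono hU).mono fun _ h => h.2.2
  T_lim := tendsto_const_nhds
  u0_small := by
    rw [isLittleO_iff]
    intro c hc
    filter_upwards [(flp_ev_small (x := 5 * m) (by linarith) hc).filter_mono hU, flp_ev_pos.filter_mono hU] with k h hp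
    have ha : 0 < (flCallH k m).a := by
      rw [flp_H_a hp.1]
      exact Real.rpow_pos_of_pos hp.1 _
    show ‖flS k m‖ ≤ c * ‖(flCallH k m).a‖
    rw [Real.norm_of_nonneg (flp_S_pos hp.1).le, Real.norm_of_nonneg ha.le, flp_H_s hp.1]
    exact mul_le_mul_of_nonneg_right h ha.le
  rmin_pos := (flp_ev_pos.filter_mono hU).mono fun _ hp => flp_Rmin_pos hp.2 hm.le
  d_small := (fls_DH_tendsto hm').mono_left hU
  d_ε := by
    rw [isLittleO_iff]
    intro c hc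
    filter_upwards [(flp_ev_DH_E0 hm hc).filter_mono hU, flp_ev_pos.filter_mono hU, hε] with k h hp he
    have h0 := flp_E0_pos (m := m) hp.1
    show ‖flDH k m ^ 2‖ ≤ c * ‖ε k‖
    rw [Real.norm_of_nonneg (by positivity), Real.norm_of_nonneg (h0.le.trans he.1)]
    exact h.trans (mul_le_mul_of_nonneg_left he.1 hc.le)
  ε_rng := by
    filter_upwards [flp_ev_pos.filter_mono hU, hε] with k hp he
    exact ⟨lt_of_lt_of_le (flp_E0_pos hp.1) he.1, he.2⟩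
  θ_rng := hθ
  φ_ok := (flp_ev_pos.filter_mono hU).mono fun _ hp => fls_psi_ok hp.1

/-- the wall instances form a sequence of instances of Sec. 6 -/
theorem fls_seq (hT : 1 < T) (hm : 0 < m) (hm' : m ≤ 1 / 300) {U : Ultrafilter ℕ} (hU : (U : Filter ℕ) ≤ atTop) {ε θ : ℕ → ℝ}
    (hε : ∀ᶠ k in (U : Filter ℕ), flE0 k m ≤ ε k ∧ ε k ≤ T) (hθ : ∀ᶠ k in (U : Filter ℕ), 0 ≤ θ k ∧ θ k ≤ 1) :
    P6Seq U (flsC T m) (fun k => flDW k m T (ε k) (θ k)) :=
  p6_wall_P6Seq (fls_C_ok hT hm (by linarith)) le_rfl (fls_wallseq hm hm' hU hε hθ)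

/-! ## fixed size: admissibility, ordinary family at `θ = 0`, margins -/

/-- what is used of the size -/
structure FlsBig (n : ℕ) (m T : ℝ) : Prop where
  pos : 0 < (n : ℝ)
  one : 1 ≤ (n : ℝ)
  ok : (flCallH n m).Ok 1 1
  dE : flDH n m ^ 2 ≤ flE0 n m
  d16 : flDH n m ^ 2 ≤ T / 16
  d1 : flDH n m ^ 2 ≤ 1

theorem fls_big (hT : 1 < T) (hm : 0 < m) (hm' : m ≤ 1 / 300) : ∀ᶠ n : ℕ in atTop, FlsBig n m T := by
  have hq : 0 < min (1 : ℝ) (T / 16) := lt_min one_pos (by linarith)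
  filter_upwards [flp_ev_pos, flp_ev_ok hm hm', flp_ev_DH_E0 hm one_pos, fls_ev_DH (m := m) hm' hq] with n hp hok h1 h2
  have hd := flp_DH_pos (m := m) hp.1
  have hd1 : flDH n m ≤ 1 := h2.trans (min_le_left _ _)
  have hsq : flDH n m ^ 2 ≤ flDH n m := by nlinarith
  exact ⟨hp.1, hp.2, hok.2.2, by linarith, hsq.trans (h2.trans (min_le_right _ _)), hsq.trans hd1⟩

/-- **PE Lemma 7.2, first assertion** at one size: every changed path of the wall instance is admissible -/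
theorem fls_fam_fix {n : ℕ} (hb : FlsBig n m T) {ε θ : ℝ} (hε : flE0 n m ≤ ε) (hεT : ε ≤ T) (hθ0 : 0 ≤ θ) (hθ1 : θ ≤ 1) :
    (flDW n m T ε θ).Fam (flDH n m ^ 2) :=
  p6_wall_adm one_pos hb.ok (lt_of_lt_of_le (flp_E0_pos hb.pos) hε) hεT hθ0 hθ1 (fls_psi_ok hb.pos).1 (fls_psi_ok hb.pos).2
    (hb.dE.trans hε) (p6w_rmin_le_d one_pos hb.ok)

theorem fls_b0 (n : ℕ) (m T ε θ u : ℝ) :
    (flDW n m T ε θ).b0 u = if u < flS n m then T - (ε + θ * (min ε (T - ε) / 2)) else T := rfl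

theorem fls_h0_zero (n : ℕ) (m T ε u : ℝ) : (flDW n m T ε 0).h0 u = 0 := by
  show (if u < flS n m then 0 * (min ε (T - ε) / 2) * (flDH n m ^ 2 * flRmin n m / (2 * ε)) * flPsi n m u else 0) = 0
  split_ifs <;> simp

theorem fls_b0_zero (n : ℕ) (m T ε : ℝ) : (flDW n m T ε 0).b0 = flBE n m T ε := by
  funext u
  rw [fls_b0]
  unfold flBE
  simp

theorem fls_h0_zero' (n : ℕ) (m T ε : ℝ) : (flDW n m T ε 0).h0 = fun _ => 0 := funext fun u => fls_h0_zero n m T ε u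

/-- the bare endpoint of the family `θ = 0` has the pressure `p(ε)` -/
theorem fls_bare (n : ℕ) (m T ε : ℝ) : flFn (flDW n m T ε 0).P.n (flDW n m T ε 0).b0 (flDW n m T ε 0).h0 = flP n m T ε := by
  rw [fls_b0_zero, fls_h0_zero']
  rfl

/-- the family `θ = 0` is ORDINARY (Def. 6.1) -/
theorem fls_ord0 {n : ℕ} (hb : FlsBig n m T) {ε : ℝ} (hε : flE0 n m ≤ ε) (hεT : ε ≤ T) : (flDW n m T ε 0).Ord := by
  have hε0 : 0 < ε := lt_of_lt_of_le (flp_E0_pos hb.pos) hε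
  have hmono : MonotoneOn (flDW n m T ε 0).b0 (Icc 0 1) := by
    intro u _ v _ huv
    rw [fls_b0_zero]
    unfold flBE
    by_cases h2 : v < flS n m
    · rw [if_pos h2, if_pos (lt_of_le_of_lt huv h2)]
    · rw [if_neg h2]
      split_ifs <;> linarith
  have hb00 : 0 ≤ (flDW n m T ε 0).b0 0 := by
    rw [fls_b0_zero]
    unfold flBE
    split_ifs <;> linarith
  refine ⟨⟨⟨hmono, hb00⟩, ⟨?_, ?_⟩⟩, ?_⟩
  · intro u _ v _ _
    rw [fls_h0_zero, fls_h0_zero]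
  · rw [fls_h0_zero]
  · intro lam hl0 hl z hz
    have hl' : lam ≤ flDH n m ^ 2 := hl
    have hok : (flDW n m T ε 0).P.Ok 1 1 := hb.ok
    refine ⟨p6f_Pb_clk one_pos hok hz hl0 hmono hb00 ?_ ?_, p6f_Ph_clk one_pos hok hz hl0 ?_ ?_ ?_ ?_⟩
    · intro u v _ h2 h3 _
      have h2' : u < flS n m := h2
      have h3' : flS n m ≤ v := h3
      rw [fls_b0_zero]
      unfold flBE
      rw [if_pos h2', if_neg (not_lt.2 h3')]
      linarith [hb.dE]
    · intro h0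
      have h0' : flS n m = 0 := h0
      exact absurd h0' (flp_S_pos hb.pos).ne'
    · intro u _ v _ _
      rw [fls_h0_zero, fls_h0_zero]
    · intro u _ v _ _
      rw [fls_h0_zero, fls_h0_zero]
    · rw [fls_h0_zero]
    · intro u v _ _ h3 h4
      rw [fls_h0_zero, fls_h0_zero, zero_add]
      exact (p6f_re_bd one_pos hok hz hl0 (⟨h3, h4⟩ : v ∈ Icc (flDW n m T ε 0).P.u0 1)).1

/-- the left end of the working interval of all descendants -/
def flsJ (n : ℕ) (m T ε : ℝ) : ℝ := if ε < T / 4 then 0 else flS n m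

theorem fls_J_rng {n : ℕ} (hn : 0 < (n : ℝ)) (ε : ℝ) : 0 ≤ flsJ n m T ε ∧ flsJ n m T ε ≤ flS n m := by
  have := flp_S_pos (m := m) hn
  unfold flsJ
  split_ifs
  · exact ⟨le_rfl, this.le⟩
  · exact ⟨this.le, le_rfl⟩

/-- margins and clock bounds of ALL changed wall paths, all strengths `0 ≤ l ≤ d²` -/
theorem fls_marg {n : ℕ} (hT : 1 < T) (hb : FlsBig n m T) {ε θ : ℝ} (hε : flE0 n m ≤ ε) (hεT : ε ≤ T) (hθ0 : 0 ≤ θ) (hθ1 : θ ≤ 1)
    {l : ℝ} (hl0 : 0 ≤ l) (hl : l ≤ flDH n m ^ 2) {r : ℝ → ℝ} (hr : (flCallH n m).Fe r) :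
    P6Marg ((flDW n m T ε θ).Pb l r) (flsJ n m T ε) (T / 16) ∧ P6Bd ((flDW n m T ε θ).Pb l r) ((flDW n m T ε θ).Ph l r) (T + 1) := by
  have hε0 : 0 < ε := lt_of_lt_of_le (flp_E0_pos hb.pos) hε
  obtain ⟨l1, l2, l3⟩ := p6w_low hε0 hεT hθ0 hθ1
  set bl : ℝ := T - (ε + θ * (min ε (T - ε) / 2)) with hbl
  have hPb : ∀ u, (flDW n m T ε θ).Pb l r u = if flS n m ≤ u then T - (flCallH n m).e l (r u) else bl := by
    intro u
    unfold P6D.Pb
    by_cases h0 : flS n m ≤ u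
    · have h0' : (flDW n m T ε θ).P.u0 ≤ u := h0
      rw [if_pos h0', if_pos h0, fls_b0, if_neg (not_lt.2 h0)]
      rfl
    · have h0' : ¬ (flDW n m T ε θ).P.u0 ≤ u := h0
      rw [if_neg h0', if_neg h0, fls_b0, if_pos (not_le.1 h0)]
  have he : ∀ t, 0 ≤ (flCallH n m).e l t ∧ (flCallH n m).e l t ≤ flDH n m ^ 2 := fun t =>
    ⟨(p6f_e_bd hl0 t).1, (p6f_e_bd hl0 t).2.trans hl⟩
  have hd16 := hb.d16
  have hd1 := hb.d1
  refine ⟨?_, ?_⟩
  · unfold flsJ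
    by_cases hε4 : ε < T / 4
    · rw [if_pos hε4]
      refine ⟨?_, ?_⟩
      · intro u _ _
        rw [hPb]
        split_ifs
        · linarith [(he (r u)).2]
        · linarith
      · intro u v a1 a2 _ _
        exact absurd a1 (not_le.2 a2)
    · rw [if_neg hε4]
      refine ⟨?_, ?_⟩
      · intro u a1 _
        rw [hPb, if_pos a1]
        linarith [(he (r u)).2]
      · intro u v _ a2 a3 _
        rw [hPb, hPb, if_pos a3, if_neg (not_le.2 a2)]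
        have := not_lt.1 hε4
        linarith [(he (r v)).2]
  · intro u hu
    refine ⟨?_, ?_⟩
    · rw [hPb]
      split_ifs <;> rw [abs_le] <;> constructor <;> linarith [(he (r u)).1, (he (r u)).2]
    · unfold P6D.Ph
      obtain ⟨f0, f1⟩ := p6w_h0_bd (T := T) (ε := ε) (θ := θ) (φ := flPsi n m) one_pos hb.ok hε0 hεT hθ0 hθ1 (fls_psi_ok hb.pos).2 hd1 hu.1
      have f0' : 0 ≤ (flDW n m T ε θ).h0 u := f0
      have f1' : (flDW n m T ε θ).h0 u ≤ 1 / 4 := f1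
      by_cases h0 : flS n m ≤ u
      · have h0' : (flDW n m T ε θ).P.u0 ≤ u := h0
        rw [if_pos h0']
        obtain ⟨g0, g1⟩ := p6f_re_bd one_pos hb.ok hr hl0 (⟨h0, hu.2⟩ : u ∈ Icc (flCallH n m).u0 1)
        have g0' : 0 ≤ (flDW n m T ε θ).P.e l (r u) * r u := g0
        have g1' : (flDW n m T ε θ).P.e l (r u) * r u ≤ l := g1
        rw [abs_le]
        constructor <;> linarith
      · have h0' : ¬ (flDW n m T ε θ).P.u0 ≤ u := h0
        rw [if_neg h0', abs_le]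
        constructor <;> linarith

/-! ## eventually in `n`, uniformly in the wall parameters -/

variable {cκ Cκ cT CT : ℝ}

/-- **minimisers exist** for all wall parameters (PE Lemma 3.1 through `P6ImpMin`) -/
theorem fls_ex (hI : P6Imports flFn (flsC T m) cκ Cκ cT CT) (hT : 1 < T) (hm : 0 < m) (hm' : m ≤ 1 / 300) :
    ∀ᶠ n : ℕ in atTop, ∀ ε θ : ℝ, flE0 n m ≤ ε → ε ≤ T → 0 ≤ θ → θ ≤ 1 → ∃ r, (flDW n m T ε θ).IsMin flFn (flDH n m ^ 2) r := by
  have h := fls_unif (α := ℝ × ℝ) (H := fun n a => flE0 n m ≤ a.1 ∧ a.1 ≤ T ∧ 0 ≤ a.2 ∧ a.2 ≤ 1)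
    (p := fun n a => ∃ r, (flDW n m T a.1 a.2).IsMin flFn (flDH n m ^ 2) r) ?_
  · filter_upwards [h] with n hn ε θ h1 h2 h3 h4 using hn (ε, θ) ⟨h1, h2, h3, h4⟩
  · intro U hU x hx
    have hseq := fls_seq hT hm hm' hU (ε := fun k => (x k).1) (θ := fun k => (x k).2) (hx.mono fun _ h => ⟨h.1, h.2.1⟩) (hx.mono fun _ h => h.2.2)
    filter_upwards [hI.exMin U _ hseq, (fls_big hT hm hm').filter_mono hU, hx] with k h1 hb h2
    exact h1 (flDH k m ^ 2) (by positivity) le_rfl (fls_fam_fix hb h2.1 h2.2.1 h2.2.2.1 h2.2.2.2)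

/-- **Prop. 6.6, error bound, for the ordinary family `θ = 0`**: all strengths, all minimisers, uniformly in `ε` -/
theorem fls_error (hI : P6Imports flFn (flsC T m) cκ Cκ cT CT) (hT : 1 < T) (hm : 0 < m) (hm' : m ≤ 1 / 300) :
    ∀ᶠ n : ℕ in atTop, ∀ ε : ℝ, flE0 n m ≤ ε → ε ≤ T → ∀ l s, 0 ≤ l → l ≤ flDH n m ^ 2 → (flDW n m T ε 0).IsMin flFn l s →
      0 ≤ (flDW n m T ε 0).err flFn l s ∧ (flDW n m T ε 0).err flFn l s ≤ (n : ℝ) ^ (20 * (m / 10000)) * (flCallH n m).E := by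
  have h := fls_unif (α := ℝ) (H := fun n a => flE0 n m ≤ a ∧ a ≤ T)
    (p := fun n a => ∀ l s, 0 ≤ l → l ≤ flDH n m ^ 2 → (flDW n m T a 0).IsMin flFn l s →
      0 ≤ (flDW n m T a 0).err flFn l s ∧ (flDW n m T a 0).err flFn l s ≤ (n : ℝ) ^ (20 * (m / 10000)) * (flCallH n m).E) ?_
  · filter_upwards [h] with n hn ε h1 h2 using hn ε ⟨h1, h2⟩
  · intro U hU x hx
    have hseq := fls_seq hT hm hm' hU (ε := x) (θ := fun _ => 0) hx (Eventually.of_forall fun _ => ⟨le_rfl, zero_le_one⟩)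
    have hbig := (fls_big hT hm hm').filter_mono hU
    exact p6_error (β0 := T / 16) (κ0 := T + 1) (j0 := fun k => flsJ k m T (x k)) hI (fls_C_ok hT hm (by linarith)) (by linarith)
      (by show T + 1 + 1 ≤ T + 2; linarith) hseq
      (by filter_upwards [hbig, hx] with k hb h2 using fls_ord0 hb h2.1 h2.2)
      (by filter_upwards [hbig] with k hb using fls_J_rng hb.pos (x k))
      (by filter_upwards [hbig, hx] with k hb h2 l s h3 h4 h5 using fls_marg hT hb h2.1 h2.2 le_rfl zero_le_one h3.le h4 h5)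

/-- third field of `FlImpH`: `J_0^* ≤ p(ε) + n^m E` -/
theorem fls_err (hI : P6Imports flFn (flsC T m) cκ Cκ cT CT) (hT : 1 < T) (hm : 0 < m) (hm' : m ≤ 1 / 300) :
    ∀ᶠ n : ℕ in atTop, ∀ ε : ℝ, flE0 n m ≤ ε → ε ≤ T →
      ∃ r : ℝ → ℝ, (flCallH n m).Fe r ∧ (flDW n m T ε 0).obj flFn (flDH n m ^ 2) r ≤ flP n m T ε + (n : ℝ) ^ m * (flCallH n m).E := by
  filter_upwards [fls_ex hI hT hm hm', fls_error hI hT hm hm', flp_ev_pos] with n h1 h2 hp ε h3 h4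
  obtain ⟨r, hr⟩ := h1 ε 0 h3 h4 le_rfl zero_le_one
  refine ⟨r, hr.1, ?_⟩
  have h5 := (h2 ε h3 h4 _ r (by positivity) le_rfl hr).2
  unfold P6D.err at h5
  rw [fls_bare] at h5
  have hE : 0 ≤ (flCallH n m).E := by
    rw [flp_H_E]
    exact Real.rpow_nonneg hp.1.le _
  have h6 : (n : ℝ) ^ (20 * (m / 10000)) ≤ (n : ℝ) ^ m := flp_rp_le hp.2 (by linarith)
  have := mul_le_mul_of_nonneg_right h6 hE
  linarith

/-- **PE Lemma 7.2 = Cor. 6.7 for the high call**: the profile at EVERY minimiser, uniformly in `(ε, θ)` -/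
theorem fls_profile (hI : P6Imports flFn (flsC T m) cκ Cκ cT CT) (hT : 1 < T) (hm : 0 < m) (hm' : m ≤ 1 / 300) :
    ∀ᶠ n : ℕ in atTop, ∀ ε θ : ℝ, flE0 n m ≤ ε → ε ≤ T → 0 ≤ θ → θ ≤ 1 → ∀ r, (flDW n m T ε θ).IsMin flFn (flDH n m ^ 2) r →
      ∀ u, (flCallH n m).Al (flDH n m ^ 2) ≤ u → u ≤ 1 → p6Lo Cκ cT * u ≤ r u ∧ r u ≤ p6Hi cκ CT * u := by
  have h := fls_unif (α := ℝ × ℝ × (ℝ → ℝ))
    (H := fun n a => flE0 n m ≤ a.1 ∧ a.1 ≤ T ∧ 0 ≤ a.2.1 ∧ a.2.1 ≤ 1 ∧ (flDW n m T a.1 a.2.1).IsMin flFn (flDH n m ^ 2) a.2.2)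
    (p := fun n a => ∀ u, (flCallH n m).Al (flDH n m ^ 2) ≤ u → u ≤ 1 → p6Lo Cκ cT * u ≤ a.2.2 u ∧ a.2.2 u ≤ p6Hi cκ CT * u) ?_
  · filter_upwards [h] with n hn ε θ h1 h2 h3 h4 r h5 using hn (ε, θ, r) ⟨h1, h2, h3, h4, h5⟩
  · intro U hU x hx
    have hw := fls_wallseq (T := T) hm hm' hU (ε := fun k => (x k).1) (θ := fun k => (x k).2.1) (hx.mono fun _ h => ⟨h.1, h.2.1⟩)
      (hx.mono fun _ h => ⟨h.2.2.1, h.2.2.2.1⟩)
    exact p6_wall (r := fun k => (x k).2.2) hI (fls_C_ok hT hm (by linarith)) le_rfl hw (hx.mono fun _ h => h.2.2.2.2)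

/-! ## assembly of `FlImpH` -/

/-- **the one remaining input** = (31), second assertion of PE Lemma 7.3: suppression of the low-group mean at every minimiser WHICH HAS THE PROFILE of Lemma 7.2, every `θ`, every low cut -/
def FlsLow (n : ℕ) (m T c C CS : ℝ) : Prop :=
  ∀ ε θ : ℝ, flE0 n m ≤ ε → ε < T → 0 ≤ θ → θ ≤ 1 → ∀ r : ℝ → ℝ, (flDW n m T ε θ).IsMin flFn (flDH n m ^ 2) r →
    (∀ u, (flCallH n m).Al (flDH n m ^ 2) ≤ u → u ≤ 1 → c * u ≤ r u ∧ r u ≤ C * u) →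
    ∀ u ∈ Ioo (0 : ℝ) (flS n m),
      skCS n 1 ((flDW n m T ε θ).Pb (flDH n m ^ 2) r) ((flDW n m T ε θ).Ph (flDH n m ^ 2) r) (ghPosA u) ≤ flAL n m CS ε

theorem fls_defs_cite' : True := by
  have := @flsJ.eq_1; have := @FlsLow.eq_1
  trivial

/-- **`FlImpH` eventually, for all `ε ∈ [ε₀,T)`**, from the imports of Sec. 6 and (31) -/
theorem fls_link (hI : P6Imports flFn (flsC T m) cκ Cκ cT CT) (hT : 1 < T) (hm : 0 < m) (hm' : m ≤ 1 / 300) {CS : ℝ}
    (hlow : ∀ᶠ n : ℕ in atTop, FlsLow n m T (p6Lo Cκ cT) (p6Hi cκ CT) CS) :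
    ∀ᶠ n : ℕ in atTop, ∀ ε : ℝ, flE0 n m ≤ ε → ε < T → FlImpH n m T CS ε := by
  filter_upwards [fls_big hT hm hm', fls_ex hI hT hm hm', fls_err hI hT hm hm', fls_profile hI hT hm hm', hlow] with n hb h1 h2 h3 h4 ε h5 h6
  exact ⟨fun θ hθ => fls_fam_fix hb h5 h6.le hθ.1 hθ.2, fun θ hθ => h1 ε θ h5 h6.le hθ.1 hθ.2, h2 ε h5 h6.le,
    fun θ hθ r hr u hu => h4 ε θ h5 h6 hθ.1 hθ.2 r hr (h3 ε θ h5 h6.le hθ.1 hθ.2 r hr) u hu⟩

/-- the shape of `fl_link_H`, from a supplier of the imports of Sec. 6 (`pec_imports`) and a supplier of (31) with the constants of Prop. 6.6 given FIRST -/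
theorem fls_link_H (hT : 1 < T) (himp : ∀ c : P6C, c.Ok → ∃ cκ Cκ cT CT : ℝ, P6Imports flFn c cκ Cκ cT CT)
    (hlow : ∃ m1 : ℝ, 0 < m1 ∧ ∀ m : ℝ, 0 < m → m < m1 → ∀ c C : ℝ, 0 < c → c < C → ∃ CS : ℝ, 0 < CS ∧ ∀ᶠ n : ℕ in atTop, FlsLow n m T c C CS) :
    ∃ m0 : ℝ, 0 < m0 ∧ ∀ m : ℝ, 0 < m → m < m0 →
      ∃ CS : ℝ, 0 < CS ∧ ∀ᶠ n : ℕ in atTop, ∀ ε : ℝ, flE0 n m ≤ ε → ε < T → FlImpH n m T CS ε := by
  obtain ⟨m1, hm1, hlow⟩ := hlow
  refine ⟨min m1 (1 / 300), lt_min hm1 (by norm_num), fun m hm hmm => ?_⟩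
  have hm' : m ≤ 1 / 300 := (hmm.trans_le (min_le_right _ _)).le
  obtain ⟨cκ, Cκ, cT, CT, hI⟩ := himp (flsC T m) (fls_C_ok hT hm (by linarith))
  obtain ⟨CS, hCS, hl⟩ := hlow m hm (hmm.trans_le (min_le_left _ _)) (p6Lo Cκ cT) (p6Hi cκ CT) (p6Lo_pos hI.κ_rng hI.T_rng) p6Lo_lt_Hi
  exact ⟨CS, hCS, fls_link hI hT hm hm' hl⟩

end

end Claimed.Agent.R286
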